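import Vale.Agent.P154.NegEnd2.PointCert

/-!
P154 NegEnd2: a local affinity certificate for three states on `[-497/1000, -473/1000]`.
-/

namespace Vale.Agent.P154.NegEnd2

open NegEnd

/-- The certificate below `113/1000`. -/
theorem affCertBelow {lam : ℝ} (h0 : -(497 / 1000) ≤ lam) (h1 : lam ≤ -(473 / 1000)) :
    NegLocal.AffCertBelow 3 lam (1 / lam ^ 2) (genPoisson (1 / lam ^ 2))
      (fun _ => (1 / 3 : ℝ)) (113 / 1000) := by
  have hlam : 0 < lam ^ 2 := pow_two_pos_of_ne_zero (by linarith)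
  have hd : 0 < 1 / lam ^ 2 := by positivity
  have hadm : -(1 / (((3 : ℕ) : ℝ) - 1)) ≤ lam := by norm_num; linarith
  have e : atom 0 = fun _ => (1 / 3 : ℝ) := by
    funext i; fin_cases i <;> simp [atom, atomI] <;> norm_num
  exact e ▸ NegLocal.affCertBelow_of_tanCertBelow (by norm_num) lam hadm (by linarith) hd
    zero_le_one (tanBd_poisson hd) (tanCert h0 h1)

/-- No reconstruction on `[-497/1000, -473/1000]` once the transient is below `113/1000`. -/
theorem nonReconstructs_of_small {lam : ℝ} (h0 : -(497 / 1000) ≤ lam)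
    (h1 : lam ≤ -(473 / 1000)) (hl : -(1 / (((3 : ℕ) : ℝ) - 1)) ≤ lam) (hl' : lam ≤ 1) {n₀ : ℕ}
    (hsmall : ∀ n, n₀ ≤ n → NegTrans.tauP lam hl hl' (1 / lam ^ 2) n ≤ 113 / 1000 * lam ^ 2)
    {d : ℝ} (hd : 0 ≤ d) (hle : d * lam ^ 2 ≤ 1) : NonReconstructs (aPoisson 3 lam d) :=
  NegLocal.nonReconstructs_three_of_below lam hl hl' (by linarith) (affCertBelow h0 h1) hsmall hd
    hle

end Vale.Agent.P154.NegEnd2
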