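import Vale.Agent.P154.NegEnd.Bounds

/-!
P154 NegEnd2: tangent bounds of the second order remainder of Poisson trees on `[0, 31/10]`.
-/

namespace Vale.Agent.P154.NegEnd2

open Finset Set NegMid.TanBd

/-- Lower bound of `exp (-x) - 1 + x`, of degree eleven. -/
noncomputable def tLo (x : ℝ) : ℝ :=
  NegEnd.sLo x + x ^ 10 / 3628800 - x ^ 11 / 39916800

/-- Its derivative. -/
noncomputable def tLo' (x : ℝ) : ℝ :=
  NegEnd.sLo' x + x ^ 9 / 362880 - x ^ 10 / 3628800

/-- Upper bound of `exp (-x) - 1 + x`, of degree twelve. -/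
noncomputable def tHi (x : ℝ) : ℝ := tLo x + x ^ 12 / 479001600

/-- Its derivative. -/
noncomputable def tHi' (x : ℝ) : ℝ := tLo' x + x ^ 11 / 39916800

namespace Ser

lemma tLo_eq : tLo = fun x => T 12 x - 1 + x := by
  funext x
  simp [T, tLo, NegEnd.sLo, Finset.sum_range_succ, Nat.factorial]
  ring

lemma tHi_eq : tHi = fun x => T 13 x - 1 + x := by
  funext x
  simp [T, tHi, tLo, NegEnd.sLo, Finset.sum_range_succ, Nat.factorial]
  ring

lemma tLo'_eq : tLo' = fun x => 1 - T 11 x := by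
  funext x
  simp [T, tLo', NegEnd.sLo', Finset.sum_range_succ, Nat.factorial]
  ring

lemma tHi'_eq : tHi' = fun x => 1 - T 12 x := by
  funext x
  simp [T, tHi', tLo', NegEnd.sLo', Finset.sum_range_succ, Nat.factorial]
  ring

lemma T_ten_nonneg {x : ℝ} (hx : x ∈ Icc (0 : ℝ) (31 / 10)) : 0 ≤ T 10 x := by
  have hanti : AntitoneOn (T 10) (Icc (0 : ℝ) (31 / 10)) :=
    antitoneOn_of_hasDerivWithinAt_nonpos (convex_Icc 0 _)
      (fun y _ => (hasDerivAt_T 9 y).continuousAt.continuousWithinAt)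
      (fun y _ => (hasDerivAt_T 9 y).hasDerivWithinAt)
      fun y hy => by
        have := T_sign 9 y (interior_subset hy).1
        norm_num at this
        linarith [Real.exp_pos (-y)]
  refine le_trans ?_ (hanti hx (right_mem_Icc.2 (by norm_num)) hx.2)
  simp [T, Finset.sum_range_succ, Nat.factorial]
  norm_num

lemma T_eleven_le {x : ℝ} (hx : x ∈ Icc (0 : ℝ) (31 / 10)) : T 11 x ≤ 1 := by
  obtain ⟨h0, h2⟩ := hx
  have e : T 11 x = T 10 x + x ^ 10 / 3628800 := by
    simp [T, Finset.sum_range_succ, Nat.factorial, (show Even 10 by decide).neg_pow]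
  have h8 := T_sign 10 x h0
  norm_num at h8
  have he : Real.exp (-x) ≤ 1 / (1 + x) := by
    rw [Real.exp_neg, one_div]
    exact inv_anti₀ (by linarith) (by linarith [Real.add_one_le_exp x])
  have hp : x ^ 9 * (1 + x) ≤ 3628800 :=
    le_trans (mul_le_mul (pow_le_pow_left₀ h0 h2 9) (by linarith : 1 + x ≤ 41 / 10)
      (by linarith) (by positivity)) (by norm_num)
  have hle : x ^ 10 / 3628800 ≤ x / (1 + x) := by
    rw [div_le_div_iff₀ (by norm_num) (by linarith)]
    nlinarith [mul_le_mul_of_nonneg_left hp h0]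
  have : 1 / (1 + x) + x / (1 + x) = 1 := by rw [← add_div]; exact div_self (by linarith)
  linarith

end Ser

open Ser

/-- The tangent bounds for a Poisson number of children. -/
theorem tanBd_poisson {d : ℝ} (hd : 0 < d) :
    NegEnd.TanBd (genPoisson d) d 1 (31 / 10) tLo tLo' tHi tHi' := by
  intro z hz hz2 a ha ha2 _
  have hG : genPoisson d (1 - a / d) = Real.exp (-a) := by
    rw [genPoisson]
    congr 1
    field_simp
    ring
  rw [hG, tLo'_eq, tHi'_eq, tLo_eq, tHi_eq]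
  have d1l : ∀ x ∈ Icc (0 : ℝ) (31 / 10), HasDerivAt (fun x => T 12 x - 1 + x) (1 - T 11 x) x :=
    fun x _ => (((hasDerivAt_T 11 x).sub_const 1).add (hasDerivAt_id x)).congr_deriv (by ring)
  have d1h : ∀ x ∈ Icc (0 : ℝ) (31 / 10), HasDerivAt (fun x => T 13 x - 1 + x) (1 - T 12 x) x :=
    fun x _ => (((hasDerivAt_T 12 x).sub_const 1).add (hasDerivAt_id x)).congr_deriv (by ring)
  have d2l : ∀ x ∈ Icc (0 : ℝ) (31 / 10), HasDerivAt (fun x => 1 - T 11 x) (T 10 x) x :=
    fun x _ => ((hasDerivAt_T 10 x).const_sub 1).congr_deriv (by ring)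
  have d2h : ∀ x ∈ Icc (0 : ℝ) (31 / 10), HasDerivAt (fun x => 1 - T 12 x) (T 11 x) x :=
    fun x _ => ((hasDerivAt_T 11 x).const_sub 1).congr_deriv (by ring)
  have l1 := tangent_le d1l d2l (fun x => T_ten_nonneg) (z := z) ⟨hz, hz2⟩ ⟨ha, ha2⟩
  have u1 := le_tangent d1h d2h (fun x => T_eleven_le) (z := z) ⟨hz, hz2⟩ ⟨ha, ha2⟩
  have h12 := T_sign 12 a ha
  have h13 := T_sign 13 a ha
  norm_num at h12 h13
  exact ⟨by linarith, by linarith⟩

end Vale.Agent.P154.NegEnd2
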