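import Vale.Agent.P154.NegEnd.EnvBase

/-!
P154 NegEnd2: range alternatives for `|lam| ≤ 497/1000`.
-/

namespace Vale.Agent.P154.NegEnd2

open PolyCheck NegEnd

/-- Outside the range: `v` exceeds `497 / 1000`. -/
def eOut : Ex := Ex.c 1000000 * (Ex.c 3000 - Ex.c 1497 * eYs) - Ex.c 1

/-- The alternatives of an envelope: the expression, out of range, or the expression plus a
multiple of a quantity that is nonpositive in range. -/
def envAlts (n : ℕ) (e : Ex) (ks : List ℤ) : List (List Ex) :=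
  [e] :: [eOut] :: ks.map fun k => [e + Ex.c k * (Ex.c 3000 - Ex.c 1497 * eYs) * eYs ^ n]

/-- An expression certified on the unit square, in range. -/
theorem env_nonneg {e : Ex} {n : ℕ} {ks : List ℤ} {T : ACut} (hk : ∀ k ∈ ks, 0 ≤ k)
    (h : checkAlt 2 (envAlts n e ks) T [⟨0, 1, 1⟩, ⟨0, 1, 1⟩] = true) {p z : ℝ} (hp : 0 ≤ p)
    (hp1 : p ≤ 1) (hz : 0 ≤ z) (hz1 : z ≤ 1) (hY : 0 ≤ ysum (chart p z))
    (hr : 3000 ≤ 1497 * ysum (chart p z)) :
    0 ≤ e.eval (pt [p, z]) := by
  have hm : ∀ x : ℝ, 0 ≤ x → x ≤ 1 → (⟨0, 1, 1⟩ : Iv).Mem x := fun x h0 h1 => by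
    simp [Iv.Mem, h0, h1]
  obtain ⟨es, hes, hall⟩ := checkAlt_sound 2 _ T _ (pt [p, z]) h
    ⟨hm p hp hp1, hm z hz hz1, trivial⟩
  simp only [envAlts, List.mem_cons, List.mem_map] at hes
  rcases hes with rfl | rfl | ⟨k, hkm, rfl⟩
  · exact hall e (by simp)
  · have := hall eOut (by simp)
    simp only [eOut, eval_sub, eval_mul, eval_c, eYs_eval] at this
    push_cast at this
    linarith
  · have := hall _ (List.mem_cons_self ..)
    simp only [eval_add, eval_sub, eval_mul, eval_pow, eval_c, eYs_eval] at this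
    push_cast at this
    have hkr : (0 : ℝ) ≤ k := by exact_mod_cast hk k hkm
    have := mul_nonpos_of_nonpos_of_nonneg
      (mul_nonpos_of_nonneg_of_nonpos hkr
        (sub_nonpos.2 hr)) (pow_nonneg hY n)
    linarith

end Vale.Agent.P154.NegEnd2
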