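import Vale.Agent.P154.NegEnd2.ClosingData
import Vale.Agent.P154.NegEnd2.EnvBase

/-!
P154 NegEnd2: certificate of the closing inequality in chart 1 (generated).
-/

namespace Vale.Agent.P154.NegEnd2

open PolyCheck NegEnd


theorem chkClo1_leaves0 : (checkAlt 4 alts1 (.leaf 0) [⟨0, 1, 10⟩, ⟨-1, 1, 1⟩, ⟨473, 497, 1000⟩, ⟨0, 2, 1⟩] = true) := by
  decide +kernel

theorem chkClo1_0 : checkAlt 4 alts1 (.leaf 0)
    [⟨0, 1, 10⟩, ⟨-1, 1, 1⟩, ⟨473, 497, 1000⟩, ⟨0, 2, 1⟩] = true := chkClo1_leaves0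

theorem chkClo1 : checkAlt 4 alts1 (.leaf 0)
    [⟨0, 1, 10⟩, ⟨-1, 1, 1⟩, ⟨473, 497, 1000⟩, ⟨0, 2, 1⟩] = true :=
  chkClo1_0

end Vale.Agent.P154.NegEnd2
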