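import Vale.Agent.P154.NegEnd2.ClosingData
import Vale.Agent.P154.NegEnd2.EnvBase

/-!
P154 NegEnd2: certificate of the closing inequality in chart 2 (generated).
-/

namespace Vale.Agent.P154.NegEnd2

open PolyCheck NegEnd


theorem chkClo2_leaves0 :
    (checkAlt 4 alts2 (.leaf 0) [⟨0, 708, 2000⟩, ⟨-1, 1, 1⟩, ⟨473, 497, 1000⟩, ⟨0, 337, 2000⟩] = true) ∧
    (checkAlt 4 alts2 (.leaf 0) [⟨708, 1416, 2000⟩, ⟨-1, 1, 1⟩, ⟨473, 497, 1000⟩, ⟨0, 337, 2000⟩] = true) ∧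
    (checkAlt 4 alts2 (.leaf 0) [⟨0, 708, 2000⟩, ⟨-1, 1, 1⟩, ⟨473, 497, 1000⟩, ⟨337, 674, 2000⟩] = true) ∧
    (checkAlt 4 alts2 (.leaf 0) [⟨708, 1416, 2000⟩, ⟨-1, 1, 1⟩, ⟨473, 497, 1000⟩, ⟨674, 1011, 4000⟩] = true) ∧
    (checkAlt 4 alts2 (.leaf 0) [⟨1416, 2124, 4000⟩, ⟨-1, 1, 1⟩, ⟨473, 497, 1000⟩, ⟨1011, 1348, 4000⟩] = true) ∧
    (checkAlt 4 alts2 (.leaf 0) [⟨2124, 2832, 4000⟩, ⟨-1, 1, 1⟩, ⟨473, 497, 1000⟩, ⟨1011, 1348, 4000⟩] = true) := by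
  refine ⟨?_, ?_, ?_, ?_, ?_, ?_⟩ <;> decide +kernel

theorem chkClo2_0 : checkAlt 4 alts2 (.leaf 0)
    [⟨0, 708, 2000⟩, ⟨-1, 1, 1⟩, ⟨473, 497, 1000⟩, ⟨0, 337, 2000⟩] = true := chkClo2_leaves0.1

theorem chkClo2_1 : checkAlt 4 alts2 (.leaf 0)
    [⟨708, 1416, 2000⟩, ⟨-1, 1, 1⟩, ⟨473, 497, 1000⟩, ⟨0, 337, 2000⟩] = true := chkClo2_leaves0.2.1

theorem chkClo2_2 : checkAlt 4 alts2 (.cut 0 (.leaf 0) (.leaf 0))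
    [⟨0, 708, 1000⟩, ⟨-1, 1, 1⟩, ⟨473, 497, 1000⟩, ⟨0, 337, 2000⟩] = true := checkAlt_cut chkClo2_0 chkClo2_1

theorem chkClo2_3 : checkAlt 4 alts2 (.leaf 0)
    [⟨0, 708, 2000⟩, ⟨-1, 1, 1⟩, ⟨473, 497, 1000⟩, ⟨337, 674, 2000⟩] = true := chkClo2_leaves0.2.2.1

theorem chkClo2_4 : checkAlt 4 alts2 (.leaf 0)
    [⟨708, 1416, 2000⟩, ⟨-1, 1, 1⟩, ⟨473, 497, 1000⟩, ⟨674, 1011, 4000⟩] = true := chkClo2_leaves0.2.2.2.1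

theorem chkClo2_5 : checkAlt 4 alts2 (.leaf 0)
    [⟨1416, 2124, 4000⟩, ⟨-1, 1, 1⟩, ⟨473, 497, 1000⟩, ⟨1011, 1348, 4000⟩] = true := chkClo2_leaves0.2.2.2.2.1

theorem chkClo2_6 : checkAlt 4 alts2 (.leaf 0)
    [⟨2124, 2832, 4000⟩, ⟨-1, 1, 1⟩, ⟨473, 497, 1000⟩, ⟨1011, 1348, 4000⟩] = true := chkClo2_leaves0.2.2.2.2.2

theorem chkClo2_7 : checkAlt 4 alts2 (.cut 0 (.leaf 0) (.leaf 0))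
    [⟨708, 1416, 2000⟩, ⟨-1, 1, 1⟩, ⟨473, 497, 1000⟩, ⟨1011, 1348, 4000⟩] = true := checkAlt_cut chkClo2_5 chkClo2_6

theorem chkClo2_8 : checkAlt 4 alts2 (.cut 3 (.leaf 0) (.cut 0 (.leaf 0) (.leaf 0)))
    [⟨708, 1416, 2000⟩, ⟨-1, 1, 1⟩, ⟨473, 497, 1000⟩, ⟨337, 674, 2000⟩] = true := checkAlt_cut chkClo2_4 chkClo2_7

theorem chkClo2_9 : checkAlt 4 alts2 (.cut 0 (.leaf 0) (.cut 3 (.leaf 0) (.cut 0 (.leaf 0) (.leaf 0))))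
    [⟨0, 708, 1000⟩, ⟨-1, 1, 1⟩, ⟨473, 497, 1000⟩, ⟨337, 674, 2000⟩] = true := checkAlt_cut chkClo2_3 chkClo2_8

theorem chkClo2_10 : checkAlt 4 alts2 (.cut 3 (.cut 0 (.leaf 0) (.leaf 0)) (.cut 0 (.leaf 0) (.cut 3 (.leaf 0) (.cut 0 (.leaf 0) (.leaf 0)))))
    [⟨0, 708, 1000⟩, ⟨-1, 1, 1⟩, ⟨473, 497, 1000⟩, ⟨0, 337, 1000⟩] = true := checkAlt_cut chkClo2_2 chkClo2_9

theorem chkClo2 : checkAlt 4 alts2 (.cut 3 (.cut 0 (.leaf 0) (.leaf 0)) (.cut 0 (.leaf 0) (.cut 3 (.leaf 0) (.cut 0 (.leaf 0) (.leaf 0)))))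
    [⟨0, 708, 1000⟩, ⟨-1, 1, 1⟩, ⟨473, 497, 1000⟩, ⟨0, 337, 1000⟩] = true :=
  chkClo2_10

end Vale.Agent.P154.NegEnd2
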