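import Vale.Agent.P154.NegEnd2.ClosingChk0
import Vale.Agent.P154.NegEnd2.ClosingChk1
import Vale.Agent.P154.NegEnd2.ClosingChk2

/-!
P154 NegEnd2: the closing inequality on its whole domain.
-/

namespace Vale.Agent.P154.NegEnd2

open PolyCheck NegEnd

lemma mem_iv {lo hi den : ℤ} {x : ℝ} (hd : 0 < den) (h1 : (lo : ℝ) / den ≤ x)
    (h2 : x ≤ (hi : ℝ) / den) : (⟨lo, hi, den⟩ : Iv).Mem x := by
  have hd' : (0 : ℝ) < den := by exact_mod_cast hd
  exact ⟨by rw [mul_comm]; exact (div_le_iff₀ hd').1 h1,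
    by rw [mul_comm]; exact (le_div_iff₀ hd').1 h2⟩

lemma mem_four {I0 I1 I2 I3 : Iv} {x0 x1 x2 x3 : ℝ} (h0 : I0.Mem x0) (h1 : I1.Mem x1)
    (h2 : I2.Mem x2) (h3 : I3.Mem x3) : BoxMem [I0, I1, I2, I3] (pt [x0, x1, x2, x3]) :=
  ⟨h0, h1, h2, h3, trivial⟩

lemma eB_eval (a η l z : ℝ) :
    eB.eval (pt [a, η, l, z]) = 3 * a ^ 2 - 1 - 2 * η * a ^ 3 := by
  simp [eB, pt]

lemma chart0 {a η l m : ℝ} (ha : 1 / 10 ≤ a) (ha1 : a ≤ 1) (hη : -1 ≤ η) (hη1 : η ≤ 1)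
    (hC : 3 * a ^ 2 - 1 ≤ 2 * η * a ^ 3) (hl : 473 / 1000 ≤ l) (hl1 : l ≤ 497 / 1000)
    (hm : 0 ≤ m) (hm1 : m ≤ 113 / 1000) : 0 ≤ Kclo a η l m := by
  have hbox : BoxMem [⟨1, 10, 10⟩, ⟨-1, 1, 1⟩, ⟨473, 497, 1000⟩, ⟨0, 113, 1000⟩]
      (pt [a, η, l, m]) :=
    mem_four (mem_iv (by norm_num) (by norm_num; linarith) (by norm_num; linarith))
      (mem_iv (by norm_num) (by norm_num; linarith) (by norm_num; linarith))
      (mem_iv (by norm_num) (by norm_num; linarith) (by norm_num; linarith))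
      (mem_iv (by norm_num) (by norm_num; linarith) (by norm_num; linarith))
  obtain ⟨es, hes, hall⟩ := checkAlt_sound 4 _ _ _ _ chkClo0 hbox
  have hK := eK_eval (Ex.v 0) (Ex.v 1) (Ex.v 2) (Ex.v 0 ^ 2) (Ex.v 3) (Ex.v 3) (pt [a, η, l, m]) 1
    (by simp [pt]) (by simp [pt])
  rw [one_pow, one_mul] at hK
  have hK' : Kclo a η l m = eK0.eval (pt [a, η, l, m]) := by
    simpa [pt, eK0] using hK
  rw [hK']
  simp only [alts0, List.mem_cons, List.not_mem_nil, or_false] at hes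
  rcases hes with rfl | rfl | rfl | rfl
  · exact hall eK0 (by simp)
  · have := hall _ (List.mem_cons_self ..)
    simp only [eval_sub, eval_mul, eval_c, eB_eval] at this
    push_cast at this
    linarith
  all_goals
    have := hall _ (List.mem_cons_self ..)
    simp only [eval_add, eval_mul, eval_c, eB_eval] at this
    push_cast at this
    linarith

lemma chart1 {a η l z : ℝ} (ha : 0 ≤ a) (ha1 : a ≤ 1 / 10) (hη : -1 ≤ η) (hη1 : η ≤ 1)
    (hl : 473 / 1000 ≤ l) (hl1 : l ≤ 497 / 1000) (hz : 0 ≤ z) (hz1 : z ≤ 2) :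
    0 ≤ Kclo a η l (z * a ^ 2) := by
  have hbox : BoxMem [⟨0, 1, 10⟩, ⟨-1, 1, 1⟩, ⟨473, 497, 1000⟩, ⟨0, 2, 1⟩]
      (pt [a, η, l, z]) :=
    mem_four (mem_iv (by norm_num) (by norm_num; linarith) (by norm_num; linarith))
      (mem_iv (by norm_num) (by norm_num; linarith) (by norm_num; linarith))
      (mem_iv (by norm_num) (by norm_num; linarith) (by norm_num; linarith))
      (mem_iv (by norm_num) (by norm_num; linarith) (by norm_num; linarith))
  obtain ⟨es, hes, hall⟩ := checkAlt_sound 4 _ _ _ _ chkClo1 hbox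
  simp only [alts1, List.mem_cons, List.not_mem_nil, or_false] at hes
  subst hes
  have hK := eK_eval (Ex.v 0) (Ex.v 1) (Ex.v 2) (Ex.c 1) (Ex.v 3) (Ex.v 3 * Ex.v 0 ^ 2)
    (pt [a, η, l, z]) (a ^ 2) (by simp [pt]) (by simp [pt])
  have hK' : Kclo a η l (z * a ^ 2) = (a ^ 2) ^ 2 * eK1.eval (pt [a, η, l, z]) := by
    simpa [pt, eK1] using hK
  rw [hK']
  exact mul_nonneg (sq_nonneg _) (hall eK1 (by simp))

lemma chart2 {w η l b : ℝ} (hw : 0 ≤ w) (hw1 : w ≤ 708 / 1000) (hη : -1 ≤ η) (hη1 : η ≤ 1)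
    (hl : 473 / 1000 ≤ l) (hl1 : l ≤ 497 / 1000) (hb : 0 ≤ b) (hb1 : b ≤ 337 / 1000)
    (ha : w * b ≤ 1 / 10) : 0 ≤ Kclo (w * b) η l (b ^ 2) := by
  have hbox : BoxMem [⟨0, 708, 1000⟩, ⟨-1, 1, 1⟩, ⟨473, 497, 1000⟩, ⟨0, 337, 1000⟩]
      (pt [w, η, l, b]) :=
    mem_four (mem_iv (by norm_num) (by norm_num; linarith) (by norm_num; linarith))
      (mem_iv (by norm_num) (by norm_num; linarith) (by norm_num; linarith))
      (mem_iv (by norm_num) (by norm_num; linarith) (by norm_num; linarith))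
      (mem_iv (by norm_num) (by norm_num; linarith) (by norm_num; linarith))
  obtain ⟨es, hes, hall⟩ := checkAlt_sound 4 _ _ _ _ chkClo2 hbox
  simp only [alts2, List.mem_cons, List.not_mem_nil, or_false] at hes
  rcases hes with rfl | rfl
  · have hK := eK_eval (Ex.v 0 * Ex.v 3) (Ex.v 1) (Ex.v 2) (Ex.v 0 ^ 2) (Ex.c 1) (Ex.v 3 ^ 2)
      (pt [w, η, l, b]) (b ^ 2) (by simp [pt]; ring) (by simp [pt])
    have hK' : Kclo (w * b) η l (b ^ 2) = (b ^ 2) ^ 2 * eK2.eval (pt [w, η, l, b]) := by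
      simpa [pt, eK2] using hK
    rw [hK']
    exact mul_nonneg (sq_nonneg _) (hall eK2 (by simp))
  · have := hall _ (List.mem_cons_self ..)
    simp [pt] at this
    linarith

/-- The closing inequality. -/
theorem closing_nonneg {a η l m : ℝ} (ha : 0 ≤ a) (ha1 : a ≤ 1) (hη : -1 ≤ η) (hη1 : η ≤ 1)
    (hC : 3 * a ^ 2 - 1 ≤ 2 * η * a ^ 3) (hl : 473 / 1000 ≤ l) (hl1 : l ≤ 497 / 1000)
    (hm : 0 ≤ m) (hm1 : m ≤ 113 / 1000) : 0 ≤ Kclo a η l m := by
  rcases le_total (1 / 10) a with h | h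
  · exact chart0 h ha1 hη hη1 hC hl hl1 hm hm1
  rcases le_or_gt m (2 * a ^ 2) with h2 | h2
  · rcases eq_or_ne a 0 with rfl | hne
    · have h0 : m = 0 := by linarith
      have := chart1 (a := 0) (z := 0) le_rfl (by norm_num) hη hη1 hl hl1 le_rfl zero_le_two
      simpa [h0] using this
    · have hpos : 0 < a ^ 2 := by positivity
      have := chart1 (z := m / a ^ 2) ha h hη hη1 hl hl1 (by positivity)
        ((div_le_iff₀ hpos).2 h2)
      rwa [div_mul_cancel₀ _ hpos.ne'] at this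
  · obtain ⟨b, hb⟩ : ∃ b, b = √m := ⟨_, rfl⟩
    have hb2 : b ^ 2 = m := by rw [hb, Real.sq_sqrt hm]
    have hb0 : 0 < b := hb ▸ Real.sqrt_pos.2 (by nlinarith [sq_nonneg a])
    have hwb : a / b * b = a := div_mul_cancel₀ _ hb0.ne'
    have := chart2 (w := a / b) (b := b) (by positivity)
      (by
        rw [div_le_iff₀ hb0]
        nlinarith [sq_nonneg a, mul_pos hb0 hb0])
      hη hη1 hl hl1 hb0.le (by nlinarith) (by rw [hwb]; exact h)
    rwa [hwb, hb2] at this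

end Vale.Agent.P154.NegEnd2
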