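import Vale.Agent.P154.NegEnd2.ClosingData
import Vale.Agent.P154.NegEnd2.EnvBase

/-!
P154 NegEnd2: certificate of the closing inequality in chart 0 (generated).
-/

namespace Vale.Agent.P154.NegEnd2

open PolyCheck NegEnd


theorem chkClo0_leaves0 :
    (checkAlt 4 alts0 (.leaf 0) [⟨4, 13, 40⟩, ⟨-2, 0, 2⟩, ⟨473, 497, 1000⟩, ⟨0, 113, 2000⟩] = true) ∧
    (checkAlt 4 alts0 (.leaf 0) [⟨13, 22, 40⟩, ⟨-2, 0, 2⟩, ⟨473, 497, 1000⟩, ⟨0, 113, 2000⟩] = true) ∧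
    (checkAlt 4 alts0 (.leaf 0) [⟨4, 13, 40⟩, ⟨-2, 0, 2⟩, ⟨473, 497, 1000⟩, ⟨113, 226, 2000⟩] = true) ∧
    (checkAlt 4 alts0 (.leaf 0) [⟨13, 22, 40⟩, ⟨-2, 0, 2⟩, ⟨473, 497, 1000⟩, ⟨113, 226, 2000⟩] = true) ∧
    (checkAlt 4 alts0 (.leaf 0) [⟨4, 13, 40⟩, ⟨0, 2, 2⟩, ⟨473, 497, 1000⟩, ⟨0, 113, 2000⟩] = true) ∧
    (checkAlt 4 alts0 (.leaf 0) [⟨13, 22, 40⟩, ⟨0, 2, 2⟩, ⟨473, 497, 1000⟩, ⟨0, 113, 2000⟩] = true) ∧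
    (checkAlt 4 alts0 (.leaf 0) [⟨4, 13, 40⟩, ⟨0, 2, 4⟩, ⟨473, 497, 1000⟩, ⟨113, 226, 2000⟩] = true) ∧
    (checkAlt 4 alts0 (.leaf 0) [⟨8, 17, 80⟩, ⟨2, 4, 4⟩, ⟨473, 497, 1000⟩, ⟨226, 339, 4000⟩] = true) ∧
    (checkAlt 4 alts0 (.leaf 0) [⟨17, 26, 80⟩, ⟨2, 4, 4⟩, ⟨473, 497, 1000⟩, ⟨226, 339, 4000⟩] = true) ∧
    (checkAlt 4 alts0 (.leaf 0) [⟨8, 17, 80⟩, ⟨2, 4, 4⟩, ⟨473, 497, 1000⟩, ⟨339, 452, 4000⟩] = true) ∧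
    (checkAlt 4 alts0 (.leaf 0) [⟨17, 26, 80⟩, ⟨2, 4, 4⟩, ⟨473, 497, 1000⟩, ⟨339, 452, 4000⟩] = true) ∧
    (checkAlt 4 alts0 (.leaf 0) [⟨13, 22, 40⟩, ⟨0, 2, 2⟩, ⟨473, 497, 1000⟩, ⟨113, 226, 2000⟩] = true) ∧
    (checkAlt 4 alts0 (.leaf 0) [⟨11, 20, 20⟩, ⟨-2, 0, 2⟩, ⟨473, 497, 1000⟩, ⟨0, 113, 1000⟩] = true) ∧
    (checkAlt 4 alts0 (.leaf 0) [⟨11, 20, 20⟩, ⟨0, 2, 2⟩, ⟨473, 497, 1000⟩, ⟨0, 113, 2000⟩] = true) ∧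
    (checkAlt 4 alts0 (.leaf 0) [⟨22, 31, 40⟩, ⟨0, 2, 4⟩, ⟨473, 497, 1000⟩, ⟨113, 226, 2000⟩] = true) ∧
    (checkAlt 4 alts0 (.leaf 0) [⟨22, 31, 40⟩, ⟨2, 4, 4⟩, ⟨473, 497, 1000⟩, ⟨226, 339, 4000⟩] = true) ∧
    (checkAlt 4 alts0 (.leaf 0) [⟨44, 53, 80⟩, ⟨2, 4, 4⟩, ⟨473, 497, 1000⟩, ⟨339, 452, 4000⟩] = true) ∧
    (checkAlt 4 alts0 (.leaf 0) [⟨53, 62, 80⟩, ⟨4, 6, 8⟩, ⟨473, 497, 1000⟩, ⟨339, 452, 4000⟩] = true) ∧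
    (checkAlt 4 alts0 (.leaf 0) [⟨53, 62, 80⟩, ⟨6, 8, 8⟩, ⟨473, 497, 1000⟩, ⟨339, 452, 4000⟩] = true) ∧
    (checkAlt 4 alts0 (.leaf 0) [⟨31, 40, 40⟩, ⟨0, 2, 4⟩, ⟨473, 497, 1000⟩, ⟨113, 226, 2000⟩] = true) ∧
    (checkAlt 4 alts0 (.leaf 0) [⟨31, 40, 40⟩, ⟨2, 4, 4⟩, ⟨473, 497, 1000⟩, ⟨226, 339, 4000⟩] = true) ∧
    (checkAlt 4 alts0 (.leaf 0) [⟨62, 71, 80⟩, ⟨4, 6, 8⟩, ⟨473, 497, 1000⟩, ⟨339, 452, 4000⟩] = true) ∧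
    (checkAlt 4 alts0 (.leaf 0) [⟨62, 71, 80⟩, ⟨6, 8, 8⟩, ⟨473, 497, 1000⟩, ⟨339, 452, 4000⟩] = true) ∧
    (checkAlt 4 alts0 (.leaf 0) [⟨71, 80, 80⟩, ⟨4, 6, 8⟩, ⟨473, 497, 1000⟩, ⟨339, 452, 4000⟩] = true) ∧
    (checkAlt 4 alts0 (.leaf 2) [⟨71, 80, 80⟩, ⟨6, 8, 8⟩, ⟨473, 497, 1000⟩, ⟨339, 452, 4000⟩] = true) := by
  refine ⟨?_, ?_, ?_, ?_, ?_, ?_, ?_, ?_, ?_, ?_, ?_, ?_, ?_, ?_, ?_, ?_, ?_, ?_, ?_, ?_, ?_, ?_, ?_, ?_, ?_⟩ <;> decide +kernel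

theorem chkClo0_0 : checkAlt 4 alts0 (.leaf 0)
    [⟨4, 13, 40⟩, ⟨-2, 0, 2⟩, ⟨473, 497, 1000⟩, ⟨0, 113, 2000⟩] = true := chkClo0_leaves0.1

theorem chkClo0_1 : checkAlt 4 alts0 (.leaf 0)
    [⟨13, 22, 40⟩, ⟨-2, 0, 2⟩, ⟨473, 497, 1000⟩, ⟨0, 113, 2000⟩] = true := chkClo0_leaves0.2.1

theorem chkClo0_2 : checkAlt 4 alts0 (.cut 0 (.leaf 0) (.leaf 0))
    [⟨2, 11, 20⟩, ⟨-2, 0, 2⟩, ⟨473, 497, 1000⟩, ⟨0, 113, 2000⟩] = true := checkAlt_cut chkClo0_0 chkClo0_1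

theorem chkClo0_3 : checkAlt 4 alts0 (.leaf 0)
    [⟨4, 13, 40⟩, ⟨-2, 0, 2⟩, ⟨473, 497, 1000⟩, ⟨113, 226, 2000⟩] = true := chkClo0_leaves0.2.2.1

theorem chkClo0_4 : checkAlt 4 alts0 (.leaf 0)
    [⟨13, 22, 40⟩, ⟨-2, 0, 2⟩, ⟨473, 497, 1000⟩, ⟨113, 226, 2000⟩] = true := chkClo0_leaves0.2.2.2.1

theorem chkClo0_5 : checkAlt 4 alts0 (.cut 0 (.leaf 0) (.leaf 0))
    [⟨2, 11, 20⟩, ⟨-2, 0, 2⟩, ⟨473, 497, 1000⟩, ⟨113, 226, 2000⟩] = true := checkAlt_cut chkClo0_3 chkClo0_4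

theorem chkClo0_6 : checkAlt 4 alts0 (.cut 3 (.cut 0 (.leaf 0) (.leaf 0)) (.cut 0 (.leaf 0) (.leaf 0)))
    [⟨2, 11, 20⟩, ⟨-2, 0, 2⟩, ⟨473, 497, 1000⟩, ⟨0, 113, 1000⟩] = true := checkAlt_cut chkClo0_2 chkClo0_5

theorem chkClo0_7 : checkAlt 4 alts0 (.leaf 0)
    [⟨4, 13, 40⟩, ⟨0, 2, 2⟩, ⟨473, 497, 1000⟩, ⟨0, 113, 2000⟩] = true := chkClo0_leaves0.2.2.2.2.1

theorem chkClo0_8 : checkAlt 4 alts0 (.leaf 0)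
    [⟨13, 22, 40⟩, ⟨0, 2, 2⟩, ⟨473, 497, 1000⟩, ⟨0, 113, 2000⟩] = true := chkClo0_leaves0.2.2.2.2.2.1

theorem chkClo0_9 : checkAlt 4 alts0 (.cut 0 (.leaf 0) (.leaf 0))
    [⟨2, 11, 20⟩, ⟨0, 2, 2⟩, ⟨473, 497, 1000⟩, ⟨0, 113, 2000⟩] = true := checkAlt_cut chkClo0_7 chkClo0_8

theorem chkClo0_10 : checkAlt 4 alts0 (.leaf 0)
    [⟨4, 13, 40⟩, ⟨0, 2, 4⟩, ⟨473, 497, 1000⟩, ⟨113, 226, 2000⟩] = true := chkClo0_leaves0.2.2.2.2.2.2.1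

theorem chkClo0_11 : checkAlt 4 alts0 (.leaf 0)
    [⟨8, 17, 80⟩, ⟨2, 4, 4⟩, ⟨473, 497, 1000⟩, ⟨226, 339, 4000⟩] = true := chkClo0_leaves0.2.2.2.2.2.2.2.1

theorem chkClo0_12 : checkAlt 4 alts0 (.leaf 0)
    [⟨17, 26, 80⟩, ⟨2, 4, 4⟩, ⟨473, 497, 1000⟩, ⟨226, 339, 4000⟩] = true := chkClo0_leaves0.2.2.2.2.2.2.2.2.1

theorem chkClo0_13 : checkAlt 4 alts0 (.cut 0 (.leaf 0) (.leaf 0))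
    [⟨4, 13, 40⟩, ⟨2, 4, 4⟩, ⟨473, 497, 1000⟩, ⟨226, 339, 4000⟩] = true := checkAlt_cut chkClo0_11 chkClo0_12

theorem chkClo0_14 : checkAlt 4 alts0 (.leaf 0)
    [⟨8, 17, 80⟩, ⟨2, 4, 4⟩, ⟨473, 497, 1000⟩, ⟨339, 452, 4000⟩] = true := chkClo0_leaves0.2.2.2.2.2.2.2.2.2.1

theorem chkClo0_15 : checkAlt 4 alts0 (.leaf 0)
    [⟨17, 26, 80⟩, ⟨2, 4, 4⟩, ⟨473, 497, 1000⟩, ⟨339, 452, 4000⟩] = true := chkClo0_leaves0.2.2.2.2.2.2.2.2.2.2.1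

theorem chkClo0_16 : checkAlt 4 alts0 (.cut 0 (.leaf 0) (.leaf 0))
    [⟨4, 13, 40⟩, ⟨2, 4, 4⟩, ⟨473, 497, 1000⟩, ⟨339, 452, 4000⟩] = true := checkAlt_cut chkClo0_14 chkClo0_15

theorem chkClo0_17 : checkAlt 4 alts0 (.cut 3 (.cut 0 (.leaf 0) (.leaf 0)) (.cut 0 (.leaf 0) (.leaf 0)))
    [⟨4, 13, 40⟩, ⟨2, 4, 4⟩, ⟨473, 497, 1000⟩, ⟨113, 226, 2000⟩] = true := checkAlt_cut chkClo0_13 chkClo0_16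

theorem chkClo0_18 : checkAlt 4 alts0 (.cut 1 (.leaf 0) (.cut 3 (.cut 0 (.leaf 0) (.leaf 0)) (.cut 0 (.leaf 0) (.leaf 0))))
    [⟨4, 13, 40⟩, ⟨0, 2, 2⟩, ⟨473, 497, 1000⟩, ⟨113, 226, 2000⟩] = true := checkAlt_cut chkClo0_10 chkClo0_17

theorem chkClo0_19 : checkAlt 4 alts0 (.leaf 0)
    [⟨13, 22, 40⟩, ⟨0, 2, 2⟩, ⟨473, 497, 1000⟩, ⟨113, 226, 2000⟩] = true := chkClo0_leaves0.2.2.2.2.2.2.2.2.2.2.2.1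

theorem chkClo0_20 : checkAlt 4 alts0 (.cut 0 (.cut 1 (.leaf 0) (.cut 3 (.cut 0 (.leaf 0) (.leaf 0)) (.cut 0 (.leaf 0) (.leaf 0)))) (.leaf 0))
    [⟨2, 11, 20⟩, ⟨0, 2, 2⟩, ⟨473, 497, 1000⟩, ⟨113, 226, 2000⟩] = true := checkAlt_cut chkClo0_18 chkClo0_19

theorem chkClo0_21 : checkAlt 4 alts0 (.cut 3 (.cut 0 (.leaf 0) (.leaf 0)) (.cut 0 (.cut 1 (.leaf 0) (.cut 3 (.cut 0 (.leaf 0) (.leaf 0)) (.cut 0 (.leaf 0) (.leaf 0)))) (.leaf 0)))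
    [⟨2, 11, 20⟩, ⟨0, 2, 2⟩, ⟨473, 497, 1000⟩, ⟨0, 113, 1000⟩] = true := checkAlt_cut chkClo0_9 chkClo0_20

theorem chkClo0_22 : checkAlt 4 alts0 (.cut 1 (.cut 3 (.cut 0 (.leaf 0) (.leaf 0)) (.cut 0 (.leaf 0) (.leaf 0))) (.cut 3 (.cut 0 (.leaf 0) (.leaf 0)) (.cut 0 (.cut 1 (.leaf 0) (.cut 3 (.cut 0 (.leaf 0) (.leaf 0)) (.cut 0 (.leaf 0) (.leaf 0)))) (.leaf 0))))
    [⟨2, 11, 20⟩, ⟨-1, 1, 1⟩, ⟨473, 497, 1000⟩, ⟨0, 113, 1000⟩] = true := checkAlt_cut chkClo0_6 chkClo0_21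

theorem chkClo0_23 : checkAlt 4 alts0 (.leaf 0)
    [⟨11, 20, 20⟩, ⟨-2, 0, 2⟩, ⟨473, 497, 1000⟩, ⟨0, 113, 1000⟩] = true := chkClo0_leaves0.2.2.2.2.2.2.2.2.2.2.2.2.1

theorem chkClo0_24 : checkAlt 4 alts0 (.leaf 0)
    [⟨11, 20, 20⟩, ⟨0, 2, 2⟩, ⟨473, 497, 1000⟩, ⟨0, 113, 2000⟩] = true := chkClo0_leaves0.2.2.2.2.2.2.2.2.2.2.2.2.2.1

theorem chkClo0_25 : checkAlt 4 alts0 (.leaf 0)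
    [⟨22, 31, 40⟩, ⟨0, 2, 4⟩, ⟨473, 497, 1000⟩, ⟨113, 226, 2000⟩] = true := chkClo0_leaves0.2.2.2.2.2.2.2.2.2.2.2.2.2.2.1

theorem chkClo0_26 : checkAlt 4 alts0 (.leaf 0)
    [⟨22, 31, 40⟩, ⟨2, 4, 4⟩, ⟨473, 497, 1000⟩, ⟨226, 339, 4000⟩] = true := chkClo0_leaves0.2.2.2.2.2.2.2.2.2.2.2.2.2.2.2.1

theorem chkClo0_27 : checkAlt 4 alts0 (.leaf 0)
    [⟨44, 53, 80⟩, ⟨2, 4, 4⟩, ⟨473, 497, 1000⟩, ⟨339, 452, 4000⟩] = true := chkClo0_leaves0.2.2.2.2.2.2.2.2.2.2.2.2.2.2.2.2.1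

theorem chkClo0_28 : checkAlt 4 alts0 (.leaf 0)
    [⟨53, 62, 80⟩, ⟨4, 6, 8⟩, ⟨473, 497, 1000⟩, ⟨339, 452, 4000⟩] = true := chkClo0_leaves0.2.2.2.2.2.2.2.2.2.2.2.2.2.2.2.2.2.1

theorem chkClo0_29 : checkAlt 4 alts0 (.leaf 0)
    [⟨53, 62, 80⟩, ⟨6, 8, 8⟩, ⟨473, 497, 1000⟩, ⟨339, 452, 4000⟩] = true := chkClo0_leaves0.2.2.2.2.2.2.2.2.2.2.2.2.2.2.2.2.2.2.1

theorem chkClo0_30 : checkAlt 4 alts0 (.cut 1 (.leaf 0) (.leaf 0))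
    [⟨53, 62, 80⟩, ⟨2, 4, 4⟩, ⟨473, 497, 1000⟩, ⟨339, 452, 4000⟩] = true := checkAlt_cut chkClo0_28 chkClo0_29

theorem chkClo0_31 : checkAlt 4 alts0 (.cut 0 (.leaf 0) (.cut 1 (.leaf 0) (.leaf 0)))
    [⟨22, 31, 40⟩, ⟨2, 4, 4⟩, ⟨473, 497, 1000⟩, ⟨339, 452, 4000⟩] = true := checkAlt_cut chkClo0_27 chkClo0_30

theorem chkClo0_32 : checkAlt 4 alts0 (.cut 3 (.leaf 0) (.cut 0 (.leaf 0) (.cut 1 (.leaf 0) (.leaf 0))))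
    [⟨22, 31, 40⟩, ⟨2, 4, 4⟩, ⟨473, 497, 1000⟩, ⟨113, 226, 2000⟩] = true := checkAlt_cut chkClo0_26 chkClo0_31

theorem chkClo0_33 : checkAlt 4 alts0 (.cut 1 (.leaf 0) (.cut 3 (.leaf 0) (.cut 0 (.leaf 0) (.cut 1 (.leaf 0) (.leaf 0)))))
    [⟨22, 31, 40⟩, ⟨0, 2, 2⟩, ⟨473, 497, 1000⟩, ⟨113, 226, 2000⟩] = true := checkAlt_cut chkClo0_25 chkClo0_32

theorem chkClo0_34 : checkAlt 4 alts0 (.leaf 0)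
    [⟨31, 40, 40⟩, ⟨0, 2, 4⟩, ⟨473, 497, 1000⟩, ⟨113, 226, 2000⟩] = true := chkClo0_leaves0.2.2.2.2.2.2.2.2.2.2.2.2.2.2.2.2.2.2.2.1

theorem chkClo0_35 : checkAlt 4 alts0 (.leaf 0)
    [⟨31, 40, 40⟩, ⟨2, 4, 4⟩, ⟨473, 497, 1000⟩, ⟨226, 339, 4000⟩] = true := chkClo0_leaves0.2.2.2.2.2.2.2.2.2.2.2.2.2.2.2.2.2.2.2.2.1

theorem chkClo0_36 : checkAlt 4 alts0 (.leaf 0)
    [⟨62, 71, 80⟩, ⟨4, 6, 8⟩, ⟨473, 497, 1000⟩, ⟨339, 452, 4000⟩] = true := chkClo0_leaves0.2.2.2.2.2.2.2.2.2.2.2.2.2.2.2.2.2.2.2.2.2.1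

theorem chkClo0_37 : checkAlt 4 alts0 (.leaf 0)
    [⟨62, 71, 80⟩, ⟨6, 8, 8⟩, ⟨473, 497, 1000⟩, ⟨339, 452, 4000⟩] = true := chkClo0_leaves0.2.2.2.2.2.2.2.2.2.2.2.2.2.2.2.2.2.2.2.2.2.2.1

theorem chkClo0_38 : checkAlt 4 alts0 (.cut 1 (.leaf 0) (.leaf 0))
    [⟨62, 71, 80⟩, ⟨2, 4, 4⟩, ⟨473, 497, 1000⟩, ⟨339, 452, 4000⟩] = true := checkAlt_cut chkClo0_36 chkClo0_37

theorem chkClo0_39 : checkAlt 4 alts0 (.leaf 0)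
    [⟨71, 80, 80⟩, ⟨4, 6, 8⟩, ⟨473, 497, 1000⟩, ⟨339, 452, 4000⟩] = true := chkClo0_leaves0.2.2.2.2.2.2.2.2.2.2.2.2.2.2.2.2.2.2.2.2.2.2.2.1

theorem chkClo0_40 : checkAlt 4 alts0 (.leaf 2)
    [⟨71, 80, 80⟩, ⟨6, 8, 8⟩, ⟨473, 497, 1000⟩, ⟨339, 452, 4000⟩] = true := chkClo0_leaves0.2.2.2.2.2.2.2.2.2.2.2.2.2.2.2.2.2.2.2.2.2.2.2.2

theorem chkClo0_41 : checkAlt 4 alts0 (.cut 1 (.leaf 0) (.leaf 2))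
    [⟨71, 80, 80⟩, ⟨2, 4, 4⟩, ⟨473, 497, 1000⟩, ⟨339, 452, 4000⟩] = true := checkAlt_cut chkClo0_39 chkClo0_40

theorem chkClo0_42 : checkAlt 4 alts0 (.cut 0 (.cut 1 (.leaf 0) (.leaf 0)) (.cut 1 (.leaf 0) (.leaf 2)))
    [⟨31, 40, 40⟩, ⟨2, 4, 4⟩, ⟨473, 497, 1000⟩, ⟨339, 452, 4000⟩] = true := checkAlt_cut chkClo0_38 chkClo0_41

theorem chkClo0_43 : checkAlt 4 alts0 (.cut 3 (.leaf 0) (.cut 0 (.cut 1 (.leaf 0) (.leaf 0)) (.cut 1 (.leaf 0) (.leaf 2))))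
    [⟨31, 40, 40⟩, ⟨2, 4, 4⟩, ⟨473, 497, 1000⟩, ⟨113, 226, 2000⟩] = true := checkAlt_cut chkClo0_35 chkClo0_42

theorem chkClo0_44 : checkAlt 4 alts0 (.cut 1 (.leaf 0) (.cut 3 (.leaf 0) (.cut 0 (.cut 1 (.leaf 0) (.leaf 0)) (.cut 1 (.leaf 0) (.leaf 2)))))
    [⟨31, 40, 40⟩, ⟨0, 2, 2⟩, ⟨473, 497, 1000⟩, ⟨113, 226, 2000⟩] = true := checkAlt_cut chkClo0_34 chkClo0_43

theorem chkClo0_45 : checkAlt 4 alts0 (.cut 0 (.cut 1 (.leaf 0) (.cut 3 (.leaf 0) (.cut 0 (.leaf 0) (.cut 1 (.leaf 0) (.leaf 0))))) (.cut 1 (.leaf 0) (.cut 3 (.leaf 0) (.cut 0 (.cut 1 (.leaf 0) (.leaf 0)) (.cut 1 (.leaf 0) (.leaf 2))))))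
    [⟨11, 20, 20⟩, ⟨0, 2, 2⟩, ⟨473, 497, 1000⟩, ⟨113, 226, 2000⟩] = true := checkAlt_cut chkClo0_33 chkClo0_44

theorem chkClo0_46 : checkAlt 4 alts0 (.cut 3 (.leaf 0) (.cut 0 (.cut 1 (.leaf 0) (.cut 3 (.leaf 0) (.cut 0 (.leaf 0) (.cut 1 (.leaf 0) (.leaf 0))))) (.cut 1 (.leaf 0) (.cut 3 (.leaf 0) (.cut 0 (.cut 1 (.leaf 0) (.leaf 0)) (.cut 1 (.leaf 0) (.leaf 2)))))))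
    [⟨11, 20, 20⟩, ⟨0, 2, 2⟩, ⟨473, 497, 1000⟩, ⟨0, 113, 1000⟩] = true := checkAlt_cut chkClo0_24 chkClo0_45

theorem chkClo0_47 : checkAlt 4 alts0 (.cut 1 (.leaf 0) (.cut 3 (.leaf 0) (.cut 0 (.cut 1 (.leaf 0) (.cut 3 (.leaf 0) (.cut 0 (.leaf 0) (.cut 1 (.leaf 0) (.leaf 0))))) (.cut 1 (.leaf 0) (.cut 3 (.leaf 0) (.cut 0 (.cut 1 (.leaf 0) (.leaf 0)) (.cut 1 (.leaf 0) (.leaf 2))))))))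
    [⟨11, 20, 20⟩, ⟨-1, 1, 1⟩, ⟨473, 497, 1000⟩, ⟨0, 113, 1000⟩] = true := checkAlt_cut chkClo0_23 chkClo0_46

theorem chkClo0_48 : checkAlt 4 alts0 (.cut 0 (.cut 1 (.cut 3 (.cut 0 (.leaf 0) (.leaf 0)) (.cut 0 (.leaf 0) (.leaf 0))) (.cut 3 (.cut 0 (.leaf 0) (.leaf 0)) (.cut 0 (.cut 1 (.leaf 0) (.cut 3 (.cut 0 (.leaf 0) (.leaf 0)) (.cut 0 (.leaf 0) (.leaf 0)))) (.leaf 0)))) (.cut 1 (.leaf 0) (.cut 3 (.leaf 0) (.cut 0 (.cut 1 (.leaf 0) (.cut 3 (.leaf 0) (.cut 0 (.leaf 0) (.cut 1 (.leaf 0) (.leaf 0))))) (.cut 1 (.leaf 0) (.cut 3 (.leaf 0) (.cut 0 (.cut 1 (.leaf 0) (.leaf 0)) (.cut 1 (.leaf 0) (.leaf 2)))))))))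
    [⟨1, 10, 10⟩, ⟨-1, 1, 1⟩, ⟨473, 497, 1000⟩, ⟨0, 113, 1000⟩] = true := checkAlt_cut chkClo0_22 chkClo0_47

theorem chkClo0 : checkAlt 4 alts0 (.cut 0 (.cut 1 (.cut 3 (.cut 0 (.leaf 0) (.leaf 0)) (.cut 0 (.leaf 0) (.leaf 0))) (.cut 3 (.cut 0 (.leaf 0) (.leaf 0)) (.cut 0 (.cut 1 (.leaf 0) (.cut 3 (.cut 0 (.leaf 0) (.leaf 0)) (.cut 0 (.leaf 0) (.leaf 0)))) (.leaf 0)))) (.cut 1 (.leaf 0) (.cut 3 (.leaf 0) (.cut 0 (.cut 1 (.leaf 0) (.cut 3 (.leaf 0) (.cut 0 (.leaf 0) (.cut 1 (.leaf 0) (.leaf 0))))) (.cut 1 (.leaf 0) (.cut 3 (.leaf 0) (.cut 0 (.cut 1 (.leaf 0) (.leaf 0)) (.cut 1 (.leaf 0) (.leaf 2)))))))))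
    [⟨1, 10, 10⟩, ⟨-1, 1, 1⟩, ⟨473, 497, 1000⟩, ⟨0, 113, 1000⟩] = true :=
  chkClo0_48

end Vale.Agent.P154.NegEnd2
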