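import Vale.Agent.P154.NegEnd2.EnvDefs
import Vale.Agent.P154.NegEnd.Mon

/-!
P154 NegEnd2: coefficients of the closing inequality and its expression (generated).
-/

namespace Vale.Agent.P154.NegEnd2

open PolyCheck NegEnd

/-- Full envelope of atom 1 minus its multiple of atom 0, times `4800000000`. -/
def L_D1f : List (ℤ × ℕ × ℕ) :=
  [(17600000, 1, 0), (121600000, 0, 1), (-253104000, 2, 0), (-618576000, 1, 1), (-451392000, 3, 0), (-237744000, 0, 2), (14600736000, 2, 1), (11251344000, 4, 0), (11198592000, 1, 2)]

/-- Full envelope of atom 2 minus its multiple of atom 0, times `4800000000`. -/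
def L_D2f : List (ℤ × ℕ × ℕ) :=
  [(-52800000, 1, 0), (235200000, 0, 1), (-65856000, 2, 0), (168768000, 1, 1), (733488000, 3, 0), (-1430496000, 0, 2), (9942768000, 2, 1), (-4632288000, 4, 0), (54510960000, 1, 2)]

/-- Full envelope of atom 3 minus its multiple of atom 0, times `4800000000`. -/
def L_D3f : List (ℤ × ℕ × ℕ) :=
  [(286400000, 1, 0), (342400000, 0, 1), (1966368000, 2, 0), (21842304000, 1, 1), (9577968000, 3, 0), (6817632000, 0, 2), (-360784272000, 2, 1), (-337999104000, 4, 0), (-367489584000, 1, 2)]

/-- Full envelope of atom 4 minus its multiple of atom 0, times `4800000000`. -/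
def L_D4f : List (ℤ × ℕ × ℕ) :=
  [(70400000, 1, 0), (286400000, 0, 1), (-387312000, 2, 0), (-1370256000, 1, 1), (-740352000, 3, 0), (-741552000, 0, 2), (31288128000, 2, 1), (22642944000, 4, 0), (28197696000, 1, 2)]

/-- Full envelope of atom 0, times `300000`. -/
def L_Af : List (ℤ × ℕ × ℕ) :=
  [(300000, 1, 0), (-200000, 0, 1), (573858, 2, 0), (-2472714, 1, 1), (-3973119, 3, 0), (-2287527, 0, 2), (40016430, 2, 1), (54616950, 4, 0), (56650080, 1, 2)]

/-- Full envelope of the squares, times `57600000000`. -/
def L_Qf : List (ℤ × ℕ × ℕ) :=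
  [(4867054464, 2, 0), (1547010048, 1, 1), (976711104000, 3, 0), (-953131968000, 0, 2), (-18300096000, 2, 1), (5660618688000, 4, 0), (-5784958080000, 1, 2), (-43216018560000, 3, 1), (43197269760000, 0, 3), (-40773985920000, 5, 0), (44661617280000, 2, 2)]

/-- Vertex list, times `100000`. -/
def L_Vp : List (ℤ × ℕ × ℕ) :=
  [(265024, 2, 0), (167169, 1, 1), (2515, 3, 0), (-454174, 0, 2), (691043, 2, 1), (-403984, 4, 0), (1107794, 1, 2), (-1354957, 3, 1), (-611876, 0, 3), (1311395, 5, 0), (-134622, 2, 2)]

/-- Coefficients of the series part. -/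
def h0 : List ℤ :=
  [-4057160979674880000000000000000000000000000000, 5719385052626192640000000000000000000000000000, -2649067584342923177280000000000000000000000000, 785546162846675826184512000000000000000000000, -173926206838978430324973408000000000000000000, 30888110075852712300212222496000000000000000, -4590697963847673402365639688756000000000000, 587428526210515343776738817854628000000000, -66053854638648301223920702278558005200000, 6628673663634534484120107983936490698800, -1164305548091634692106622147388711502593]

/-- Coefficients of the derivative part of atom 1. -/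
def h1 : List ℤ :=
  [166923635155200000000000000000000000000000, -76200639448348800000000000000000000000000, 23190394605447484800000000000000000000000, -5293207568693388405600000000000000000000, 966539702043412722862560000000000000000, -147075124660939302662252880000000000000, 19182798402205369047233839920000000000, -2189236867651687742515561980870000000, 222085917796221212101856454281590000, -20276444294794996664899494275909167]

/-- Coefficients of the derivative part of atom 2. -/
def h2 : List ℤ :=
  [-97296521414400000000000000000000000000000000, 37021326398179200000000000000000000000000000, -9391076463004790400000000000000000000000000, 1786652297086661373600000000000000000000000, -271928479616589861061920000000000000000000, 34489595498037480711353520000000000000000, -3749511739143788974477146960000000000000, 356672304186052926197138604570000000000, -30158624831731808537335830897530000000, 2295071349694790629691256731302033000, -158777208828885060835913306592804283]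

/-- Coefficients of the derivative part of atom 3. -/
def h3 : List ℤ :=
  [-7826127724800000000000000000000000000000000, 2375229764476800000000000000000000000000000, -480588155679139200000000000000000000000000, 72929252624309373600000000000000000000000, -8853611268591157955040000000000000000000, 895690340005805479784880000000000000000, -77669148054789132318488880000000000000, 5893146608657125414665343770000000000, -397459999050541680744651518710000000, 24125821942367880021200347185697000, -1331306719910663924806237340156189]

/-- Coefficients of the derivative part of atom 4. -/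
def h4 : List ℤ :=
  [3746137500000000000000000000000000, -752973637500000000000000000000000, 100898467425000000000000000000000, -10140295976212500000000000000000, 815279796487485000000000000000, -54623746364661495000000000000, 3136963719799131570000000000, -157632426919906361392500000, 7040915069089150808865000, -283044785777383862516373]

/-- Coefficients of the multiplier. -/
def muA : List ℤ :=
  [-6178752, -150474888, 3518875200, -20016268800]

/-- Coefficients of the multiplier, in `1000 l - 473`. -/
def muB : List ℤ :=
  [-305, 4997952, -111899100, 610518300]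

/-- Horner form. -/
def horEx : List ℤ → Ex → Ex
  | [], _ => Ex.c 0
  | k :: l, u => Ex.c k + u * horEx l u

/-- Its value. -/
def hor : List ℤ → ℝ → ℝ
  | [], _ => 0
  | k :: l, u => (k : ℝ) + u * hor l u

lemma horEx_eval (u : Ex) (x : ℕ → ℝ) : ∀ l, (horEx l u).eval x = hor l (u.eval x)
  | [] => by simp [horEx, hor]
  | k :: l => by simp [horEx, hor, horEx_eval u x l]

/-- The multiplier over `m`, times `2400000`. -/
def muFac (l m : ℝ) : ℝ := hor muA m + (1000 * l - 473) * hor muB m

/-- The closing expression in `a`, `C / a ^ 3`, `l = |lam|` and the tangent point `m`, times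
`closeScale`. -/
def Kclo (a η l m : ℝ) : ℝ :=
  95800320000000000000000000000000000000000000000 * mon 0 0 L_Vp a (-η) 1 - 95800320000000000000000000000000000000000000000 * mon 2 0 L_G a η l - 83160000000000000000000000000000000000000 * mon 4 0 L_Qf a η l - 19160064000000000000000000000000000000000000000000 * a ^ 4 +
    6000000 * (m ^ 2 * hor h0 m) + 5500 * (m * hor h1 m * mon 2 0 L_D1f a η l) +
    2 * (m * hor h2 m * mon 2 0 L_D2f a η l) + 3 * (m * hor h3 m * mon 2 0 L_D3f a η l) +
    912384000 * (m * hor h4 m * mon 2 0 L_D4f a η l) +
    13305600000000000000000000000000000000000 * (m * muFac l m * (mon 2 0 L_Af a η l - 300000 * m))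

/-- The same over the square of a common factor `τ`, with `a ^ 2 = s * τ`, `m = p * τ`. -/
def eK (A E l s p u : Ex) : Ex :=
  s ^ 2 * (Ex.c (95800320000000000000000000000000000000000000000) * monEx 0 4 L_Vp A (-E) (Ex.c 1) - Ex.c (95800320000000000000000000000000000000000000000) * monEx 2 4 L_G A E l -
      Ex.c (83160000000000000000000000000000000000000) * monEx 4 4 L_Qf A E l - Ex.c (19160064000000000000000000000000000000000000000000)) +
    Ex.c (6000000) * (p ^ 2 * horEx h0 u) + Ex.c (5500) * (p * s * horEx h1 u * monEx 2 2 L_D1f A E l) +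
    Ex.c (2) * (p * s * horEx h2 u * monEx 2 2 L_D2f A E l) +
    Ex.c (3) * (p * s * horEx h3 u * monEx 2 2 L_D3f A E l) +
    Ex.c (912384000) * (p * s * horEx h4 u * monEx 2 2 L_D4f A E l) +
    Ex.c (13305600000000000000000000000000000000000) * (p * (horEx muA u + (Ex.c 1000 * l - Ex.c 473) * horEx muB u) *
      (s * monEx 2 2 L_Af A E l - Ex.c 300000 * p))

lemma eK_eval (A E l s p u : Ex) (x : ℕ → ℝ) (τ : ℝ) (hs : s.eval x * τ = A.eval x ^ 2)
    (hu : p.eval x * τ = u.eval x) :
    Kclo (A.eval x) (E.eval x) (l.eval x) (u.eval x) = τ ^ 2 * (eK A E l s p u).eval x := by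
  have hV := mon_sub 0 4 (A.eval x) (-(E.eval x)) 1 L_Vp (by decide)
  have hG := mon_sub 2 4 (A.eval x) (E.eval x) (l.eval x) L_G (by decide)
  have hQ := mon_sub 4 4 (A.eval x) (E.eval x) (l.eval x) L_Qf (by decide)
  have h1 := mon_sub 2 2 (A.eval x) (E.eval x) (l.eval x) L_D1f (by decide)
  have h2 := mon_sub 2 2 (A.eval x) (E.eval x) (l.eval x) L_D2f (by decide)
  have h3 := mon_sub 2 2 (A.eval x) (E.eval x) (l.eval x) L_D3f (by decide)
  have h4 := mon_sub 2 2 (A.eval x) (E.eval x) (l.eval x) L_D4f (by decide)
  have hA := mon_sub 2 2 (A.eval x) (E.eval x) (l.eval x) L_Af (by decide)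
  have h2s : A.eval x ^ 4 = (s.eval x * τ) ^ 2 := by rw [hs]; ring
  simp only [Kclo, eK, muFac, eval_add, eval_sub, eval_mul, eval_pow, eval_c, eval_neg, horEx_eval,
    monEx_eval, ← hV, ← hG, ← hQ, ← h1, ← h2, ← h3, ← h4, ← hA, h2s, ← hs, Int.cast_one,
    Int.cast_ofNat]
  rw [← hu]
  ring

/-- The closing expression in chart 0. -/
def eK0 : Ex :=
  eK (Ex.v 0) (Ex.v 1) (Ex.v 2) (Ex.v 0 ^ 2) (Ex.v 3) (Ex.v 3)

/-- The closing expression in chart 1. -/
def eK1 : Ex :=
  eK (Ex.v 0) (Ex.v 1) (Ex.v 2) (Ex.c 1) (Ex.v 3) (Ex.v 3 * Ex.v 0 ^ 2)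

/-- The closing expression in chart 2. -/
def eK2 : Ex :=
  eK (Ex.v 0 * Ex.v 3) (Ex.v 1) (Ex.v 2) (Ex.v 0 ^ 2) (Ex.c 1) (Ex.v 3 ^ 2)

/-- Positive outside the range of `C`. -/
def eB : Ex :=
  Ex.c 3 * Ex.v 0 ^ 2 - Ex.c 1 - Ex.c 2 * Ex.v 1 * Ex.v 0 ^ 3

/-- The alternatives of chart 0. -/
def alts0 : List (List Ex) :=
  [[eK0], [Ex.c 1000000 * eB - Ex.c 1], [eK0 + Ex.c (4790015999999999993815048530013484095844895248351232) * eB], [eK0 + Ex.c (1437004799999999865221714980512457938372762546470912) * eB]]

/-- The alternatives of chart 1. -/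
def alts1 : List (List Ex) :=
  [[eK1]]

/-- The alternatives of chart 2. -/
def alts2 : List (List Ex) :=
  [[eK2], [Ex.c 1000000 * (Ex.c 10 * (Ex.v 0 * Ex.v 3) - Ex.c 1) - Ex.c 1]]

end Vale.Agent.P154.NegEnd2
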