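import Vale.Agent.P154.NegEnd2.EnvDefs

/-!
P154 NegEnd2: all atoms after one edge, times `d = 1 / l ^ 2`, are at most `31 / 10` (generated).
-/

namespace Vale.Agent.P154.NegEnd2

open PolyCheck NegEnd

/-- `31 / 10 - tau / l ^ 2`, scaled, or out of range. -/
def edgeAlts (j : Fin 5) : List (List Ex) :=
  [[Ex.c 62 * Ex.v 2 ^ 2 * eYs - Ex.c 10 * eT (atomI j)],
    [Ex.c 1000000 * (Ex.c 3 - (Ex.c 1 + Ex.v 2) * eYs) - Ex.c 1]]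


theorem chkEdge0_leaves0 :
    (checkAlt 3 (edgeAlts 0) (.cut 0 (.leaf 0) (.cut 0 (.leaf 0) (.cut 1 (.leaf 0) (.leaf 1)))) [⟨0, 1, 2⟩, ⟨0, 1, 1⟩, ⟨473, 497, 1000⟩] = true) ∧
    (checkAlt 3 (edgeAlts 0) (.leaf 1) [⟨4, 5, 8⟩, ⟨0, 1, 2⟩, ⟨946, 970, 2000⟩] = true) ∧
    (checkAlt 3 (edgeAlts 0) (.cut 1 (.leaf 0) (.leaf 1)) [⟨8, 9, 16⟩, ⟨0, 1, 2⟩, ⟨970, 994, 2000⟩] = true) ∧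
    (checkAlt 3 (edgeAlts 0) (.leaf 1) [⟨9, 10, 16⟩, ⟨0, 1, 4⟩, ⟨1940, 1964, 4000⟩] = true) := by
  refine ⟨?_, ?_, ?_, ?_⟩ <;> decide +kernel

theorem chkEdge0_leaves1 :
    (checkAlt 3 (edgeAlts 0) (.cut 1 (.cut 2 (.leaf 1) (.leaf 0)) (.leaf 0)) [⟨18, 19, 32⟩, ⟨0, 1, 4⟩, ⟨1964, 1988, 4000⟩] = true) ∧
    (checkAlt 3 (edgeAlts 0) (.cut 2 (.leaf 1) (.cut 0 (.cut 1 (.cut 2 (.leaf 1) (.cut 0 (.cut 1 (.cut 2 (.leaf 1) (.leaf 0)) (.leaf 0)) (.leaf 1))) (.leaf 1)) (.leaf 1))) [⟨19, 20, 32⟩, ⟨0, 1, 8⟩, ⟨1964, 1988, 4000⟩] = true) ∧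
    (checkAlt 3 (edgeAlts 0) (.leaf 1) [⟨19, 20, 32⟩, ⟨1, 2, 8⟩, ⟨1964, 1988, 4000⟩] = true) ∧
    (checkAlt 3 (edgeAlts 0) (.leaf 1) [⟨9, 10, 16⟩, ⟨1, 2, 4⟩, ⟨970, 994, 2000⟩] = true) := by
  refine ⟨?_, ?_, ?_, ?_⟩ <;> decide +kernel

theorem chkEdge0_leaves2 :
    (checkAlt 3 (edgeAlts 0) (.leaf 1) [⟨4, 5, 8⟩, ⟨1, 2, 2⟩, ⟨473, 497, 1000⟩] = true) ∧
    (checkAlt 3 (edgeAlts 0) (.leaf 1) [⟨5, 6, 8⟩, ⟨0, 1, 1⟩, ⟨473, 497, 1000⟩] = true) ∧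
    (checkAlt 3 (edgeAlts 0) (.leaf 1) [⟨3, 4, 4⟩, ⟨0, 1, 1⟩, ⟨473, 497, 1000⟩] = true) := by
  refine ⟨?_, ?_, ?_⟩ <;> decide +kernel

theorem chkEdge0_0 : checkAlt 3 (edgeAlts 0) (.cut 0 (.leaf 0) (.cut 0 (.leaf 0) (.cut 1 (.leaf 0) (.leaf 1))))
    [⟨0, 1, 2⟩, ⟨0, 1, 1⟩, ⟨473, 497, 1000⟩] = true := chkEdge0_leaves0.1

theorem chkEdge0_1 : checkAlt 3 (edgeAlts 0) (.leaf 1)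
    [⟨4, 5, 8⟩, ⟨0, 1, 2⟩, ⟨946, 970, 2000⟩] = true := chkEdge0_leaves0.2.1

theorem chkEdge0_2 : checkAlt 3 (edgeAlts 0) (.cut 1 (.leaf 0) (.leaf 1))
    [⟨8, 9, 16⟩, ⟨0, 1, 2⟩, ⟨970, 994, 2000⟩] = true := chkEdge0_leaves0.2.2.1

theorem chkEdge0_3 : checkAlt 3 (edgeAlts 0) (.leaf 1)
    [⟨9, 10, 16⟩, ⟨0, 1, 4⟩, ⟨1940, 1964, 4000⟩] = true := chkEdge0_leaves0.2.2.2

theorem chkEdge0_4 : checkAlt 3 (edgeAlts 0) (.cut 1 (.cut 2 (.leaf 1) (.leaf 0)) (.leaf 0))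
    [⟨18, 19, 32⟩, ⟨0, 1, 4⟩, ⟨1964, 1988, 4000⟩] = true := chkEdge0_leaves1.1

theorem chkEdge0_5 : checkAlt 3 (edgeAlts 0) (.cut 2 (.leaf 1) (.cut 0 (.cut 1 (.cut 2 (.leaf 1) (.cut 0 (.cut 1 (.cut 2 (.leaf 1) (.leaf 0)) (.leaf 0)) (.leaf 1))) (.leaf 1)) (.leaf 1)))
    [⟨19, 20, 32⟩, ⟨0, 1, 8⟩, ⟨1964, 1988, 4000⟩] = true := chkEdge0_leaves1.2.1

theorem chkEdge0_6 : checkAlt 3 (edgeAlts 0) (.leaf 1)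
    [⟨19, 20, 32⟩, ⟨1, 2, 8⟩, ⟨1964, 1988, 4000⟩] = true := chkEdge0_leaves1.2.2.1

theorem chkEdge0_7 : checkAlt 3 (edgeAlts 0) (.cut 1 (.cut 2 (.leaf 1) (.cut 0 (.cut 1 (.cut 2 (.leaf 1) (.cut 0 (.cut 1 (.cut 2 (.leaf 1) (.leaf 0)) (.leaf 0)) (.leaf 1))) (.leaf 1)) (.leaf 1))) (.leaf 1))
    [⟨19, 20, 32⟩, ⟨0, 1, 4⟩, ⟨1964, 1988, 4000⟩] = true := checkAlt_cut chkEdge0_5 chkEdge0_6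

theorem chkEdge0_8 : checkAlt 3 (edgeAlts 0) (.cut 0 (.cut 1 (.cut 2 (.leaf 1) (.leaf 0)) (.leaf 0)) (.cut 1 (.cut 2 (.leaf 1) (.cut 0 (.cut 1 (.cut 2 (.leaf 1) (.cut 0 (.cut 1 (.cut 2 (.leaf 1) (.leaf 0)) (.leaf 0)) (.leaf 1))) (.leaf 1)) (.leaf 1))) (.leaf 1)))
    [⟨9, 10, 16⟩, ⟨0, 1, 4⟩, ⟨1964, 1988, 4000⟩] = true := checkAlt_cut chkEdge0_4 chkEdge0_7

theorem chkEdge0_9 : checkAlt 3 (edgeAlts 0) (.cut 2 (.leaf 1) (.cut 0 (.cut 1 (.cut 2 (.leaf 1) (.leaf 0)) (.leaf 0)) (.cut 1 (.cut 2 (.leaf 1) (.cut 0 (.cut 1 (.cut 2 (.leaf 1) (.cut 0 (.cut 1 (.cut 2 (.leaf 1) (.leaf 0)) (.leaf 0)) (.leaf 1))) (.leaf 1)) (.leaf 1))) (.leaf 1))))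
    [⟨9, 10, 16⟩, ⟨0, 1, 4⟩, ⟨970, 994, 2000⟩] = true := checkAlt_cut chkEdge0_3 chkEdge0_8

theorem chkEdge0_10 : checkAlt 3 (edgeAlts 0) (.leaf 1)
    [⟨9, 10, 16⟩, ⟨1, 2, 4⟩, ⟨970, 994, 2000⟩] = true := chkEdge0_leaves1.2.2.2

theorem chkEdge0_11 : checkAlt 3 (edgeAlts 0) (.cut 1 (.cut 2 (.leaf 1) (.cut 0 (.cut 1 (.cut 2 (.leaf 1) (.leaf 0)) (.leaf 0)) (.cut 1 (.cut 2 (.leaf 1) (.cut 0 (.cut 1 (.cut 2 (.leaf 1) (.cut 0 (.cut 1 (.cut 2 (.leaf 1) (.leaf 0)) (.leaf 0)) (.leaf 1))) (.leaf 1)) (.leaf 1))) (.leaf 1)))) (.leaf 1))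
    [⟨9, 10, 16⟩, ⟨0, 1, 2⟩, ⟨970, 994, 2000⟩] = true := checkAlt_cut chkEdge0_9 chkEdge0_10

theorem chkEdge0_12 : checkAlt 3 (edgeAlts 0) (.cut 0 (.cut 1 (.leaf 0) (.leaf 1)) (.cut 1 (.cut 2 (.leaf 1) (.cut 0 (.cut 1 (.cut 2 (.leaf 1) (.leaf 0)) (.leaf 0)) (.cut 1 (.cut 2 (.leaf 1) (.cut 0 (.cut 1 (.cut 2 (.leaf 1) (.cut 0 (.cut 1 (.cut 2 (.leaf 1) (.leaf 0)) (.leaf 0)) (.leaf 1))) (.leaf 1)) (.leaf 1))) (.leaf 1)))) (.leaf 1)))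
    [⟨4, 5, 8⟩, ⟨0, 1, 2⟩, ⟨970, 994, 2000⟩] = true := checkAlt_cut chkEdge0_2 chkEdge0_11

theorem chkEdge0_13 : checkAlt 3 (edgeAlts 0) (.cut 2 (.leaf 1) (.cut 0 (.cut 1 (.leaf 0) (.leaf 1)) (.cut 1 (.cut 2 (.leaf 1) (.cut 0 (.cut 1 (.cut 2 (.leaf 1) (.leaf 0)) (.leaf 0)) (.cut 1 (.cut 2 (.leaf 1) (.cut 0 (.cut 1 (.cut 2 (.leaf 1) (.cut 0 (.cut 1 (.cut 2 (.leaf 1) (.leaf 0)) (.leaf 0)) (.leaf 1))) (.leaf 1)) (.leaf 1))) (.leaf 1)))) (.leaf 1))))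
    [⟨4, 5, 8⟩, ⟨0, 1, 2⟩, ⟨473, 497, 1000⟩] = true := checkAlt_cut chkEdge0_1 chkEdge0_12

theorem chkEdge0_14 : checkAlt 3 (edgeAlts 0) (.leaf 1)
    [⟨4, 5, 8⟩, ⟨1, 2, 2⟩, ⟨473, 497, 1000⟩] = true := chkEdge0_leaves2.1

theorem chkEdge0_15 : checkAlt 3 (edgeAlts 0) (.cut 1 (.cut 2 (.leaf 1) (.cut 0 (.cut 1 (.leaf 0) (.leaf 1)) (.cut 1 (.cut 2 (.leaf 1) (.cut 0 (.cut 1 (.cut 2 (.leaf 1) (.leaf 0)) (.leaf 0)) (.cut 1 (.cut 2 (.leaf 1) (.cut 0 (.cut 1 (.cut 2 (.leaf 1) (.cut 0 (.cut 1 (.cut 2 (.leaf 1) (.leaf 0)) (.leaf 0)) (.leaf 1))) (.leaf 1)) (.leaf 1))) (.leaf 1)))) (.leaf 1)))) (.leaf 1))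
    [⟨4, 5, 8⟩, ⟨0, 1, 1⟩, ⟨473, 497, 1000⟩] = true := checkAlt_cut chkEdge0_13 chkEdge0_14

theorem chkEdge0_16 : checkAlt 3 (edgeAlts 0) (.leaf 1)
    [⟨5, 6, 8⟩, ⟨0, 1, 1⟩, ⟨473, 497, 1000⟩] = true := chkEdge0_leaves2.2.1

theorem chkEdge0_17 : checkAlt 3 (edgeAlts 0) (.cut 0 (.cut 1 (.cut 2 (.leaf 1) (.cut 0 (.cut 1 (.leaf 0) (.leaf 1)) (.cut 1 (.cut 2 (.leaf 1) (.cut 0 (.cut 1 (.cut 2 (.leaf 1) (.leaf 0)) (.leaf 0)) (.cut 1 (.cut 2 (.leaf 1) (.cut 0 (.cut 1 (.cut 2 (.leaf 1) (.cut 0 (.cut 1 (.cut 2 (.leaf 1) (.leaf 0)) (.leaf 0)) (.leaf 1))) (.leaf 1)) (.leaf 1))) (.leaf 1)))) (.leaf 1)))) (.leaf 1)) (.leaf 1))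
    [⟨2, 3, 4⟩, ⟨0, 1, 1⟩, ⟨473, 497, 1000⟩] = true := checkAlt_cut chkEdge0_15 chkEdge0_16

theorem chkEdge0_18 : checkAlt 3 (edgeAlts 0) (.leaf 1)
    [⟨3, 4, 4⟩, ⟨0, 1, 1⟩, ⟨473, 497, 1000⟩] = true := chkEdge0_leaves2.2.2

theorem chkEdge0_19 : checkAlt 3 (edgeAlts 0) (.cut 0 (.cut 0 (.cut 1 (.cut 2 (.leaf 1) (.cut 0 (.cut 1 (.leaf 0) (.leaf 1)) (.cut 1 (.cut 2 (.leaf 1) (.cut 0 (.cut 1 (.cut 2 (.leaf 1) (.leaf 0)) (.leaf 0)) (.cut 1 (.cut 2 (.leaf 1) (.cut 0 (.cut 1 (.cut 2 (.leaf 1) (.cut 0 (.cut 1 (.cut 2 (.leaf 1) (.leaf 0)) (.leaf 0)) (.leaf 1))) (.leaf 1)) (.leaf 1))) (.leaf 1)))) (.leaf 1)))) (.leaf 1)) (.leaf 1)) (.leaf 1))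
    [⟨1, 2, 2⟩, ⟨0, 1, 1⟩, ⟨473, 497, 1000⟩] = true := checkAlt_cut chkEdge0_17 chkEdge0_18

theorem chkEdge0_20 : checkAlt 3 (edgeAlts 0) (.cut 0 (.cut 0 (.leaf 0) (.cut 0 (.leaf 0) (.cut 1 (.leaf 0) (.leaf 1)))) (.cut 0 (.cut 0 (.cut 1 (.cut 2 (.leaf 1) (.cut 0 (.cut 1 (.leaf 0) (.leaf 1)) (.cut 1 (.cut 2 (.leaf 1) (.cut 0 (.cut 1 (.cut 2 (.leaf 1) (.leaf 0)) (.leaf 0)) (.cut 1 (.cut 2 (.leaf 1) (.cut 0 (.cut 1 (.cut 2 (.leaf 1) (.cut 0 (.cut 1 (.cut 2 (.leaf 1) (.leaf 0)) (.leaf 0)) (.leaf 1))) (.leaf 1)) (.leaf 1))) (.leaf 1)))) (.leaf 1)))) (.leaf 1)) (.leaf 1)) (.leaf 1)))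
    [⟨0, 1, 1⟩, ⟨0, 1, 1⟩, ⟨473, 497, 1000⟩] = true := checkAlt_cut chkEdge0_0 chkEdge0_19

theorem chkEdge0 : checkAlt 3 (edgeAlts 0) (.cut 0 (.cut 0 (.leaf 0) (.cut 0 (.leaf 0) (.cut 1 (.leaf 0) (.leaf 1)))) (.cut 0 (.cut 0 (.cut 1 (.cut 2 (.leaf 1) (.cut 0 (.cut 1 (.leaf 0) (.leaf 1)) (.cut 1 (.cut 2 (.leaf 1) (.cut 0 (.cut 1 (.cut 2 (.leaf 1) (.leaf 0)) (.leaf 0)) (.cut 1 (.cut 2 (.leaf 1) (.cut 0 (.cut 1 (.cut 2 (.leaf 1) (.cut 0 (.cut 1 (.cut 2 (.leaf 1) (.leaf 0)) (.leaf 0)) (.leaf 1))) (.leaf 1)) (.leaf 1))) (.leaf 1)))) (.leaf 1)))) (.leaf 1)) (.leaf 1)) (.leaf 1)))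
    [⟨0, 1, 1⟩, ⟨0, 1, 1⟩, ⟨473, 497, 1000⟩] = true :=
  chkEdge0_20

theorem chkEdge1_leaves0 : (checkAlt 3 (edgeAlts 1) (.cut 0 (.leaf 0) (.cut 0 (.leaf 0) (.cut 1 (.leaf 0) (.leaf 1)))) [⟨0, 1, 2⟩, ⟨0, 1, 1⟩, ⟨473, 497, 1000⟩] = true) := by
  decide +kernel

theorem chkEdge1_leaves1 : (checkAlt 3 (edgeAlts 1) (.cut 0 (.cut 0 (.cut 1 (.cut 2 (.leaf 1) (.cut 0 (.leaf 0) (.cut 1 (.leaf 0) (.leaf 1)))) (.leaf 1)) (.leaf 1)) (.leaf 1)) [⟨1, 2, 2⟩, ⟨0, 1, 1⟩, ⟨473, 497, 1000⟩] = true) := by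
  decide +kernel

theorem chkEdge1_0 : checkAlt 3 (edgeAlts 1) (.cut 0 (.leaf 0) (.cut 0 (.leaf 0) (.cut 1 (.leaf 0) (.leaf 1))))
    [⟨0, 1, 2⟩, ⟨0, 1, 1⟩, ⟨473, 497, 1000⟩] = true := chkEdge1_leaves0

theorem chkEdge1_1 : checkAlt 3 (edgeAlts 1) (.cut 0 (.cut 0 (.cut 1 (.cut 2 (.leaf 1) (.cut 0 (.leaf 0) (.cut 1 (.leaf 0) (.leaf 1)))) (.leaf 1)) (.leaf 1)) (.leaf 1))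
    [⟨1, 2, 2⟩, ⟨0, 1, 1⟩, ⟨473, 497, 1000⟩] = true := chkEdge1_leaves1

theorem chkEdge1_2 : checkAlt 3 (edgeAlts 1) (.cut 0 (.cut 0 (.leaf 0) (.cut 0 (.leaf 0) (.cut 1 (.leaf 0) (.leaf 1)))) (.cut 0 (.cut 0 (.cut 1 (.cut 2 (.leaf 1) (.cut 0 (.leaf 0) (.cut 1 (.leaf 0) (.leaf 1)))) (.leaf 1)) (.leaf 1)) (.leaf 1)))
    [⟨0, 1, 1⟩, ⟨0, 1, 1⟩, ⟨473, 497, 1000⟩] = true := checkAlt_cut chkEdge1_0 chkEdge1_1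

theorem chkEdge1 : checkAlt 3 (edgeAlts 1) (.cut 0 (.cut 0 (.leaf 0) (.cut 0 (.leaf 0) (.cut 1 (.leaf 0) (.leaf 1)))) (.cut 0 (.cut 0 (.cut 1 (.cut 2 (.leaf 1) (.cut 0 (.leaf 0) (.cut 1 (.leaf 0) (.leaf 1)))) (.leaf 1)) (.leaf 1)) (.leaf 1)))
    [⟨0, 1, 1⟩, ⟨0, 1, 1⟩, ⟨473, 497, 1000⟩] = true :=
  chkEdge1_2

theorem chkEdge2_leaves0 : (checkAlt 3 (edgeAlts 2) (.cut 0 (.cut 0 (.leaf 0) (.cut 0 (.leaf 0) (.cut 1 (.leaf 0) (.leaf 1)))) (.cut 0 (.cut 0 (.cut 1 (.leaf 0) (.leaf 1)) (.leaf 1)) (.leaf 1))) [⟨0, 1, 1⟩, ⟨0, 1, 1⟩, ⟨473, 497, 1000⟩] = true) := by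
  decide +kernel

theorem chkEdge2_0 : checkAlt 3 (edgeAlts 2) (.cut 0 (.cut 0 (.leaf 0) (.cut 0 (.leaf 0) (.cut 1 (.leaf 0) (.leaf 1)))) (.cut 0 (.cut 0 (.cut 1 (.leaf 0) (.leaf 1)) (.leaf 1)) (.leaf 1)))
    [⟨0, 1, 1⟩, ⟨0, 1, 1⟩, ⟨473, 497, 1000⟩] = true := chkEdge2_leaves0

theorem chkEdge2 : checkAlt 3 (edgeAlts 2) (.cut 0 (.cut 0 (.leaf 0) (.cut 0 (.leaf 0) (.cut 1 (.leaf 0) (.leaf 1)))) (.cut 0 (.cut 0 (.cut 1 (.leaf 0) (.leaf 1)) (.leaf 1)) (.leaf 1)))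
    [⟨0, 1, 1⟩, ⟨0, 1, 1⟩, ⟨473, 497, 1000⟩] = true :=
  chkEdge2_0

theorem chkEdge3_leaves0 : (checkAlt 3 (edgeAlts 3) (.cut 0 (.leaf 0) (.cut 1 (.cut 2 (.leaf 1) (.cut 0 (.leaf 0) (.leaf 1))) (.leaf 1))) [⟨0, 1, 1⟩, ⟨0, 1, 1⟩, ⟨473, 497, 1000⟩] = true) := by
  decide +kernel

theorem chkEdge3_0 : checkAlt 3 (edgeAlts 3) (.cut 0 (.leaf 0) (.cut 1 (.cut 2 (.leaf 1) (.cut 0 (.leaf 0) (.leaf 1))) (.leaf 1)))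
    [⟨0, 1, 1⟩, ⟨0, 1, 1⟩, ⟨473, 497, 1000⟩] = true := chkEdge3_leaves0

theorem chkEdge3 : checkAlt 3 (edgeAlts 3) (.cut 0 (.leaf 0) (.cut 1 (.cut 2 (.leaf 1) (.cut 0 (.leaf 0) (.leaf 1))) (.leaf 1)))
    [⟨0, 1, 1⟩, ⟨0, 1, 1⟩, ⟨473, 497, 1000⟩] = true :=
  chkEdge3_0

theorem chkEdge4_leaves0 : (checkAlt 3 (edgeAlts 4) (.cut 0 (.leaf 0) (.cut 0 (.cut 0 (.leaf 0) (.leaf 1)) (.leaf 1))) [⟨0, 1, 1⟩, ⟨0, 1, 1⟩, ⟨473, 497, 1000⟩] = true) := by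
  decide +kernel

theorem chkEdge4_0 : checkAlt 3 (edgeAlts 4) (.cut 0 (.leaf 0) (.cut 0 (.cut 0 (.leaf 0) (.leaf 1)) (.leaf 1)))
    [⟨0, 1, 1⟩, ⟨0, 1, 1⟩, ⟨473, 497, 1000⟩] = true := chkEdge4_leaves0

theorem chkEdge4 : checkAlt 3 (edgeAlts 4) (.cut 0 (.leaf 0) (.cut 0 (.cut 0 (.leaf 0) (.leaf 1)) (.leaf 1)))
    [⟨0, 1, 1⟩, ⟨0, 1, 1⟩, ⟨473, 497, 1000⟩] = true :=
  chkEdge4_0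

end Vale.Agent.P154.NegEnd2
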