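import Vale.Agent.P154.NegEnd2.EnvDefs

/-!
P154 NegEnd2: certificate of envelope A (generated).
-/

namespace Vale.Agent.P154.NegEnd2

open PolyCheck NegEnd


theorem chkA_leaves0 :
    (checkAlt 2 (envAlts 7 eEnvA [9953]) (.cut 0 (.leaf 0) (.leaf 0)) [⟨0, 1, 8⟩, ⟨0, 1, 1⟩] = true) ∧
    (checkAlt 2 (envAlts 7 eEnvA [9953]) (.leaf 0) [⟨1, 2, 8⟩, ⟨0, 1, 1⟩] = true) ∧
    (checkAlt 2 (envAlts 7 eEnvA [9953]) (.leaf 0) [⟨1, 2, 4⟩, ⟨0, 1, 1⟩] = true) ∧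
    (checkAlt 2 (envAlts 7 eEnvA [9953]) (.leaf 0) [⟨8, 9, 16⟩, ⟨0, 1, 1⟩] = true) := by
  refine ⟨?_, ?_, ?_, ?_⟩ <;> decide +kernel

theorem chkA_leaves1 :
    (checkAlt 2 (envAlts 7 eEnvA [9953]) (.leaf 0) [⟨18, 19, 32⟩, ⟨0, 1, 1⟩] = true) ∧
    (checkAlt 2 (envAlts 7 eEnvA [9953]) (.cut 0 (.leaf 0) (.leaf 1)) [⟨38, 39, 64⟩, ⟨0, 1, 4⟩] = true) ∧
    (checkAlt 2 (envAlts 7 eEnvA [9953]) (.leaf 0) [⟨38, 39, 64⟩, ⟨1, 2, 4⟩] = true) ∧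
    (checkAlt 2 (envAlts 7 eEnvA [9953]) (.leaf 1) [⟨39, 40, 64⟩, ⟨0, 1, 2⟩] = true) := by
  refine ⟨?_, ?_, ?_, ?_⟩ <;> decide +kernel

theorem chkA_leaves2 :
    (checkAlt 2 (envAlts 7 eEnvA [9953]) (.leaf 0) [⟨19, 20, 32⟩, ⟨1, 2, 2⟩] = true) ∧
    (checkAlt 2 (envAlts 7 eEnvA [9953]) (.leaf 1) [⟨5, 6, 8⟩, ⟨0, 1, 1⟩] = true) ∧
    (checkAlt 2 (envAlts 7 eEnvA [9953]) (.leaf 1) [⟨3, 4, 4⟩, ⟨0, 1, 1⟩] = true) := by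
  refine ⟨?_, ?_, ?_⟩ <;> decide +kernel

theorem chkA_0 : checkAlt 2 (envAlts 7 eEnvA [9953]) (.cut 0 (.leaf 0) (.leaf 0))
    [⟨0, 1, 8⟩, ⟨0, 1, 1⟩] = true := chkA_leaves0.1

theorem chkA_1 : checkAlt 2 (envAlts 7 eEnvA [9953]) (.leaf 0)
    [⟨1, 2, 8⟩, ⟨0, 1, 1⟩] = true := chkA_leaves0.2.1

theorem chkA_2 : checkAlt 2 (envAlts 7 eEnvA [9953]) (.cut 0 (.cut 0 (.leaf 0) (.leaf 0)) (.leaf 0))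
    [⟨0, 1, 4⟩, ⟨0, 1, 1⟩] = true := checkAlt_cut chkA_0 chkA_1

theorem chkA_3 : checkAlt 2 (envAlts 7 eEnvA [9953]) (.leaf 0)
    [⟨1, 2, 4⟩, ⟨0, 1, 1⟩] = true := chkA_leaves0.2.2.1

theorem chkA_4 : checkAlt 2 (envAlts 7 eEnvA [9953]) (.cut 0 (.cut 0 (.cut 0 (.leaf 0) (.leaf 0)) (.leaf 0)) (.leaf 0))
    [⟨0, 1, 2⟩, ⟨0, 1, 1⟩] = true := checkAlt_cut chkA_2 chkA_3

theorem chkA_5 : checkAlt 2 (envAlts 7 eEnvA [9953]) (.leaf 0)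
    [⟨8, 9, 16⟩, ⟨0, 1, 1⟩] = true := chkA_leaves0.2.2.2

theorem chkA_6 : checkAlt 2 (envAlts 7 eEnvA [9953]) (.leaf 0)
    [⟨18, 19, 32⟩, ⟨0, 1, 1⟩] = true := chkA_leaves1.1

theorem chkA_7 : checkAlt 2 (envAlts 7 eEnvA [9953]) (.cut 0 (.leaf 0) (.leaf 1))
    [⟨38, 39, 64⟩, ⟨0, 1, 4⟩] = true := chkA_leaves1.2.1

theorem chkA_8 : checkAlt 2 (envAlts 7 eEnvA [9953]) (.leaf 0)
    [⟨38, 39, 64⟩, ⟨1, 2, 4⟩] = true := chkA_leaves1.2.2.1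

theorem chkA_9 : checkAlt 2 (envAlts 7 eEnvA [9953]) (.cut 1 (.cut 0 (.leaf 0) (.leaf 1)) (.leaf 0))
    [⟨38, 39, 64⟩, ⟨0, 1, 2⟩] = true := checkAlt_cut chkA_7 chkA_8

theorem chkA_10 : checkAlt 2 (envAlts 7 eEnvA [9953]) (.leaf 1)
    [⟨39, 40, 64⟩, ⟨0, 1, 2⟩] = true := chkA_leaves1.2.2.2

theorem chkA_11 : checkAlt 2 (envAlts 7 eEnvA [9953]) (.cut 0 (.cut 1 (.cut 0 (.leaf 0) (.leaf 1)) (.leaf 0)) (.leaf 1))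
    [⟨19, 20, 32⟩, ⟨0, 1, 2⟩] = true := checkAlt_cut chkA_9 chkA_10

theorem chkA_12 : checkAlt 2 (envAlts 7 eEnvA [9953]) (.leaf 0)
    [⟨19, 20, 32⟩, ⟨1, 2, 2⟩] = true := chkA_leaves2.1

theorem chkA_13 : checkAlt 2 (envAlts 7 eEnvA [9953]) (.cut 1 (.cut 0 (.cut 1 (.cut 0 (.leaf 0) (.leaf 1)) (.leaf 0)) (.leaf 1)) (.leaf 0))
    [⟨19, 20, 32⟩, ⟨0, 1, 1⟩] = true := checkAlt_cut chkA_11 chkA_12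

theorem chkA_14 : checkAlt 2 (envAlts 7 eEnvA [9953]) (.cut 0 (.leaf 0) (.cut 1 (.cut 0 (.cut 1 (.cut 0 (.leaf 0) (.leaf 1)) (.leaf 0)) (.leaf 1)) (.leaf 0)))
    [⟨9, 10, 16⟩, ⟨0, 1, 1⟩] = true := checkAlt_cut chkA_6 chkA_13

theorem chkA_15 : checkAlt 2 (envAlts 7 eEnvA [9953]) (.cut 0 (.leaf 0) (.cut 0 (.leaf 0) (.cut 1 (.cut 0 (.cut 1 (.cut 0 (.leaf 0) (.leaf 1)) (.leaf 0)) (.leaf 1)) (.leaf 0))))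
    [⟨4, 5, 8⟩, ⟨0, 1, 1⟩] = true := checkAlt_cut chkA_5 chkA_14

theorem chkA_16 : checkAlt 2 (envAlts 7 eEnvA [9953]) (.leaf 1)
    [⟨5, 6, 8⟩, ⟨0, 1, 1⟩] = true := chkA_leaves2.2.1

theorem chkA_17 : checkAlt 2 (envAlts 7 eEnvA [9953]) (.cut 0 (.cut 0 (.leaf 0) (.cut 0 (.leaf 0) (.cut 1 (.cut 0 (.cut 1 (.cut 0 (.leaf 0) (.leaf 1)) (.leaf 0)) (.leaf 1)) (.leaf 0)))) (.leaf 1))
    [⟨2, 3, 4⟩, ⟨0, 1, 1⟩] = true := checkAlt_cut chkA_15 chkA_16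

theorem chkA_18 : checkAlt 2 (envAlts 7 eEnvA [9953]) (.leaf 1)
    [⟨3, 4, 4⟩, ⟨0, 1, 1⟩] = true := chkA_leaves2.2.2

theorem chkA_19 : checkAlt 2 (envAlts 7 eEnvA [9953]) (.cut 0 (.cut 0 (.cut 0 (.leaf 0) (.cut 0 (.leaf 0) (.cut 1 (.cut 0 (.cut 1 (.cut 0 (.leaf 0) (.leaf 1)) (.leaf 0)) (.leaf 1)) (.leaf 0)))) (.leaf 1)) (.leaf 1))
    [⟨1, 2, 2⟩, ⟨0, 1, 1⟩] = true := checkAlt_cut chkA_17 chkA_18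

theorem chkA_20 : checkAlt 2 (envAlts 7 eEnvA [9953]) (.cut 0 (.cut 0 (.cut 0 (.cut 0 (.leaf 0) (.leaf 0)) (.leaf 0)) (.leaf 0)) (.cut 0 (.cut 0 (.cut 0 (.leaf 0) (.cut 0 (.leaf 0) (.cut 1 (.cut 0 (.cut 1 (.cut 0 (.leaf 0) (.leaf 1)) (.leaf 0)) (.leaf 1)) (.leaf 0)))) (.leaf 1)) (.leaf 1)))
    [⟨0, 1, 1⟩, ⟨0, 1, 1⟩] = true := checkAlt_cut chkA_4 chkA_19

theorem envA_nonneg {p z : ℝ} (hp : 0 ≤ p) (hp1 : p ≤ 1) (hz : 0 ≤ z) (hz1 : z ≤ 1)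
    (hY : 0 ≤ ysum (chart p z)) (hr : 3000 ≤ 1497 * ysum (chart p z)) :
    0 ≤ eEnvA.eval (pt [p, z]) :=
  env_nonneg (by decide) chkA_20 hp hp1 hz hz1 hY hr

end Vale.Agent.P154.NegEnd2
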