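import Vale.Agent.P154.NegEnd2.EnvDefs

/-!
P154 NegEnd2: certificate of envelope D1 (generated).
-/

namespace Vale.Agent.P154.NegEnd2

open PolyCheck NegEnd


theorem chkD1_leaves0 :
    (checkAlt 2 (envAlts 7 eEnvD1 [331, 3317, 33177]) (.leaf 0) [⟨0, 1, 4⟩, ⟨0, 1, 4⟩] = true) ∧
    (checkAlt 2 (envAlts 7 eEnvD1 [331, 3317, 33177]) (.leaf 0) [⟨0, 1, 8⟩, ⟨1, 2, 4⟩] = true) ∧
    (checkAlt 2 (envAlts 7 eEnvD1 [331, 3317, 33177]) (.leaf 0) [⟨2, 3, 16⟩, ⟨2, 3, 8⟩] = true) ∧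
    (checkAlt 2 (envAlts 7 eEnvD1 [331, 3317, 33177]) (.cut 1 (.leaf 3) (.leaf 1)) [⟨3, 4, 16⟩, ⟨2, 3, 8⟩] = true) ∧
    (checkAlt 2 (envAlts 7 eEnvD1 [331, 3317, 33177]) (.leaf 0) [⟨2, 3, 16⟩, ⟨6, 7, 16⟩] = true) ∧
    (checkAlt 2 (envAlts 7 eEnvD1 [331, 3317, 33177]) (.cut 0 (.leaf 0) (.leaf 3)) [⟨2, 3, 16⟩, ⟨7, 8, 16⟩] = true) ∧
    (checkAlt 2 (envAlts 7 eEnvD1 [331, 3317, 33177]) (.leaf 1) [⟨3, 4, 16⟩, ⟨3, 4, 8⟩] = true) ∧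
    (checkAlt 2 (envAlts 7 eEnvD1 [331, 3317, 33177]) (.cut 1 (.leaf 0) (.leaf 4)) [⟨2, 3, 8⟩, ⟨0, 1, 4⟩] = true) ∧
    (checkAlt 2 (envAlts 7 eEnvD1 [331, 3317, 33177]) (.cut 1 (.leaf 3) (.leaf 1)) [⟨3, 4, 8⟩, ⟨0, 1, 4⟩] = true) ∧
    (checkAlt 2 (envAlts 7 eEnvD1 [331, 3317, 33177]) (.leaf 1) [⟨1, 2, 4⟩, ⟨1, 2, 4⟩] = true) ∧
    (checkAlt 2 (envAlts 7 eEnvD1 [331, 3317, 33177]) (.leaf 0) [⟨0, 1, 8⟩, ⟨2, 3, 4⟩] = true) ∧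
    (checkAlt 2 (envAlts 7 eEnvD1 [331, 3317, 33177]) (.cut 0 (.leaf 0) (.leaf 1)) [⟨2, 3, 16⟩, ⟨8, 9, 16⟩] = true) ∧
    (checkAlt 2 (envAlts 7 eEnvD1 [331, 3317, 33177]) (.leaf 2) [⟨4, 5, 32⟩, ⟨18, 19, 32⟩] = true) := by
  refine ⟨?_, ?_, ?_, ?_, ?_, ?_, ?_, ?_, ?_, ?_, ?_, ?_, ?_⟩ <;> decide +kernel

theorem chkD1_leaves1 :
    (checkAlt 2 (envAlts 7 eEnvD1 [331, 3317, 33177]) (.cut 0 (.leaf 0) (.leaf 1)) [⟨4, 5, 32⟩, ⟨19, 20, 32⟩] = true) ∧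
    (checkAlt 2 (envAlts 7 eEnvD1 [331, 3317, 33177]) (.leaf 1) [⟨5, 6, 32⟩, ⟨9, 10, 16⟩] = true) ∧
    (checkAlt 2 (envAlts 7 eEnvD1 [331, 3317, 33177]) (.leaf 1) [⟨3, 4, 16⟩, ⟨4, 5, 8⟩] = true) ∧
    (checkAlt 2 (envAlts 7 eEnvD1 [331, 3317, 33177]) (.cut 0 (.leaf 0) (.leaf 1)) [⟨4, 5, 32⟩, ⟨20, 21, 32⟩] = true) ∧
    (checkAlt 2 (envAlts 7 eEnvD1 [331, 3317, 33177]) (.cut 0 (.leaf 0) (.leaf 1)) [⟨4, 5, 32⟩, ⟨21, 22, 32⟩] = true) ∧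
    (checkAlt 2 (envAlts 7 eEnvD1 [331, 3317, 33177]) (.leaf 1) [⟨5, 6, 32⟩, ⟨10, 11, 16⟩] = true) ∧
    (checkAlt 2 (envAlts 7 eEnvD1 [331, 3317, 33177]) (.cut 0 (.leaf 2) (.leaf 1)) [⟨4, 5, 32⟩, ⟨22, 23, 32⟩] = true) ∧
    (checkAlt 2 (envAlts 7 eEnvD1 [331, 3317, 33177]) (.leaf 3) [⟨4, 5, 32⟩, ⟨23, 24, 32⟩] = true) ∧
    (checkAlt 2 (envAlts 7 eEnvD1 [331, 3317, 33177]) (.leaf 1) [⟨5, 6, 32⟩, ⟨11, 12, 16⟩] = true) ∧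
    (checkAlt 2 (envAlts 7 eEnvD1 [331, 3317, 33177]) (.leaf 1) [⟨3, 4, 16⟩, ⟨5, 6, 8⟩] = true) ∧
    (checkAlt 2 (envAlts 7 eEnvD1 [331, 3317, 33177]) (.leaf 0) [⟨0, 1, 8⟩, ⟨6, 7, 8⟩] = true) ∧
    (checkAlt 2 (envAlts 7 eEnvD1 [331, 3317, 33177]) (.leaf 0) [⟨0, 1, 16⟩, ⟨7, 8, 8⟩] = true) ∧
    (checkAlt 2 (envAlts 7 eEnvD1 [331, 3317, 33177]) (.leaf 0) [⟨2, 3, 32⟩, ⟨14, 15, 16⟩] = true) := by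
  refine ⟨?_, ?_, ?_, ?_, ?_, ?_, ?_, ?_, ?_, ?_, ?_, ?_, ?_⟩ <;> decide +kernel

theorem chkD1_leaves2 :
    (checkAlt 2 (envAlts 7 eEnvD1 [331, 3317, 33177]) (.leaf 2) [⟨3, 4, 32⟩, ⟨28, 29, 32⟩] = true) ∧
    (checkAlt 2 (envAlts 7 eEnvD1 [331, 3317, 33177]) (.leaf 0) [⟨6, 7, 64⟩, ⟨29, 30, 32⟩] = true) ∧
    (checkAlt 2 (envAlts 7 eEnvD1 [331, 3317, 33177]) (.cut 1 (.leaf 2) (.leaf 3)) [⟨7, 8, 64⟩, ⟨29, 30, 32⟩] = true) ∧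
    (checkAlt 2 (envAlts 7 eEnvD1 [331, 3317, 33177]) (.leaf 0) [⟨2, 3, 32⟩, ⟨15, 16, 16⟩] = true) ∧
    (checkAlt 2 (envAlts 7 eEnvD1 [331, 3317, 33177]) (.cut 0 (.leaf 0) (.leaf 3)) [⟨3, 4, 32⟩, ⟨30, 31, 32⟩] = true) ∧
    (checkAlt 2 (envAlts 7 eEnvD1 [331, 3317, 33177]) (.cut 0 (.leaf 0) (.leaf 3)) [⟨3, 4, 32⟩, ⟨31, 32, 32⟩] = true) ∧
    (checkAlt 2 (envAlts 7 eEnvD1 [331, 3317, 33177]) (.leaf 1) [⟨1, 2, 8⟩, ⟨3, 4, 4⟩] = true) ∧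
    (checkAlt 2 (envAlts 7 eEnvD1 [331, 3317, 33177]) (.leaf 1) [⟨1, 2, 4⟩, ⟨1, 2, 2⟩] = true) ∧
    (checkAlt 2 (envAlts 7 eEnvD1 [331, 3317, 33177]) (.cut 1 (.leaf 4) (.leaf 1)) [⟨4, 5, 8⟩, ⟨0, 1, 4⟩] = true) ∧
    (checkAlt 2 (envAlts 7 eEnvD1 [331, 3317, 33177]) (.leaf 1) [⟨5, 6, 8⟩, ⟨0, 1, 4⟩] = true) ∧
    (checkAlt 2 (envAlts 7 eEnvD1 [331, 3317, 33177]) (.leaf 1) [⟨2, 3, 4⟩, ⟨1, 2, 4⟩] = true) ∧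
    (checkAlt 2 (envAlts 7 eEnvD1 [331, 3317, 33177]) (.leaf 1) [⟨3, 4, 4⟩, ⟨0, 1, 2⟩] = true) ∧
    (checkAlt 2 (envAlts 7 eEnvD1 [331, 3317, 33177]) (.leaf 1) [⟨1, 2, 2⟩, ⟨1, 2, 2⟩] = true) := by
  refine ⟨?_, ?_, ?_, ?_, ?_, ?_, ?_, ?_, ?_, ?_, ?_, ?_, ?_⟩ <;> decide +kernel

theorem chkD1_0 : checkAlt 2 (envAlts 7 eEnvD1 [331, 3317, 33177]) (.leaf 0)
    [⟨0, 1, 4⟩, ⟨0, 1, 4⟩] = true := chkD1_leaves0.1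

theorem chkD1_1 : checkAlt 2 (envAlts 7 eEnvD1 [331, 3317, 33177]) (.leaf 0)
    [⟨0, 1, 8⟩, ⟨1, 2, 4⟩] = true := chkD1_leaves0.2.1

theorem chkD1_2 : checkAlt 2 (envAlts 7 eEnvD1 [331, 3317, 33177]) (.leaf 0)
    [⟨2, 3, 16⟩, ⟨2, 3, 8⟩] = true := chkD1_leaves0.2.2.1

theorem chkD1_3 : checkAlt 2 (envAlts 7 eEnvD1 [331, 3317, 33177]) (.cut 1 (.leaf 3) (.leaf 1))
    [⟨3, 4, 16⟩, ⟨2, 3, 8⟩] = true := chkD1_leaves0.2.2.2.1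

theorem chkD1_4 : checkAlt 2 (envAlts 7 eEnvD1 [331, 3317, 33177]) (.cut 0 (.leaf 0) (.cut 1 (.leaf 3) (.leaf 1)))
    [⟨1, 2, 8⟩, ⟨2, 3, 8⟩] = true := checkAlt_cut chkD1_2 chkD1_3

theorem chkD1_5 : checkAlt 2 (envAlts 7 eEnvD1 [331, 3317, 33177]) (.leaf 0)
    [⟨2, 3, 16⟩, ⟨6, 7, 16⟩] = true := chkD1_leaves0.2.2.2.2.1

theorem chkD1_6 : checkAlt 2 (envAlts 7 eEnvD1 [331, 3317, 33177]) (.cut 0 (.leaf 0) (.leaf 3))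
    [⟨2, 3, 16⟩, ⟨7, 8, 16⟩] = true := chkD1_leaves0.2.2.2.2.2.1

theorem chkD1_7 : checkAlt 2 (envAlts 7 eEnvD1 [331, 3317, 33177]) (.cut 1 (.leaf 0) (.cut 0 (.leaf 0) (.leaf 3)))
    [⟨2, 3, 16⟩, ⟨3, 4, 8⟩] = true := checkAlt_cut chkD1_5 chkD1_6

theorem chkD1_8 : checkAlt 2 (envAlts 7 eEnvD1 [331, 3317, 33177]) (.leaf 1)
    [⟨3, 4, 16⟩, ⟨3, 4, 8⟩] = true := chkD1_leaves0.2.2.2.2.2.2.1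

theorem chkD1_9 : checkAlt 2 (envAlts 7 eEnvD1 [331, 3317, 33177]) (.cut 0 (.cut 1 (.leaf 0) (.cut 0 (.leaf 0) (.leaf 3))) (.leaf 1))
    [⟨1, 2, 8⟩, ⟨3, 4, 8⟩] = true := checkAlt_cut chkD1_7 chkD1_8

theorem chkD1_10 : checkAlt 2 (envAlts 7 eEnvD1 [331, 3317, 33177]) (.cut 1 (.cut 0 (.leaf 0) (.cut 1 (.leaf 3) (.leaf 1))) (.cut 0 (.cut 1 (.leaf 0) (.cut 0 (.leaf 0) (.leaf 3))) (.leaf 1)))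
    [⟨1, 2, 8⟩, ⟨1, 2, 4⟩] = true := checkAlt_cut chkD1_4 chkD1_9

theorem chkD1_11 : checkAlt 2 (envAlts 7 eEnvD1 [331, 3317, 33177]) (.cut 0 (.leaf 0) (.cut 1 (.cut 0 (.leaf 0) (.cut 1 (.leaf 3) (.leaf 1))) (.cut 0 (.cut 1 (.leaf 0) (.cut 0 (.leaf 0) (.leaf 3))) (.leaf 1))))
    [⟨0, 1, 4⟩, ⟨1, 2, 4⟩] = true := checkAlt_cut chkD1_1 chkD1_10

theorem chkD1_12 : checkAlt 2 (envAlts 7 eEnvD1 [331, 3317, 33177]) (.cut 1 (.leaf 0) (.cut 0 (.leaf 0) (.cut 1 (.cut 0 (.leaf 0) (.cut 1 (.leaf 3) (.leaf 1))) (.cut 0 (.cut 1 (.leaf 0) (.cut 0 (.leaf 0) (.leaf 3))) (.leaf 1)))))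
    [⟨0, 1, 4⟩, ⟨0, 1, 2⟩] = true := checkAlt_cut chkD1_0 chkD1_11

theorem chkD1_13 : checkAlt 2 (envAlts 7 eEnvD1 [331, 3317, 33177]) (.cut 1 (.leaf 0) (.leaf 4))
    [⟨2, 3, 8⟩, ⟨0, 1, 4⟩] = true := chkD1_leaves0.2.2.2.2.2.2.2.1

theorem chkD1_14 : checkAlt 2 (envAlts 7 eEnvD1 [331, 3317, 33177]) (.cut 1 (.leaf 3) (.leaf 1))
    [⟨3, 4, 8⟩, ⟨0, 1, 4⟩] = true := chkD1_leaves0.2.2.2.2.2.2.2.2.1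

theorem chkD1_15 : checkAlt 2 (envAlts 7 eEnvD1 [331, 3317, 33177]) (.cut 0 (.cut 1 (.leaf 0) (.leaf 4)) (.cut 1 (.leaf 3) (.leaf 1)))
    [⟨1, 2, 4⟩, ⟨0, 1, 4⟩] = true := checkAlt_cut chkD1_13 chkD1_14

theorem chkD1_16 : checkAlt 2 (envAlts 7 eEnvD1 [331, 3317, 33177]) (.leaf 1)
    [⟨1, 2, 4⟩, ⟨1, 2, 4⟩] = true := chkD1_leaves0.2.2.2.2.2.2.2.2.2.1

theorem chkD1_17 : checkAlt 2 (envAlts 7 eEnvD1 [331, 3317, 33177]) (.cut 1 (.cut 0 (.cut 1 (.leaf 0) (.leaf 4)) (.cut 1 (.leaf 3) (.leaf 1))) (.leaf 1))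
    [⟨1, 2, 4⟩, ⟨0, 1, 2⟩] = true := checkAlt_cut chkD1_15 chkD1_16

theorem chkD1_18 : checkAlt 2 (envAlts 7 eEnvD1 [331, 3317, 33177]) (.cut 0 (.cut 1 (.leaf 0) (.cut 0 (.leaf 0) (.cut 1 (.cut 0 (.leaf 0) (.cut 1 (.leaf 3) (.leaf 1))) (.cut 0 (.cut 1 (.leaf 0) (.cut 0 (.leaf 0) (.leaf 3))) (.leaf 1))))) (.cut 1 (.cut 0 (.cut 1 (.leaf 0) (.leaf 4)) (.cut 1 (.leaf 3) (.leaf 1))) (.leaf 1)))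
    [⟨0, 1, 2⟩, ⟨0, 1, 2⟩] = true := checkAlt_cut chkD1_12 chkD1_17

theorem chkD1_19 : checkAlt 2 (envAlts 7 eEnvD1 [331, 3317, 33177]) (.leaf 0)
    [⟨0, 1, 8⟩, ⟨2, 3, 4⟩] = true := chkD1_leaves0.2.2.2.2.2.2.2.2.2.2.1

theorem chkD1_20 : checkAlt 2 (envAlts 7 eEnvD1 [331, 3317, 33177]) (.cut 0 (.leaf 0) (.leaf 1))
    [⟨2, 3, 16⟩, ⟨8, 9, 16⟩] = true := chkD1_leaves0.2.2.2.2.2.2.2.2.2.2.2.1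

theorem chkD1_21 : checkAlt 2 (envAlts 7 eEnvD1 [331, 3317, 33177]) (.leaf 2)
    [⟨4, 5, 32⟩, ⟨18, 19, 32⟩] = true := chkD1_leaves0.2.2.2.2.2.2.2.2.2.2.2.2

theorem chkD1_22 : checkAlt 2 (envAlts 7 eEnvD1 [331, 3317, 33177]) (.cut 0 (.leaf 0) (.leaf 1))
    [⟨4, 5, 32⟩, ⟨19, 20, 32⟩] = true := chkD1_leaves1.1

theorem chkD1_23 : checkAlt 2 (envAlts 7 eEnvD1 [331, 3317, 33177]) (.cut 1 (.leaf 2) (.cut 0 (.leaf 0) (.leaf 1)))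
    [⟨4, 5, 32⟩, ⟨9, 10, 16⟩] = true := checkAlt_cut chkD1_21 chkD1_22

theorem chkD1_24 : checkAlt 2 (envAlts 7 eEnvD1 [331, 3317, 33177]) (.leaf 1)
    [⟨5, 6, 32⟩, ⟨9, 10, 16⟩] = true := chkD1_leaves1.2.1

theorem chkD1_25 : checkAlt 2 (envAlts 7 eEnvD1 [331, 3317, 33177]) (.cut 0 (.cut 1 (.leaf 2) (.cut 0 (.leaf 0) (.leaf 1))) (.leaf 1))
    [⟨2, 3, 16⟩, ⟨9, 10, 16⟩] = true := checkAlt_cut chkD1_23 chkD1_24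

theorem chkD1_26 : checkAlt 2 (envAlts 7 eEnvD1 [331, 3317, 33177]) (.cut 1 (.cut 0 (.leaf 0) (.leaf 1)) (.cut 0 (.cut 1 (.leaf 2) (.cut 0 (.leaf 0) (.leaf 1))) (.leaf 1)))
    [⟨2, 3, 16⟩, ⟨4, 5, 8⟩] = true := checkAlt_cut chkD1_20 chkD1_25

theorem chkD1_27 : checkAlt 2 (envAlts 7 eEnvD1 [331, 3317, 33177]) (.leaf 1)
    [⟨3, 4, 16⟩, ⟨4, 5, 8⟩] = true := chkD1_leaves1.2.2.1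

theorem chkD1_28 : checkAlt 2 (envAlts 7 eEnvD1 [331, 3317, 33177]) (.cut 0 (.cut 1 (.cut 0 (.leaf 0) (.leaf 1)) (.cut 0 (.cut 1 (.leaf 2) (.cut 0 (.leaf 0) (.leaf 1))) (.leaf 1))) (.leaf 1))
    [⟨1, 2, 8⟩, ⟨4, 5, 8⟩] = true := checkAlt_cut chkD1_26 chkD1_27

theorem chkD1_29 : checkAlt 2 (envAlts 7 eEnvD1 [331, 3317, 33177]) (.cut 0 (.leaf 0) (.leaf 1))
    [⟨4, 5, 32⟩, ⟨20, 21, 32⟩] = true := chkD1_leaves1.2.2.2.1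

theorem chkD1_30 : checkAlt 2 (envAlts 7 eEnvD1 [331, 3317, 33177]) (.cut 0 (.leaf 0) (.leaf 1))
    [⟨4, 5, 32⟩, ⟨21, 22, 32⟩] = true := chkD1_leaves1.2.2.2.2.1

theorem chkD1_31 : checkAlt 2 (envAlts 7 eEnvD1 [331, 3317, 33177]) (.cut 1 (.cut 0 (.leaf 0) (.leaf 1)) (.cut 0 (.leaf 0) (.leaf 1)))
    [⟨4, 5, 32⟩, ⟨10, 11, 16⟩] = true := checkAlt_cut chkD1_29 chkD1_30

theorem chkD1_32 : checkAlt 2 (envAlts 7 eEnvD1 [331, 3317, 33177]) (.leaf 1)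
    [⟨5, 6, 32⟩, ⟨10, 11, 16⟩] = true := chkD1_leaves1.2.2.2.2.2.1

theorem chkD1_33 : checkAlt 2 (envAlts 7 eEnvD1 [331, 3317, 33177]) (.cut 0 (.cut 1 (.cut 0 (.leaf 0) (.leaf 1)) (.cut 0 (.leaf 0) (.leaf 1))) (.leaf 1))
    [⟨2, 3, 16⟩, ⟨10, 11, 16⟩] = true := checkAlt_cut chkD1_31 chkD1_32

theorem chkD1_34 : checkAlt 2 (envAlts 7 eEnvD1 [331, 3317, 33177]) (.cut 0 (.leaf 2) (.leaf 1))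
    [⟨4, 5, 32⟩, ⟨22, 23, 32⟩] = true := chkD1_leaves1.2.2.2.2.2.2.1

theorem chkD1_35 : checkAlt 2 (envAlts 7 eEnvD1 [331, 3317, 33177]) (.leaf 3)
    [⟨4, 5, 32⟩, ⟨23, 24, 32⟩] = true := chkD1_leaves1.2.2.2.2.2.2.2.1

theorem chkD1_36 : checkAlt 2 (envAlts 7 eEnvD1 [331, 3317, 33177]) (.cut 1 (.cut 0 (.leaf 2) (.leaf 1)) (.leaf 3))
    [⟨4, 5, 32⟩, ⟨11, 12, 16⟩] = true := checkAlt_cut chkD1_34 chkD1_35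

theorem chkD1_37 : checkAlt 2 (envAlts 7 eEnvD1 [331, 3317, 33177]) (.leaf 1)
    [⟨5, 6, 32⟩, ⟨11, 12, 16⟩] = true := chkD1_leaves1.2.2.2.2.2.2.2.2.1

theorem chkD1_38 : checkAlt 2 (envAlts 7 eEnvD1 [331, 3317, 33177]) (.cut 0 (.cut 1 (.cut 0 (.leaf 2) (.leaf 1)) (.leaf 3)) (.leaf 1))
    [⟨2, 3, 16⟩, ⟨11, 12, 16⟩] = true := checkAlt_cut chkD1_36 chkD1_37

theorem chkD1_39 : checkAlt 2 (envAlts 7 eEnvD1 [331, 3317, 33177]) (.cut 1 (.cut 0 (.cut 1 (.cut 0 (.leaf 0) (.leaf 1)) (.cut 0 (.leaf 0) (.leaf 1))) (.leaf 1)) (.cut 0 (.cut 1 (.cut 0 (.leaf 2) (.leaf 1)) (.leaf 3)) (.leaf 1)))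
    [⟨2, 3, 16⟩, ⟨5, 6, 8⟩] = true := checkAlt_cut chkD1_33 chkD1_38

theorem chkD1_40 : checkAlt 2 (envAlts 7 eEnvD1 [331, 3317, 33177]) (.leaf 1)
    [⟨3, 4, 16⟩, ⟨5, 6, 8⟩] = true := chkD1_leaves1.2.2.2.2.2.2.2.2.2.1

theorem chkD1_41 : checkAlt 2 (envAlts 7 eEnvD1 [331, 3317, 33177]) (.cut 0 (.cut 1 (.cut 0 (.cut 1 (.cut 0 (.leaf 0) (.leaf 1)) (.cut 0 (.leaf 0) (.leaf 1))) (.leaf 1)) (.cut 0 (.cut 1 (.cut 0 (.leaf 2) (.leaf 1)) (.leaf 3)) (.leaf 1))) (.leaf 1))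
    [⟨1, 2, 8⟩, ⟨5, 6, 8⟩] = true := checkAlt_cut chkD1_39 chkD1_40

theorem chkD1_42 : checkAlt 2 (envAlts 7 eEnvD1 [331, 3317, 33177]) (.cut 1 (.cut 0 (.cut 1 (.cut 0 (.leaf 0) (.leaf 1)) (.cut 0 (.cut 1 (.leaf 2) (.cut 0 (.leaf 0) (.leaf 1))) (.leaf 1))) (.leaf 1)) (.cut 0 (.cut 1 (.cut 0 (.cut 1 (.cut 0 (.leaf 0) (.leaf 1)) (.cut 0 (.leaf 0) (.leaf 1))) (.leaf 1)) (.cut 0 (.cut 1 (.cut 0 (.leaf 2) (.leaf 1)) (.leaf 3)) (.leaf 1))) (.leaf 1)))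
    [⟨1, 2, 8⟩, ⟨2, 3, 4⟩] = true := checkAlt_cut chkD1_28 chkD1_41

theorem chkD1_43 : checkAlt 2 (envAlts 7 eEnvD1 [331, 3317, 33177]) (.cut 0 (.leaf 0) (.cut 1 (.cut 0 (.cut 1 (.cut 0 (.leaf 0) (.leaf 1)) (.cut 0 (.cut 1 (.leaf 2) (.cut 0 (.leaf 0) (.leaf 1))) (.leaf 1))) (.leaf 1)) (.cut 0 (.cut 1 (.cut 0 (.cut 1 (.cut 0 (.leaf 0) (.leaf 1)) (.cut 0 (.leaf 0) (.leaf 1))) (.leaf 1)) (.cut 0 (.cut 1 (.cut 0 (.leaf 2) (.leaf 1)) (.leaf 3)) (.leaf 1))) (.leaf 1))))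
    [⟨0, 1, 4⟩, ⟨2, 3, 4⟩] = true := checkAlt_cut chkD1_19 chkD1_42

theorem chkD1_44 : checkAlt 2 (envAlts 7 eEnvD1 [331, 3317, 33177]) (.leaf 0)
    [⟨0, 1, 8⟩, ⟨6, 7, 8⟩] = true := chkD1_leaves1.2.2.2.2.2.2.2.2.2.2.1

theorem chkD1_45 : checkAlt 2 (envAlts 7 eEnvD1 [331, 3317, 33177]) (.leaf 0)
    [⟨0, 1, 16⟩, ⟨7, 8, 8⟩] = true := chkD1_leaves1.2.2.2.2.2.2.2.2.2.2.2.1

theorem chkD1_46 : checkAlt 2 (envAlts 7 eEnvD1 [331, 3317, 33177]) (.leaf 0)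
    [⟨2, 3, 32⟩, ⟨14, 15, 16⟩] = true := chkD1_leaves1.2.2.2.2.2.2.2.2.2.2.2.2

theorem chkD1_47 : checkAlt 2 (envAlts 7 eEnvD1 [331, 3317, 33177]) (.leaf 2)
    [⟨3, 4, 32⟩, ⟨28, 29, 32⟩] = true := chkD1_leaves2.1

theorem chkD1_48 : checkAlt 2 (envAlts 7 eEnvD1 [331, 3317, 33177]) (.leaf 0)
    [⟨6, 7, 64⟩, ⟨29, 30, 32⟩] = true := chkD1_leaves2.2.1

theorem chkD1_49 : checkAlt 2 (envAlts 7 eEnvD1 [331, 3317, 33177]) (.cut 1 (.leaf 2) (.leaf 3))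
    [⟨7, 8, 64⟩, ⟨29, 30, 32⟩] = true := chkD1_leaves2.2.2.1

theorem chkD1_50 : checkAlt 2 (envAlts 7 eEnvD1 [331, 3317, 33177]) (.cut 0 (.leaf 0) (.cut 1 (.leaf 2) (.leaf 3)))
    [⟨3, 4, 32⟩, ⟨29, 30, 32⟩] = true := checkAlt_cut chkD1_48 chkD1_49

theorem chkD1_51 : checkAlt 2 (envAlts 7 eEnvD1 [331, 3317, 33177]) (.cut 1 (.leaf 2) (.cut 0 (.leaf 0) (.cut 1 (.leaf 2) (.leaf 3))))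
    [⟨3, 4, 32⟩, ⟨14, 15, 16⟩] = true := checkAlt_cut chkD1_47 chkD1_50

theorem chkD1_52 : checkAlt 2 (envAlts 7 eEnvD1 [331, 3317, 33177]) (.cut 0 (.leaf 0) (.cut 1 (.leaf 2) (.cut 0 (.leaf 0) (.cut 1 (.leaf 2) (.leaf 3)))))
    [⟨1, 2, 16⟩, ⟨14, 15, 16⟩] = true := checkAlt_cut chkD1_46 chkD1_51

theorem chkD1_53 : checkAlt 2 (envAlts 7 eEnvD1 [331, 3317, 33177]) (.leaf 0)
    [⟨2, 3, 32⟩, ⟨15, 16, 16⟩] = true := chkD1_leaves2.2.2.2.1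

theorem chkD1_54 : checkAlt 2 (envAlts 7 eEnvD1 [331, 3317, 33177]) (.cut 0 (.leaf 0) (.leaf 3))
    [⟨3, 4, 32⟩, ⟨30, 31, 32⟩] = true := chkD1_leaves2.2.2.2.2.1

theorem chkD1_55 : checkAlt 2 (envAlts 7 eEnvD1 [331, 3317, 33177]) (.cut 0 (.leaf 0) (.leaf 3))
    [⟨3, 4, 32⟩, ⟨31, 32, 32⟩] = true := chkD1_leaves2.2.2.2.2.2.1

theorem chkD1_56 : checkAlt 2 (envAlts 7 eEnvD1 [331, 3317, 33177]) (.cut 1 (.cut 0 (.leaf 0) (.leaf 3)) (.cut 0 (.leaf 0) (.leaf 3)))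
    [⟨3, 4, 32⟩, ⟨15, 16, 16⟩] = true := checkAlt_cut chkD1_54 chkD1_55

theorem chkD1_57 : checkAlt 2 (envAlts 7 eEnvD1 [331, 3317, 33177]) (.cut 0 (.leaf 0) (.cut 1 (.cut 0 (.leaf 0) (.leaf 3)) (.cut 0 (.leaf 0) (.leaf 3))))
    [⟨1, 2, 16⟩, ⟨15, 16, 16⟩] = true := checkAlt_cut chkD1_53 chkD1_56

theorem chkD1_58 : checkAlt 2 (envAlts 7 eEnvD1 [331, 3317, 33177]) (.cut 1 (.cut 0 (.leaf 0) (.cut 1 (.leaf 2) (.cut 0 (.leaf 0) (.cut 1 (.leaf 2) (.leaf 3))))) (.cut 0 (.leaf 0) (.cut 1 (.cut 0 (.leaf 0) (.leaf 3)) (.cut 0 (.leaf 0) (.leaf 3)))))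
    [⟨1, 2, 16⟩, ⟨7, 8, 8⟩] = true := checkAlt_cut chkD1_52 chkD1_57

theorem chkD1_59 : checkAlt 2 (envAlts 7 eEnvD1 [331, 3317, 33177]) (.cut 0 (.leaf 0) (.cut 1 (.cut 0 (.leaf 0) (.cut 1 (.leaf 2) (.cut 0 (.leaf 0) (.cut 1 (.leaf 2) (.leaf 3))))) (.cut 0 (.leaf 0) (.cut 1 (.cut 0 (.leaf 0) (.leaf 3)) (.cut 0 (.leaf 0) (.leaf 3))))))
    [⟨0, 1, 8⟩, ⟨7, 8, 8⟩] = true := checkAlt_cut chkD1_45 chkD1_58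

theorem chkD1_60 : checkAlt 2 (envAlts 7 eEnvD1 [331, 3317, 33177]) (.cut 1 (.leaf 0) (.cut 0 (.leaf 0) (.cut 1 (.cut 0 (.leaf 0) (.cut 1 (.leaf 2) (.cut 0 (.leaf 0) (.cut 1 (.leaf 2) (.leaf 3))))) (.cut 0 (.leaf 0) (.cut 1 (.cut 0 (.leaf 0) (.leaf 3)) (.cut 0 (.leaf 0) (.leaf 3)))))))
    [⟨0, 1, 8⟩, ⟨3, 4, 4⟩] = true := checkAlt_cut chkD1_44 chkD1_59

theorem chkD1_61 : checkAlt 2 (envAlts 7 eEnvD1 [331, 3317, 33177]) (.leaf 1)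
    [⟨1, 2, 8⟩, ⟨3, 4, 4⟩] = true := chkD1_leaves2.2.2.2.2.2.2.1

theorem chkD1_62 : checkAlt 2 (envAlts 7 eEnvD1 [331, 3317, 33177]) (.cut 0 (.cut 1 (.leaf 0) (.cut 0 (.leaf 0) (.cut 1 (.cut 0 (.leaf 0) (.cut 1 (.leaf 2) (.cut 0 (.leaf 0) (.cut 1 (.leaf 2) (.leaf 3))))) (.cut 0 (.leaf 0) (.cut 1 (.cut 0 (.leaf 0) (.leaf 3)) (.cut 0 (.leaf 0) (.leaf 3))))))) (.leaf 1))
    [⟨0, 1, 4⟩, ⟨3, 4, 4⟩] = true := checkAlt_cut chkD1_60 chkD1_61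

theorem chkD1_63 : checkAlt 2 (envAlts 7 eEnvD1 [331, 3317, 33177]) (.cut 1 (.cut 0 (.leaf 0) (.cut 1 (.cut 0 (.cut 1 (.cut 0 (.leaf 0) (.leaf 1)) (.cut 0 (.cut 1 (.leaf 2) (.cut 0 (.leaf 0) (.leaf 1))) (.leaf 1))) (.leaf 1)) (.cut 0 (.cut 1 (.cut 0 (.cut 1 (.cut 0 (.leaf 0) (.leaf 1)) (.cut 0 (.leaf 0) (.leaf 1))) (.leaf 1)) (.cut 0 (.cut 1 (.cut 0 (.leaf 2) (.leaf 1)) (.leaf 3)) (.leaf 1))) (.leaf 1)))) (.cut 0 (.cut 1 (.leaf 0) (.cut 0 (.leaf 0) (.cut 1 (.cut 0 (.leaf 0) (.cut 1 (.leaf 2) (.cut 0 (.leaf 0) (.cut 1 (.leaf 2) (.leaf 3))))) (.cut 0 (.leaf 0) (.cut 1 (.cut 0 (.leaf 0) (.leaf 3)) (.cut 0 (.leaf 0) (.leaf 3))))))) (.leaf 1)))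
    [⟨0, 1, 4⟩, ⟨1, 2, 2⟩] = true := checkAlt_cut chkD1_43 chkD1_62

theorem chkD1_64 : checkAlt 2 (envAlts 7 eEnvD1 [331, 3317, 33177]) (.leaf 1)
    [⟨1, 2, 4⟩, ⟨1, 2, 2⟩] = true := chkD1_leaves2.2.2.2.2.2.2.2.1

theorem chkD1_65 : checkAlt 2 (envAlts 7 eEnvD1 [331, 3317, 33177]) (.cut 0 (.cut 1 (.cut 0 (.leaf 0) (.cut 1 (.cut 0 (.cut 1 (.cut 0 (.leaf 0) (.leaf 1)) (.cut 0 (.cut 1 (.leaf 2) (.cut 0 (.leaf 0) (.leaf 1))) (.leaf 1))) (.leaf 1)) (.cut 0 (.cut 1 (.cut 0 (.cut 1 (.cut 0 (.leaf 0) (.leaf 1)) (.cut 0 (.leaf 0) (.leaf 1))) (.leaf 1)) (.cut 0 (.cut 1 (.cut 0 (.leaf 2) (.leaf 1)) (.leaf 3)) (.leaf 1))) (.leaf 1)))) (.cut 0 (.cut 1 (.leaf 0) (.cut 0 (.leaf 0) (.cut 1 (.cut 0 (.leaf 0) (.cut 1 (.leaf 2) (.cut 0 (.leaf 0) (.cut 1 (.leaf 2) (.leaf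 3))))) (.cut 0 (.leaf 0) (.cut 1 (.cut 0 (.leaf 0) (.leaf 3)) (.cut 0 (.leaf 0) (.leaf 3))))))) (.leaf 1))) (.leaf 1))
    [⟨0, 1, 2⟩, ⟨1, 2, 2⟩] = true := checkAlt_cut chkD1_63 chkD1_64

theorem chkD1_66 : checkAlt 2 (envAlts 7 eEnvD1 [331, 3317, 33177]) (.cut 1 (.cut 0 (.cut 1 (.leaf 0) (.cut 0 (.leaf 0) (.cut 1 (.cut 0 (.leaf 0) (.cut 1 (.leaf 3) (.leaf 1))) (.cut 0 (.cut 1 (.leaf 0) (.cut 0 (.leaf 0) (.leaf 3))) (.leaf 1))))) (.cut 1 (.cut 0 (.cut 1 (.leaf 0) (.leaf 4)) (.cut 1 (.leaf 3) (.leaf 1))) (.leaf 1))) (.cut 0 (.cut 1 (.cut 0 (.leaf 0) (.cut 1 (.cut 0 (.cut 1 (.cut 0 (.leaf 0) (.leaf 1)) (.cut 0 (.cut 1 (.leaf 2) (.cut 0 (.leaf 0) (.leaf 1))) (.leaf 1))) (.leaf 1)) (.cut 0 (.cut 1 (.cut 0 (.cut 1 (.cut 0 (.leaf 0) (.leaf 1)) (.cut 0 (.leaf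 0) (.leaf 1))) (.leaf 1)) (.cut 0 (.cut 1 (.cut 0 (.leaf 2) (.leaf 1)) (.leaf 3)) (.leaf 1))) (.leaf 1)))) (.cut 0 (.cut 1 (.leaf 0) (.cut 0 (.leaf 0) (.cut 1 (.cut 0 (.leaf 0) (.cut 1 (.leaf 2) (.cut 0 (.leaf 0) (.cut 1 (.leaf 2) (.leaf 3))))) (.cut 0 (.leaf 0) (.cut 1 (.cut 0 (.leaf 0) (.leaf 3)) (.cut 0 (.leaf 0) (.leaf 3))))))) (.leaf 1))) (.leaf 1)))
    [⟨0, 1, 2⟩, ⟨0, 1, 1⟩] = true := checkAlt_cut chkD1_18 chkD1_65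

theorem chkD1_67 : checkAlt 2 (envAlts 7 eEnvD1 [331, 3317, 33177]) (.cut 1 (.leaf 4) (.leaf 1))
    [⟨4, 5, 8⟩, ⟨0, 1, 4⟩] = true := chkD1_leaves2.2.2.2.2.2.2.2.2.1

theorem chkD1_68 : checkAlt 2 (envAlts 7 eEnvD1 [331, 3317, 33177]) (.leaf 1)
    [⟨5, 6, 8⟩, ⟨0, 1, 4⟩] = true := chkD1_leaves2.2.2.2.2.2.2.2.2.2.1

theorem chkD1_69 : checkAlt 2 (envAlts 7 eEnvD1 [331, 3317, 33177]) (.cut 0 (.cut 1 (.leaf 4) (.leaf 1)) (.leaf 1))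
    [⟨2, 3, 4⟩, ⟨0, 1, 4⟩] = true := checkAlt_cut chkD1_67 chkD1_68

theorem chkD1_70 : checkAlt 2 (envAlts 7 eEnvD1 [331, 3317, 33177]) (.leaf 1)
    [⟨2, 3, 4⟩, ⟨1, 2, 4⟩] = true := chkD1_leaves2.2.2.2.2.2.2.2.2.2.2.1

theorem chkD1_71 : checkAlt 2 (envAlts 7 eEnvD1 [331, 3317, 33177]) (.cut 1 (.cut 0 (.cut 1 (.leaf 4) (.leaf 1)) (.leaf 1)) (.leaf 1))
    [⟨2, 3, 4⟩, ⟨0, 1, 2⟩] = true := checkAlt_cut chkD1_69 chkD1_70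

theorem chkD1_72 : checkAlt 2 (envAlts 7 eEnvD1 [331, 3317, 33177]) (.leaf 1)
    [⟨3, 4, 4⟩, ⟨0, 1, 2⟩] = true := chkD1_leaves2.2.2.2.2.2.2.2.2.2.2.2.1

theorem chkD1_73 : checkAlt 2 (envAlts 7 eEnvD1 [331, 3317, 33177]) (.cut 0 (.cut 1 (.cut 0 (.cut 1 (.leaf 4) (.leaf 1)) (.leaf 1)) (.leaf 1)) (.leaf 1))
    [⟨1, 2, 2⟩, ⟨0, 1, 2⟩] = true := checkAlt_cut chkD1_71 chkD1_72

theorem chkD1_74 : checkAlt 2 (envAlts 7 eEnvD1 [331, 3317, 33177]) (.leaf 1)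
    [⟨1, 2, 2⟩, ⟨1, 2, 2⟩] = true := chkD1_leaves2.2.2.2.2.2.2.2.2.2.2.2.2

theorem chkD1_75 : checkAlt 2 (envAlts 7 eEnvD1 [331, 3317, 33177]) (.cut 1 (.cut 0 (.cut 1 (.cut 0 (.cut 1 (.leaf 4) (.leaf 1)) (.leaf 1)) (.leaf 1)) (.leaf 1)) (.leaf 1))
    [⟨1, 2, 2⟩, ⟨0, 1, 1⟩] = true := checkAlt_cut chkD1_73 chkD1_74

theorem chkD1_76 : checkAlt 2 (envAlts 7 eEnvD1 [331, 3317, 33177]) (.cut 0 (.cut 1 (.cut 0 (.cut 1 (.leaf 0) (.cut 0 (.leaf 0) (.cut 1 (.cut 0 (.leaf 0) (.cut 1 (.leaf 3) (.leaf 1))) (.cut 0 (.cut 1 (.leaf 0) (.cut 0 (.leaf 0) (.leaf 3))) (.leaf 1))))) (.cut 1 (.cut 0 (.cut 1 (.leaf 0) (.leaf 4)) (.cut 1 (.leaf 3) (.leaf 1))) (.leaf 1))) (.cut 0 (.cut 1 (.cut 0 (.leaf 0) (.cut 1 (.cut 0 (.cut 1 (.cut 0 (.leaf 0) (.leaf 1)) (.cut 0 (.cut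 1 (.leaf 2) (.cut 0 (.leaf 0) (.leaf 1))) (.leaf 1))) (.leaf 1)) (.cut 0 (.cut 1 (.cut 0 (.cut 1 (.cut 0 (.leaf 0) (.leaf 1)) (.cut 0 (.leaf 0) (.leaf 1))) (.leaf 1)) (.cut 0 (.cut 1 (.cut 0 (.leaf 2) (.leaf 1)) (.leaf 3)) (.leaf 1))) (.leaf 1)))) (.cut 0 (.cut 1 (.leaf 0) (.cut 0 (.leaf 0) (.cut 1 (.cut 0 (.leaf 0) (.cut 1 (.leaf 2) (.cut 0 (.leaf 0) (.cut 1 (.leaf 2) (.leaf 3))))) (.cut 0 (.leaf 0) (.cut 1 (.cut 0 (.leaf 0) (.leaf 3)) (.cut 0 (.leaf 0) (.leaf 3))))))) (.leaf 1))) (.leaf 1))) (.cut 1 (.cut 0 (.cut 1 (.cut 0 (.cut 1 (.leaf 4) (.leaf 1)) (.leaf 1)) (.leaf 1)) (.leaf 1)) (.leaf 1)))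
    [⟨0, 1, 1⟩, ⟨0, 1, 1⟩] = true := checkAlt_cut chkD1_66 chkD1_75

theorem envD1_nonneg {p z : ℝ} (hp : 0 ≤ p) (hp1 : p ≤ 1) (hz : 0 ≤ z) (hz1 : z ≤ 1)
    (hY : 0 ≤ ysum (chart p z)) (hr : 3000 ≤ 1497 * ysum (chart p z)) :
    0 ≤ eEnvD1.eval (pt [p, z]) :=
  env_nonneg (by decide) chkD1_76 hp hp1 hz hz1 hY hr

end Vale.Agent.P154.NegEnd2
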