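import Vale.Agent.P154.NegEnd2.EnvDefs

/-!
P154 NegEnd2: certificate of envelope D2 (generated).
-/

namespace Vale.Agent.P154.NegEnd2

open PolyCheck NegEnd


theorem chkD2_leaves0 :
    (checkAlt 2 (envAlts 7 eEnvD2 [9953, 33177]) (.cut 1 (.leaf 0) (.leaf 0)) [⟨0, 1, 4⟩, ⟨0, 1, 2⟩] = true) ∧
    (checkAlt 2 (envAlts 7 eEnvD2 [9953, 33177]) (.cut 0 (.leaf 2) (.leaf 3)) [⟨1, 2, 4⟩, ⟨0, 1, 4⟩] = true) ∧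
    (checkAlt 2 (envAlts 7 eEnvD2 [9953, 33177]) (.leaf 1) [⟨1, 2, 4⟩, ⟨1, 2, 4⟩] = true) ∧
    (checkAlt 2 (envAlts 7 eEnvD2 [9953, 33177]) (.leaf 0) [⟨0, 1, 2⟩, ⟨1, 2, 2⟩] = true) ∧
    (checkAlt 2 (envAlts 7 eEnvD2 [9953, 33177]) (.leaf 3) [⟨8, 9, 16⟩, ⟨0, 1, 8⟩] = true) ∧
    (checkAlt 2 (envAlts 7 eEnvD2 [9953, 33177]) (.leaf 3) [⟨18, 19, 32⟩, ⟨0, 1, 16⟩] = true) := by
  refine ⟨?_, ?_, ?_, ?_, ?_, ?_⟩ <;> decide +kernel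

theorem chkD2_leaves1 :
    (checkAlt 2 (envAlts 7 eEnvD2 [9953, 33177]) (.cut 0 (.leaf 0) (.leaf 1)) [⟨38, 39, 64⟩, ⟨0, 1, 64⟩] = true) ∧
    (checkAlt 2 (envAlts 7 eEnvD2 [9953, 33177]) (.leaf 1) [⟨38, 39, 64⟩, ⟨1, 2, 64⟩] = true) ∧
    (checkAlt 2 (envAlts 7 eEnvD2 [9953, 33177]) (.leaf 1) [⟨39, 40, 64⟩, ⟨0, 1, 32⟩] = true) ∧
    (checkAlt 2 (envAlts 7 eEnvD2 [9953, 33177]) (.leaf 1) [⟨19, 20, 32⟩, ⟨1, 2, 32⟩] = true) ∧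
    (checkAlt 2 (envAlts 7 eEnvD2 [9953, 33177]) (.leaf 1) [⟨9, 10, 16⟩, ⟨1, 2, 16⟩] = true) ∧
    (checkAlt 2 (envAlts 7 eEnvD2 [9953, 33177]) (.leaf 1) [⟨4, 5, 8⟩, ⟨1, 2, 8⟩] = true) := by
  refine ⟨?_, ?_, ?_, ?_, ?_, ?_⟩ <;> decide +kernel

theorem chkD2_leaves2 :
    (checkAlt 2 (envAlts 7 eEnvD2 [9953, 33177]) (.leaf 1) [⟨5, 6, 8⟩, ⟨0, 1, 4⟩] = true) ∧
    (checkAlt 2 (envAlts 7 eEnvD2 [9953, 33177]) (.leaf 0) [⟨2, 3, 4⟩, ⟨1, 2, 4⟩] = true) ∧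
    (checkAlt 2 (envAlts 7 eEnvD2 [9953, 33177]) (.leaf 1) [⟨3, 4, 4⟩, ⟨0, 1, 2⟩] = true) ∧
    (checkAlt 2 (envAlts 7 eEnvD2 [9953, 33177]) (.leaf 0) [⟨1, 2, 2⟩, ⟨1, 2, 2⟩] = true) := by
  refine ⟨?_, ?_, ?_, ?_⟩ <;> decide +kernel

theorem chkD2_0 : checkAlt 2 (envAlts 7 eEnvD2 [9953, 33177]) (.cut 1 (.leaf 0) (.leaf 0))
    [⟨0, 1, 4⟩, ⟨0, 1, 2⟩] = true := chkD2_leaves0.1

theorem chkD2_1 : checkAlt 2 (envAlts 7 eEnvD2 [9953, 33177]) (.cut 0 (.leaf 2) (.leaf 3))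
    [⟨1, 2, 4⟩, ⟨0, 1, 4⟩] = true := chkD2_leaves0.2.1

theorem chkD2_2 : checkAlt 2 (envAlts 7 eEnvD2 [9953, 33177]) (.leaf 1)
    [⟨1, 2, 4⟩, ⟨1, 2, 4⟩] = true := chkD2_leaves0.2.2.1

theorem chkD2_3 : checkAlt 2 (envAlts 7 eEnvD2 [9953, 33177]) (.cut 1 (.cut 0 (.leaf 2) (.leaf 3)) (.leaf 1))
    [⟨1, 2, 4⟩, ⟨0, 1, 2⟩] = true := checkAlt_cut chkD2_1 chkD2_2

theorem chkD2_4 : checkAlt 2 (envAlts 7 eEnvD2 [9953, 33177]) (.cut 0 (.cut 1 (.leaf 0) (.leaf 0)) (.cut 1 (.cut 0 (.leaf 2) (.leaf 3)) (.leaf 1)))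
    [⟨0, 1, 2⟩, ⟨0, 1, 2⟩] = true := checkAlt_cut chkD2_0 chkD2_3

theorem chkD2_5 : checkAlt 2 (envAlts 7 eEnvD2 [9953, 33177]) (.leaf 0)
    [⟨0, 1, 2⟩, ⟨1, 2, 2⟩] = true := chkD2_leaves0.2.2.2.1

theorem chkD2_6 : checkAlt 2 (envAlts 7 eEnvD2 [9953, 33177]) (.cut 1 (.cut 0 (.cut 1 (.leaf 0) (.leaf 0)) (.cut 1 (.cut 0 (.leaf 2) (.leaf 3)) (.leaf 1))) (.leaf 0))
    [⟨0, 1, 2⟩, ⟨0, 1, 1⟩] = true := checkAlt_cut chkD2_4 chkD2_5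

theorem chkD2_7 : checkAlt 2 (envAlts 7 eEnvD2 [9953, 33177]) (.leaf 3)
    [⟨8, 9, 16⟩, ⟨0, 1, 8⟩] = true := chkD2_leaves0.2.2.2.2.1

theorem chkD2_8 : checkAlt 2 (envAlts 7 eEnvD2 [9953, 33177]) (.leaf 3)
    [⟨18, 19, 32⟩, ⟨0, 1, 16⟩] = true := chkD2_leaves0.2.2.2.2.2

theorem chkD2_9 : checkAlt 2 (envAlts 7 eEnvD2 [9953, 33177]) (.cut 0 (.leaf 0) (.leaf 1))
    [⟨38, 39, 64⟩, ⟨0, 1, 64⟩] = true := chkD2_leaves1.1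

theorem chkD2_10 : checkAlt 2 (envAlts 7 eEnvD2 [9953, 33177]) (.leaf 1)
    [⟨38, 39, 64⟩, ⟨1, 2, 64⟩] = true := chkD2_leaves1.2.1

theorem chkD2_11 : checkAlt 2 (envAlts 7 eEnvD2 [9953, 33177]) (.cut 1 (.cut 0 (.leaf 0) (.leaf 1)) (.leaf 1))
    [⟨38, 39, 64⟩, ⟨0, 1, 32⟩] = true := checkAlt_cut chkD2_9 chkD2_10

theorem chkD2_12 : checkAlt 2 (envAlts 7 eEnvD2 [9953, 33177]) (.leaf 1)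
    [⟨39, 40, 64⟩, ⟨0, 1, 32⟩] = true := chkD2_leaves1.2.2.1

theorem chkD2_13 : checkAlt 2 (envAlts 7 eEnvD2 [9953, 33177]) (.cut 0 (.cut 1 (.cut 0 (.leaf 0) (.leaf 1)) (.leaf 1)) (.leaf 1))
    [⟨19, 20, 32⟩, ⟨0, 1, 32⟩] = true := checkAlt_cut chkD2_11 chkD2_12

theorem chkD2_14 : checkAlt 2 (envAlts 7 eEnvD2 [9953, 33177]) (.leaf 1)
    [⟨19, 20, 32⟩, ⟨1, 2, 32⟩] = true := chkD2_leaves1.2.2.2.1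

theorem chkD2_15 : checkAlt 2 (envAlts 7 eEnvD2 [9953, 33177]) (.cut 1 (.cut 0 (.cut 1 (.cut 0 (.leaf 0) (.leaf 1)) (.leaf 1)) (.leaf 1)) (.leaf 1))
    [⟨19, 20, 32⟩, ⟨0, 1, 16⟩] = true := checkAlt_cut chkD2_13 chkD2_14

theorem chkD2_16 : checkAlt 2 (envAlts 7 eEnvD2 [9953, 33177]) (.cut 0 (.leaf 3) (.cut 1 (.cut 0 (.cut 1 (.cut 0 (.leaf 0) (.leaf 1)) (.leaf 1)) (.leaf 1)) (.leaf 1)))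
    [⟨9, 10, 16⟩, ⟨0, 1, 16⟩] = true := checkAlt_cut chkD2_8 chkD2_15

theorem chkD2_17 : checkAlt 2 (envAlts 7 eEnvD2 [9953, 33177]) (.leaf 1)
    [⟨9, 10, 16⟩, ⟨1, 2, 16⟩] = true := chkD2_leaves1.2.2.2.2.1

theorem chkD2_18 : checkAlt 2 (envAlts 7 eEnvD2 [9953, 33177]) (.cut 1 (.cut 0 (.leaf 3) (.cut 1 (.cut 0 (.cut 1 (.cut 0 (.leaf 0) (.leaf 1)) (.leaf 1)) (.leaf 1)) (.leaf 1))) (.leaf 1))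
    [⟨9, 10, 16⟩, ⟨0, 1, 8⟩] = true := checkAlt_cut chkD2_16 chkD2_17

theorem chkD2_19 : checkAlt 2 (envAlts 7 eEnvD2 [9953, 33177]) (.cut 0 (.leaf 3) (.cut 1 (.cut 0 (.leaf 3) (.cut 1 (.cut 0 (.cut 1 (.cut 0 (.leaf 0) (.leaf 1)) (.leaf 1)) (.leaf 1)) (.leaf 1))) (.leaf 1)))
    [⟨4, 5, 8⟩, ⟨0, 1, 8⟩] = true := checkAlt_cut chkD2_7 chkD2_18

theorem chkD2_20 : checkAlt 2 (envAlts 7 eEnvD2 [9953, 33177]) (.leaf 1)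
    [⟨4, 5, 8⟩, ⟨1, 2, 8⟩] = true := chkD2_leaves1.2.2.2.2.2

theorem chkD2_21 : checkAlt 2 (envAlts 7 eEnvD2 [9953, 33177]) (.cut 1 (.cut 0 (.leaf 3) (.cut 1 (.cut 0 (.leaf 3) (.cut 1 (.cut 0 (.cut 1 (.cut 0 (.leaf 0) (.leaf 1)) (.leaf 1)) (.leaf 1)) (.leaf 1))) (.leaf 1))) (.leaf 1))
    [⟨4, 5, 8⟩, ⟨0, 1, 4⟩] = true := checkAlt_cut chkD2_19 chkD2_20

theorem chkD2_22 : checkAlt 2 (envAlts 7 eEnvD2 [9953, 33177]) (.leaf 1)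
    [⟨5, 6, 8⟩, ⟨0, 1, 4⟩] = true := chkD2_leaves2.1

theorem chkD2_23 : checkAlt 2 (envAlts 7 eEnvD2 [9953, 33177]) (.cut 0 (.cut 1 (.cut 0 (.leaf 3) (.cut 1 (.cut 0 (.leaf 3) (.cut 1 (.cut 0 (.cut 1 (.cut 0 (.leaf 0) (.leaf 1)) (.leaf 1)) (.leaf 1)) (.leaf 1))) (.leaf 1))) (.leaf 1)) (.leaf 1))
    [⟨2, 3, 4⟩, ⟨0, 1, 4⟩] = true := checkAlt_cut chkD2_21 chkD2_22

theorem chkD2_24 : checkAlt 2 (envAlts 7 eEnvD2 [9953, 33177]) (.leaf 0)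
    [⟨2, 3, 4⟩, ⟨1, 2, 4⟩] = true := chkD2_leaves2.2.1

theorem chkD2_25 : checkAlt 2 (envAlts 7 eEnvD2 [9953, 33177]) (.cut 1 (.cut 0 (.cut 1 (.cut 0 (.leaf 3) (.cut 1 (.cut 0 (.leaf 3) (.cut 1 (.cut 0 (.cut 1 (.cut 0 (.leaf 0) (.leaf 1)) (.leaf 1)) (.leaf 1)) (.leaf 1))) (.leaf 1))) (.leaf 1)) (.leaf 1)) (.leaf 0))
    [⟨2, 3, 4⟩, ⟨0, 1, 2⟩] = true := checkAlt_cut chkD2_23 chkD2_24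

theorem chkD2_26 : checkAlt 2 (envAlts 7 eEnvD2 [9953, 33177]) (.leaf 1)
    [⟨3, 4, 4⟩, ⟨0, 1, 2⟩] = true := chkD2_leaves2.2.2.1

theorem chkD2_27 : checkAlt 2 (envAlts 7 eEnvD2 [9953, 33177]) (.cut 0 (.cut 1 (.cut 0 (.cut 1 (.cut 0 (.leaf 3) (.cut 1 (.cut 0 (.leaf 3) (.cut 1 (.cut 0 (.cut 1 (.cut 0 (.leaf 0) (.leaf 1)) (.leaf 1)) (.leaf 1)) (.leaf 1))) (.leaf 1))) (.leaf 1)) (.leaf 1)) (.leaf 0)) (.leaf 1))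
    [⟨1, 2, 2⟩, ⟨0, 1, 2⟩] = true := checkAlt_cut chkD2_25 chkD2_26

theorem chkD2_28 : checkAlt 2 (envAlts 7 eEnvD2 [9953, 33177]) (.leaf 0)
    [⟨1, 2, 2⟩, ⟨1, 2, 2⟩] = true := chkD2_leaves2.2.2.2

theorem chkD2_29 : checkAlt 2 (envAlts 7 eEnvD2 [9953, 33177]) (.cut 1 (.cut 0 (.cut 1 (.cut 0 (.cut 1 (.cut 0 (.leaf 3) (.cut 1 (.cut 0 (.leaf 3) (.cut 1 (.cut 0 (.cut 1 (.cut 0 (.leaf 0) (.leaf 1)) (.leaf 1)) (.leaf 1)) (.leaf 1))) (.leaf 1))) (.leaf 1)) (.leaf 1)) (.leaf 0)) (.leaf 1)) (.leaf 0))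
    [⟨1, 2, 2⟩, ⟨0, 1, 1⟩] = true := checkAlt_cut chkD2_27 chkD2_28

theorem chkD2_30 : checkAlt 2 (envAlts 7 eEnvD2 [9953, 33177]) (.cut 0 (.cut 1 (.cut 0 (.cut 1 (.leaf 0) (.leaf 0)) (.cut 1 (.cut 0 (.leaf 2) (.leaf 3)) (.leaf 1))) (.leaf 0)) (.cut 1 (.cut 0 (.cut 1 (.cut 0 (.cut 1 (.cut 0 (.leaf 3) (.cut 1 (.cut 0 (.leaf 3) (.cut 1 (.cut 0 (.cut 1 (.cut 0 (.leaf 0) (.leaf 1)) (.leaf 1)) (.leaf 1)) (.leaf 1))) (.leaf 1))) (.leaf 1)) (.leaf 1)) (.leaf 0)) (.leaf 1)) (.leaf 0)))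
    [⟨0, 1, 1⟩, ⟨0, 1, 1⟩] = true := checkAlt_cut chkD2_6 chkD2_29

theorem envD2_nonneg {p z : ℝ} (hp : 0 ≤ p) (hp1 : p ≤ 1) (hz : 0 ≤ z) (hz1 : z ≤ 1)
    (hY : 0 ≤ ysum (chart p z)) (hr : 3000 ≤ 1497 * ysum (chart p z)) :
    0 ≤ eEnvD2.eval (pt [p, z]) :=
  env_nonneg (by decide) chkD2_30 hp hp1 hz hz1 hY hr

end Vale.Agent.P154.NegEnd2
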