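import Vale.Agent.P154.NegEnd2.EnvDefs

/-!
P154 NegEnd2: certificate of envelope D3 (generated).
-/

namespace Vale.Agent.P154.NegEnd2

open PolyCheck NegEnd


theorem chkD3_leaves0 :
    (checkAlt 2 (envAlts 7 eEnvD3 [13271, 9953, 6635]) (.leaf 0) [⟨0, 1, 8⟩, ⟨0, 1, 2⟩] = true) ∧
    (checkAlt 2 (envAlts 7 eEnvD3 [13271, 9953, 6635]) (.leaf 0) [⟨0, 1, 16⟩, ⟨1, 2, 2⟩] = true) ∧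
    (checkAlt 2 (envAlts 7 eEnvD3 [13271, 9953, 6635]) (.leaf 0) [⟨1, 2, 16⟩, ⟨2, 3, 4⟩] = true) ∧
    (checkAlt 2 (envAlts 7 eEnvD3 [13271, 9953, 6635]) (.leaf 0) [⟨2, 3, 32⟩, ⟨3, 4, 4⟩] = true) ∧
    (checkAlt 2 (envAlts 7 eEnvD3 [13271, 9953, 6635]) (.leaf 0) [⟨6, 7, 64⟩, ⟨6, 7, 8⟩] = true) ∧
    (checkAlt 2 (envAlts 7 eEnvD3 [13271, 9953, 6635]) (.leaf 0) [⟨14, 15, 128⟩, ⟨12, 13, 16⟩] = true) ∧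
    (checkAlt 2 (envAlts 7 eEnvD3 [13271, 9953, 6635]) (.leaf 2) [⟨15, 16, 128⟩, ⟨24, 25, 32⟩] = true) ∧
    (checkAlt 2 (envAlts 7 eEnvD3 [13271, 9953, 6635]) (.leaf 0) [⟨30, 31, 256⟩, ⟨25, 26, 32⟩] = true) ∧
    (checkAlt 2 (envAlts 7 eEnvD3 [13271, 9953, 6635]) (.cut 0 (.leaf 2) (.leaf 1)) [⟨31, 32, 256⟩, ⟨50, 51, 64⟩] = true) ∧
    (checkAlt 2 (envAlts 7 eEnvD3 [13271, 9953, 6635]) (.cut 0 (.leaf 2) (.leaf 1)) [⟨31, 32, 256⟩, ⟨51, 52, 64⟩] = true) ∧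
    (checkAlt 2 (envAlts 7 eEnvD3 [13271, 9953, 6635]) (.leaf 0) [⟨14, 15, 128⟩, ⟨13, 14, 16⟩] = true) ∧
    (checkAlt 2 (envAlts 7 eEnvD3 [13271, 9953, 6635]) (.leaf 2) [⟨30, 31, 256⟩, ⟨52, 53, 64⟩] = true) ∧
    (checkAlt 2 (envAlts 7 eEnvD3 [13271, 9953, 6635]) (.cut 0 (.leaf 0) (.leaf 1)) [⟨30, 31, 256⟩, ⟨53, 54, 64⟩] = true) ∧
    (checkAlt 2 (envAlts 7 eEnvD3 [13271, 9953, 6635]) (.leaf 1) [⟨31, 32, 256⟩, ⟨26, 27, 32⟩] = true) ∧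
    (checkAlt 2 (envAlts 7 eEnvD3 [13271, 9953, 6635]) (.cut 0 (.leaf 2) (.leaf 1)) [⟨30, 31, 256⟩, ⟨54, 55, 64⟩] = true) ∧
    (checkAlt 2 (envAlts 7 eEnvD3 [13271, 9953, 6635]) (.leaf 1) [⟨30, 31, 256⟩, ⟨55, 56, 64⟩] = true) ∧
    (checkAlt 2 (envAlts 7 eEnvD3 [13271, 9953, 6635]) (.leaf 1) [⟨31, 32, 256⟩, ⟨27, 28, 32⟩] = true) ∧
    (checkAlt 2 (envAlts 7 eEnvD3 [13271, 9953, 6635]) (.leaf 0) [⟨6, 7, 64⟩, ⟨7, 8, 8⟩] = true) ∧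
    (checkAlt 2 (envAlts 7 eEnvD3 [13271, 9953, 6635]) (.leaf 0) [⟨28, 29, 256⟩, ⟨28, 29, 32⟩] = true) ∧
    (checkAlt 2 (envAlts 7 eEnvD3 [13271, 9953, 6635]) (.leaf 2) [⟨29, 30, 256⟩, ⟨56, 57, 64⟩] = true) ∧
    (checkAlt 2 (envAlts 7 eEnvD3 [13271, 9953, 6635]) (.cut 0 (.leaf 0) (.leaf 1)) [⟨29, 30, 256⟩, ⟨57, 58, 64⟩] = true) ∧
    (checkAlt 2 (envAlts 7 eEnvD3 [13271, 9953, 6635]) (.leaf 0) [⟨28, 29, 256⟩, ⟨29, 30, 32⟩] = true) ∧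
    (checkAlt 2 (envAlts 7 eEnvD3 [13271, 9953, 6635]) (.cut 0 (.leaf 2) (.leaf 1)) [⟨29, 30, 256⟩, ⟨58, 59, 64⟩] = true) ∧
    (checkAlt 2 (envAlts 7 eEnvD3 [13271, 9953, 6635]) (.leaf 1) [⟨29, 30, 256⟩, ⟨59, 60, 64⟩] = true) ∧
    (checkAlt 2 (envAlts 7 eEnvD3 [13271, 9953, 6635]) (.leaf 1) [⟨15, 16, 128⟩, ⟨14, 15, 16⟩] = true) ∧
    (checkAlt 2 (envAlts 7 eEnvD3 [13271, 9953, 6635]) (.leaf 2) [⟨28, 29, 256⟩, ⟨60, 61, 64⟩] = true) ∧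
    (checkAlt 2 (envAlts 7 eEnvD3 [13271, 9953, 6635]) (.cut 0 (.leaf 0) (.leaf 1)) [⟨28, 29, 256⟩, ⟨61, 62, 64⟩] = true) ∧
    (checkAlt 2 (envAlts 7 eEnvD3 [13271, 9953, 6635]) (.leaf 1) [⟨29, 30, 256⟩, ⟨30, 31, 32⟩] = true) ∧
    (checkAlt 2 (envAlts 7 eEnvD3 [13271, 9953, 6635]) (.cut 0 (.leaf 2) (.leaf 1)) [⟨28, 29, 256⟩, ⟨62, 63, 64⟩] = true) ∧
    (checkAlt 2 (envAlts 7 eEnvD3 [13271, 9953, 6635]) (.leaf 1) [⟨28, 29, 256⟩, ⟨63, 64, 64⟩] = true) ∧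
    (checkAlt 2 (envAlts 7 eEnvD3 [13271, 9953, 6635]) (.leaf 1) [⟨29, 30, 256⟩, ⟨31, 32, 32⟩] = true) ∧
    (checkAlt 2 (envAlts 7 eEnvD3 [13271, 9953, 6635]) (.leaf 1) [⟨15, 16, 128⟩, ⟨15, 16, 16⟩] = true) ∧
    (checkAlt 2 (envAlts 7 eEnvD3 [13271, 9953, 6635]) (.leaf 0) [⟨2, 3, 16⟩, ⟨0, 1, 4⟩] = true) ∧
    (checkAlt 2 (envAlts 7 eEnvD3 [13271, 9953, 6635]) (.leaf 0) [⟨4, 5, 32⟩, ⟨2, 3, 8⟩] = true) ∧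
    (checkAlt 2 (envAlts 7 eEnvD3 [13271, 9953, 6635]) (.cut 0 (.leaf 0) (.leaf 3)) [⟨4, 5, 32⟩, ⟨3, 4, 8⟩] = true) ∧
    (checkAlt 2 (envAlts 7 eEnvD3 [13271, 9953, 6635]) (.leaf 3) [⟨5, 6, 32⟩, ⟨2, 3, 8⟩] = true) ∧
    (checkAlt 2 (envAlts 7 eEnvD3 [13271, 9953, 6635]) (.leaf 2) [⟨10, 11, 64⟩, ⟨6, 7, 16⟩] = true) ∧
    (checkAlt 2 (envAlts 7 eEnvD3 [13271, 9953, 6635]) (.cut 1 (.leaf 2) (.leaf 1)) [⟨20, 21, 128⟩, ⟨7, 8, 16⟩] = true) := by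
  refine ⟨?_, ?_, ?_, ?_, ?_, ?_, ?_, ?_, ?_, ?_, ?_, ?_, ?_, ?_, ?_, ?_, ?_, ?_, ?_, ?_, ?_, ?_, ?_, ?_, ?_, ?_, ?_, ?_, ?_, ?_, ?_, ?_, ?_, ?_, ?_, ?_, ?_, ?_⟩ <;> decide +kernel

theorem chkD3_leaves1 :
    (checkAlt 2 (envAlts 7 eEnvD3 [13271, 9953, 6635]) (.leaf 1) [⟨21, 22, 128⟩, ⟨7, 8, 16⟩] = true) ∧
    (checkAlt 2 (envAlts 7 eEnvD3 [13271, 9953, 6635]) (.leaf 1) [⟨11, 12, 64⟩, ⟨3, 4, 8⟩] = true) ∧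
    (checkAlt 2 (envAlts 7 eEnvD3 [13271, 9953, 6635]) (.leaf 0) [⟨3, 4, 16⟩, ⟨0, 1, 4⟩] = true) ∧
    (checkAlt 2 (envAlts 7 eEnvD3 [13271, 9953, 6635]) (.cut 1 (.leaf 0) (.leaf 1)) [⟨12, 13, 64⟩, ⟨2, 3, 8⟩] = true) ∧
    (checkAlt 2 (envAlts 7 eEnvD3 [13271, 9953, 6635]) (.leaf 1) [⟨13, 14, 64⟩, ⟨2, 3, 8⟩] = true) ∧
    (checkAlt 2 (envAlts 7 eEnvD3 [13271, 9953, 6635]) (.leaf 1) [⟨6, 7, 32⟩, ⟨3, 4, 8⟩] = true) ∧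
    (checkAlt 2 (envAlts 7 eEnvD3 [13271, 9953, 6635]) (.leaf 1) [⟨7, 8, 32⟩, ⟨1, 2, 4⟩] = true) ∧
    (checkAlt 2 (envAlts 7 eEnvD3 [13271, 9953, 6635]) (.leaf 0) [⟨8, 9, 64⟩, ⟨8, 9, 16⟩] = true) ∧
    (checkAlt 2 (envAlts 7 eEnvD3 [13271, 9953, 6635]) (.leaf 0) [⟨16, 17, 128⟩, ⟨9, 10, 16⟩] = true) ∧
    (checkAlt 2 (envAlts 7 eEnvD3 [13271, 9953, 6635]) (.leaf 0) [⟨17, 18, 128⟩, ⟨18, 19, 32⟩] = true) ∧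
    (checkAlt 2 (envAlts 7 eEnvD3 [13271, 9953, 6635]) (.leaf 0) [⟨34, 35, 256⟩, ⟨19, 20, 32⟩] = true) ∧
    (checkAlt 2 (envAlts 7 eEnvD3 [13271, 9953, 6635]) (.leaf 2) [⟨35, 36, 256⟩, ⟨38, 39, 64⟩] = true) ∧
    (checkAlt 2 (envAlts 7 eEnvD3 [13271, 9953, 6635]) (.cut 0 (.leaf 2) (.leaf 1)) [⟨35, 36, 256⟩, ⟨39, 40, 64⟩] = true) ∧
    (checkAlt 2 (envAlts 7 eEnvD3 [13271, 9953, 6635]) (.leaf 2) [⟨18, 19, 128⟩, ⟨8, 9, 16⟩] = true) ∧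
    (checkAlt 2 (envAlts 7 eEnvD3 [13271, 9953, 6635]) (.cut 0 (.leaf 2) (.leaf 1)) [⟨19, 20, 128⟩, ⟨16, 17, 32⟩] = true) ∧
    (checkAlt 2 (envAlts 7 eEnvD3 [13271, 9953, 6635]) (.leaf 1) [⟨19, 20, 128⟩, ⟨17, 18, 32⟩] = true) ∧
    (checkAlt 2 (envAlts 7 eEnvD3 [13271, 9953, 6635]) (.leaf 2) [⟨36, 37, 256⟩, ⟨36, 37, 64⟩] = true) ∧
    (checkAlt 2 (envAlts 7 eEnvD3 [13271, 9953, 6635]) (.cut 0 (.leaf 2) (.leaf 1)) [⟨36, 37, 256⟩, ⟨37, 38, 64⟩] = true) ∧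
    (checkAlt 2 (envAlts 7 eEnvD3 [13271, 9953, 6635]) (.leaf 1) [⟨37, 38, 256⟩, ⟨18, 19, 32⟩] = true) ∧
    (checkAlt 2 (envAlts 7 eEnvD3 [13271, 9953, 6635]) (.leaf 1) [⟨18, 19, 128⟩, ⟨19, 20, 32⟩] = true) ∧
    (checkAlt 2 (envAlts 7 eEnvD3 [13271, 9953, 6635]) (.leaf 1) [⟨19, 20, 128⟩, ⟨9, 10, 16⟩] = true) ∧
    (checkAlt 2 (envAlts 7 eEnvD3 [13271, 9953, 6635]) (.leaf 2) [⟨16, 17, 128⟩, ⟨10, 11, 16⟩] = true) ∧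
    (checkAlt 2 (envAlts 7 eEnvD3 [13271, 9953, 6635]) (.cut 0 (.leaf 2) (.leaf 1)) [⟨17, 18, 128⟩, ⟨20, 21, 32⟩] = true) ∧
    (checkAlt 2 (envAlts 7 eEnvD3 [13271, 9953, 6635]) (.leaf 1) [⟨17, 18, 128⟩, ⟨21, 22, 32⟩] = true) ∧
    (checkAlt 2 (envAlts 7 eEnvD3 [13271, 9953, 6635]) (.leaf 0) [⟨32, 33, 256⟩, ⟨22, 23, 32⟩] = true) ∧
    (checkAlt 2 (envAlts 7 eEnvD3 [13271, 9953, 6635]) (.cut 0 (.leaf 2) (.leaf 1)) [⟨33, 34, 256⟩, ⟨44, 45, 64⟩] = true) ∧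
    (checkAlt 2 (envAlts 7 eEnvD3 [13271, 9953, 6635]) (.leaf 1) [⟨33, 34, 256⟩, ⟨45, 46, 64⟩] = true) ∧
    (checkAlt 2 (envAlts 7 eEnvD3 [13271, 9953, 6635]) (.leaf 2) [⟨32, 33, 256⟩, ⟨46, 47, 64⟩] = true) ∧
    (checkAlt 2 (envAlts 7 eEnvD3 [13271, 9953, 6635]) (.cut 0 (.leaf 2) (.leaf 1)) [⟨32, 33, 256⟩, ⟨47, 48, 64⟩] = true) ∧
    (checkAlt 2 (envAlts 7 eEnvD3 [13271, 9953, 6635]) (.leaf 1) [⟨33, 34, 256⟩, ⟨23, 24, 32⟩] = true) ∧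
    (checkAlt 2 (envAlts 7 eEnvD3 [13271, 9953, 6635]) (.leaf 1) [⟨17, 18, 128⟩, ⟨11, 12, 16⟩] = true) ∧
    (checkAlt 2 (envAlts 7 eEnvD3 [13271, 9953, 6635]) (.leaf 1) [⟨9, 10, 64⟩, ⟨5, 6, 8⟩] = true) ∧
    (checkAlt 2 (envAlts 7 eEnvD3 [13271, 9953, 6635]) (.leaf 1) [⟨5, 6, 32⟩, ⟨2, 3, 4⟩] = true) ∧
    (checkAlt 2 (envAlts 7 eEnvD3 [13271, 9953, 6635]) (.leaf 1) [⟨2, 3, 16⟩, ⟨3, 4, 4⟩] = true) ∧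
    (checkAlt 2 (envAlts 7 eEnvD3 [13271, 9953, 6635]) (.leaf 1) [⟨3, 4, 16⟩, ⟨1, 2, 2⟩] = true) ∧
    (checkAlt 2 (envAlts 7 eEnvD3 [13271, 9953, 6635]) (.leaf 0) [⟨8, 9, 32⟩, ⟨0, 1, 8⟩] = true) ∧
    (checkAlt 2 (envAlts 7 eEnvD3 [13271, 9953, 6635]) (.cut 1 (.leaf 0) (.leaf 1)) [⟨16, 17, 64⟩, ⟨1, 2, 8⟩] = true) ∧
    (checkAlt 2 (envAlts 7 eEnvD3 [13271, 9953, 6635]) (.leaf 1) [⟨17, 18, 64⟩, ⟨1, 2, 8⟩] = true) := by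
  refine ⟨?_, ?_, ?_, ?_, ?_, ?_, ?_, ?_, ?_, ?_, ?_, ?_, ?_, ?_, ?_, ?_, ?_, ?_, ?_, ?_, ?_, ?_, ?_, ?_, ?_, ?_, ?_, ?_, ?_, ?_, ?_, ?_, ?_, ?_, ?_, ?_, ?_, ?_⟩ <;> decide +kernel

theorem chkD3_leaves2 :
    (checkAlt 2 (envAlts 7 eEnvD3 [13271, 9953, 6635]) (.cut 1 (.leaf 0) (.leaf 1)) [⟨9, 10, 32⟩, ⟨0, 1, 4⟩] = true) ∧
    (checkAlt 2 (envAlts 7 eEnvD3 [13271, 9953, 6635]) (.leaf 1) [⟨4, 5, 16⟩, ⟨1, 2, 4⟩] = true) ∧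
    (checkAlt 2 (envAlts 7 eEnvD3 [13271, 9953, 6635]) (.cut 1 (.leaf 0) (.leaf 1)) [⟨10, 11, 32⟩, ⟨0, 1, 4⟩] = true) ∧
    (checkAlt 2 (envAlts 7 eEnvD3 [13271, 9953, 6635]) (.cut 1 (.leaf 0) (.leaf 1)) [⟨11, 12, 32⟩, ⟨0, 1, 4⟩] = true) ∧
    (checkAlt 2 (envAlts 7 eEnvD3 [13271, 9953, 6635]) (.leaf 1) [⟨5, 6, 16⟩, ⟨1, 2, 4⟩] = true) ∧
    (checkAlt 2 (envAlts 7 eEnvD3 [13271, 9953, 6635]) (.leaf 1) [⟨2, 3, 8⟩, ⟨1, 2, 2⟩] = true) ∧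
    (checkAlt 2 (envAlts 7 eEnvD3 [13271, 9953, 6635]) (.leaf 2) [⟨24, 25, 64⟩, ⟨0, 1, 8⟩] = true) ∧
    (checkAlt 2 (envAlts 7 eEnvD3 [13271, 9953, 6635]) (.cut 1 (.leaf 0) (.leaf 1)) [⟨25, 26, 64⟩, ⟨0, 1, 8⟩] = true) ∧
    (checkAlt 2 (envAlts 7 eEnvD3 [13271, 9953, 6635]) (.leaf 1) [⟨12, 13, 32⟩, ⟨1, 2, 8⟩] = true) ∧
    (checkAlt 2 (envAlts 7 eEnvD3 [13271, 9953, 6635]) (.cut 1 (.leaf 0) (.leaf 1)) [⟨26, 27, 64⟩, ⟨0, 1, 8⟩] = true) ∧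
    (checkAlt 2 (envAlts 7 eEnvD3 [13271, 9953, 6635]) (.cut 1 (.leaf 0) (.leaf 1)) [⟨27, 28, 64⟩, ⟨0, 1, 8⟩] = true) ∧
    (checkAlt 2 (envAlts 7 eEnvD3 [13271, 9953, 6635]) (.leaf 1) [⟨13, 14, 32⟩, ⟨1, 2, 8⟩] = true) ∧
    (checkAlt 2 (envAlts 7 eEnvD3 [13271, 9953, 6635]) (.leaf 1) [⟨6, 7, 16⟩, ⟨1, 2, 4⟩] = true) ∧
    (checkAlt 2 (envAlts 7 eEnvD3 [13271, 9953, 6635]) (.cut 1 (.leaf 0) (.leaf 1)) [⟨28, 29, 64⟩, ⟨0, 1, 8⟩] = true) ∧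
    (checkAlt 2 (envAlts 7 eEnvD3 [13271, 9953, 6635]) (.cut 1 (.leaf 0) (.leaf 1)) [⟨29, 30, 64⟩, ⟨0, 1, 8⟩] = true) ∧
    (checkAlt 2 (envAlts 7 eEnvD3 [13271, 9953, 6635]) (.leaf 1) [⟨14, 15, 32⟩, ⟨1, 2, 8⟩] = true) ∧
    (checkAlt 2 (envAlts 7 eEnvD3 [13271, 9953, 6635]) (.cut 1 (.leaf 0) (.leaf 1)) [⟨30, 31, 64⟩, ⟨0, 1, 8⟩] = true) ∧
    (checkAlt 2 (envAlts 7 eEnvD3 [13271, 9953, 6635]) (.cut 1 (.leaf 0) (.leaf 1)) [⟨31, 32, 64⟩, ⟨0, 1, 8⟩] = true) ∧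
    (checkAlt 2 (envAlts 7 eEnvD3 [13271, 9953, 6635]) (.leaf 1) [⟨15, 16, 32⟩, ⟨1, 2, 8⟩] = true) ∧
    (checkAlt 2 (envAlts 7 eEnvD3 [13271, 9953, 6635]) (.leaf 1) [⟨7, 8, 16⟩, ⟨1, 2, 4⟩] = true) ∧
    (checkAlt 2 (envAlts 7 eEnvD3 [13271, 9953, 6635]) (.leaf 1) [⟨3, 4, 8⟩, ⟨1, 2, 2⟩] = true) ∧
    (checkAlt 2 (envAlts 7 eEnvD3 [13271, 9953, 6635]) (.cut 1 (.leaf 0) (.leaf 1)) [⟨32, 33, 64⟩, ⟨0, 1, 8⟩] = true) ∧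
    (checkAlt 2 (envAlts 7 eEnvD3 [13271, 9953, 6635]) (.cut 1 (.leaf 0) (.leaf 1)) [⟨33, 34, 64⟩, ⟨0, 1, 8⟩] = true) ∧
    (checkAlt 2 (envAlts 7 eEnvD3 [13271, 9953, 6635]) (.leaf 1) [⟨16, 17, 32⟩, ⟨1, 2, 8⟩] = true) ∧
    (checkAlt 2 (envAlts 7 eEnvD3 [13271, 9953, 6635]) (.cut 1 (.leaf 0) (.leaf 1)) [⟨34, 35, 64⟩, ⟨0, 1, 8⟩] = true) ∧
    (checkAlt 2 (envAlts 7 eEnvD3 [13271, 9953, 6635]) (.cut 1 (.leaf 0) (.leaf 1)) [⟨35, 36, 64⟩, ⟨0, 1, 8⟩] = true) ∧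
    (checkAlt 2 (envAlts 7 eEnvD3 [13271, 9953, 6635]) (.leaf 1) [⟨17, 18, 32⟩, ⟨1, 2, 8⟩] = true) ∧
    (checkAlt 2 (envAlts 7 eEnvD3 [13271, 9953, 6635]) (.leaf 1) [⟨8, 9, 16⟩, ⟨1, 2, 4⟩] = true) ∧
    (checkAlt 2 (envAlts 7 eEnvD3 [13271, 9953, 6635]) (.cut 1 (.leaf 0) (.leaf 1)) [⟨36, 37, 64⟩, ⟨0, 1, 8⟩] = true) ∧
    (checkAlt 2 (envAlts 7 eEnvD3 [13271, 9953, 6635]) (.cut 1 (.leaf 0) (.leaf 1)) [⟨37, 38, 64⟩, ⟨0, 1, 8⟩] = true) ∧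
    (checkAlt 2 (envAlts 7 eEnvD3 [13271, 9953, 6635]) (.leaf 1) [⟨18, 19, 32⟩, ⟨1, 2, 8⟩] = true) ∧
    (checkAlt 2 (envAlts 7 eEnvD3 [13271, 9953, 6635]) (.cut 1 (.leaf 0) (.leaf 1)) [⟨38, 39, 64⟩, ⟨0, 1, 8⟩] = true) ∧
    (checkAlt 2 (envAlts 7 eEnvD3 [13271, 9953, 6635]) (.leaf 1) [⟨39, 40, 64⟩, ⟨0, 1, 8⟩] = true) ∧
    (checkAlt 2 (envAlts 7 eEnvD3 [13271, 9953, 6635]) (.leaf 1) [⟨19, 20, 32⟩, ⟨1, 2, 8⟩] = true) ∧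
    (checkAlt 2 (envAlts 7 eEnvD3 [13271, 9953, 6635]) (.leaf 1) [⟨9, 10, 16⟩, ⟨1, 2, 4⟩] = true) ∧
    (checkAlt 2 (envAlts 7 eEnvD3 [13271, 9953, 6635]) (.leaf 1) [⟨4, 5, 8⟩, ⟨1, 2, 2⟩] = true) ∧
    (checkAlt 2 (envAlts 7 eEnvD3 [13271, 9953, 6635]) (.leaf 1) [⟨5, 6, 8⟩, ⟨0, 1, 1⟩] = true) ∧
    (checkAlt 2 (envAlts 7 eEnvD3 [13271, 9953, 6635]) (.leaf 1) [⟨3, 4, 4⟩, ⟨0, 1, 1⟩] = true) := by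
  refine ⟨?_, ?_, ?_, ?_, ?_, ?_, ?_, ?_, ?_, ?_, ?_, ?_, ?_, ?_, ?_, ?_, ?_, ?_, ?_, ?_, ?_, ?_, ?_, ?_, ?_, ?_, ?_, ?_, ?_, ?_, ?_, ?_, ?_, ?_, ?_, ?_, ?_, ?_⟩ <;> decide +kernel

theorem chkD3_0 : checkAlt 2 (envAlts 7 eEnvD3 [13271, 9953, 6635]) (.leaf 0)
    [⟨0, 1, 8⟩, ⟨0, 1, 2⟩] = true := chkD3_leaves0.1

theorem chkD3_1 : checkAlt 2 (envAlts 7 eEnvD3 [13271, 9953, 6635]) (.leaf 0)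
    [⟨0, 1, 16⟩, ⟨1, 2, 2⟩] = true := chkD3_leaves0.2.1

theorem chkD3_2 : checkAlt 2 (envAlts 7 eEnvD3 [13271, 9953, 6635]) (.leaf 0)
    [⟨1, 2, 16⟩, ⟨2, 3, 4⟩] = true := chkD3_leaves0.2.2.1

theorem chkD3_3 : checkAlt 2 (envAlts 7 eEnvD3 [13271, 9953, 6635]) (.leaf 0)
    [⟨2, 3, 32⟩, ⟨3, 4, 4⟩] = true := chkD3_leaves0.2.2.2.1

theorem chkD3_4 : checkAlt 2 (envAlts 7 eEnvD3 [13271, 9953, 6635]) (.leaf 0)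
    [⟨6, 7, 64⟩, ⟨6, 7, 8⟩] = true := chkD3_leaves0.2.2.2.2.1

theorem chkD3_5 : checkAlt 2 (envAlts 7 eEnvD3 [13271, 9953, 6635]) (.leaf 0)
    [⟨14, 15, 128⟩, ⟨12, 13, 16⟩] = true := chkD3_leaves0.2.2.2.2.2.1

theorem chkD3_6 : checkAlt 2 (envAlts 7 eEnvD3 [13271, 9953, 6635]) (.leaf 2)
    [⟨15, 16, 128⟩, ⟨24, 25, 32⟩] = true := chkD3_leaves0.2.2.2.2.2.2.1

theorem chkD3_7 : checkAlt 2 (envAlts 7 eEnvD3 [13271, 9953, 6635]) (.leaf 0)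
    [⟨30, 31, 256⟩, ⟨25, 26, 32⟩] = true := chkD3_leaves0.2.2.2.2.2.2.2.1

theorem chkD3_8 : checkAlt 2 (envAlts 7 eEnvD3 [13271, 9953, 6635]) (.cut 0 (.leaf 2) (.leaf 1))
    [⟨31, 32, 256⟩, ⟨50, 51, 64⟩] = true := chkD3_leaves0.2.2.2.2.2.2.2.2.1

theorem chkD3_9 : checkAlt 2 (envAlts 7 eEnvD3 [13271, 9953, 6635]) (.cut 0 (.leaf 2) (.leaf 1))
    [⟨31, 32, 256⟩, ⟨51, 52, 64⟩] = true := chkD3_leaves0.2.2.2.2.2.2.2.2.2.1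

theorem chkD3_10 : checkAlt 2 (envAlts 7 eEnvD3 [13271, 9953, 6635]) (.cut 1 (.cut 0 (.leaf 2) (.leaf 1)) (.cut 0 (.leaf 2) (.leaf 1)))
    [⟨31, 32, 256⟩, ⟨25, 26, 32⟩] = true := checkAlt_cut chkD3_8 chkD3_9

theorem chkD3_11 : checkAlt 2 (envAlts 7 eEnvD3 [13271, 9953, 6635]) (.cut 0 (.leaf 0) (.cut 1 (.cut 0 (.leaf 2) (.leaf 1)) (.cut 0 (.leaf 2) (.leaf 1))))
    [⟨15, 16, 128⟩, ⟨25, 26, 32⟩] = true := checkAlt_cut chkD3_7 chkD3_10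

theorem chkD3_12 : checkAlt 2 (envAlts 7 eEnvD3 [13271, 9953, 6635]) (.cut 1 (.leaf 2) (.cut 0 (.leaf 0) (.cut 1 (.cut 0 (.leaf 2) (.leaf 1)) (.cut 0 (.leaf 2) (.leaf 1)))))
    [⟨15, 16, 128⟩, ⟨12, 13, 16⟩] = true := checkAlt_cut chkD3_6 chkD3_11

theorem chkD3_13 : checkAlt 2 (envAlts 7 eEnvD3 [13271, 9953, 6635]) (.cut 0 (.leaf 0) (.cut 1 (.leaf 2) (.cut 0 (.leaf 0) (.cut 1 (.cut 0 (.leaf 2) (.leaf 1)) (.cut 0 (.leaf 2) (.leaf 1))))))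
    [⟨7, 8, 64⟩, ⟨12, 13, 16⟩] = true := checkAlt_cut chkD3_5 chkD3_12

theorem chkD3_14 : checkAlt 2 (envAlts 7 eEnvD3 [13271, 9953, 6635]) (.leaf 0)
    [⟨14, 15, 128⟩, ⟨13, 14, 16⟩] = true := chkD3_leaves0.2.2.2.2.2.2.2.2.2.2.1

theorem chkD3_15 : checkAlt 2 (envAlts 7 eEnvD3 [13271, 9953, 6635]) (.leaf 2)
    [⟨30, 31, 256⟩, ⟨52, 53, 64⟩] = true := chkD3_leaves0.2.2.2.2.2.2.2.2.2.2.2.1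

theorem chkD3_16 : checkAlt 2 (envAlts 7 eEnvD3 [13271, 9953, 6635]) (.cut 0 (.leaf 0) (.leaf 1))
    [⟨30, 31, 256⟩, ⟨53, 54, 64⟩] = true := chkD3_leaves0.2.2.2.2.2.2.2.2.2.2.2.2.1

theorem chkD3_17 : checkAlt 2 (envAlts 7 eEnvD3 [13271, 9953, 6635]) (.cut 1 (.leaf 2) (.cut 0 (.leaf 0) (.leaf 1)))
    [⟨30, 31, 256⟩, ⟨26, 27, 32⟩] = true := checkAlt_cut chkD3_15 chkD3_16

theorem chkD3_18 : checkAlt 2 (envAlts 7 eEnvD3 [13271, 9953, 6635]) (.leaf 1)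
    [⟨31, 32, 256⟩, ⟨26, 27, 32⟩] = true := chkD3_leaves0.2.2.2.2.2.2.2.2.2.2.2.2.2.1

theorem chkD3_19 : checkAlt 2 (envAlts 7 eEnvD3 [13271, 9953, 6635]) (.cut 0 (.cut 1 (.leaf 2) (.cut 0 (.leaf 0) (.leaf 1))) (.leaf 1))
    [⟨15, 16, 128⟩, ⟨26, 27, 32⟩] = true := checkAlt_cut chkD3_17 chkD3_18

theorem chkD3_20 : checkAlt 2 (envAlts 7 eEnvD3 [13271, 9953, 6635]) (.cut 0 (.leaf 2) (.leaf 1))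
    [⟨30, 31, 256⟩, ⟨54, 55, 64⟩] = true := chkD3_leaves0.2.2.2.2.2.2.2.2.2.2.2.2.2.2.1

theorem chkD3_21 : checkAlt 2 (envAlts 7 eEnvD3 [13271, 9953, 6635]) (.leaf 1)
    [⟨30, 31, 256⟩, ⟨55, 56, 64⟩] = true := chkD3_leaves0.2.2.2.2.2.2.2.2.2.2.2.2.2.2.2.1

theorem chkD3_22 : checkAlt 2 (envAlts 7 eEnvD3 [13271, 9953, 6635]) (.cut 1 (.cut 0 (.leaf 2) (.leaf 1)) (.leaf 1))
    [⟨30, 31, 256⟩, ⟨27, 28, 32⟩] = true := checkAlt_cut chkD3_20 chkD3_21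

theorem chkD3_23 : checkAlt 2 (envAlts 7 eEnvD3 [13271, 9953, 6635]) (.leaf 1)
    [⟨31, 32, 256⟩, ⟨27, 28, 32⟩] = true := chkD3_leaves0.2.2.2.2.2.2.2.2.2.2.2.2.2.2.2.2.1

theorem chkD3_24 : checkAlt 2 (envAlts 7 eEnvD3 [13271, 9953, 6635]) (.cut 0 (.cut 1 (.cut 0 (.leaf 2) (.leaf 1)) (.leaf 1)) (.leaf 1))
    [⟨15, 16, 128⟩, ⟨27, 28, 32⟩] = true := checkAlt_cut chkD3_22 chkD3_23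

theorem chkD3_25 : checkAlt 2 (envAlts 7 eEnvD3 [13271, 9953, 6635]) (.cut 1 (.cut 0 (.cut 1 (.leaf 2) (.cut 0 (.leaf 0) (.leaf 1))) (.leaf 1)) (.cut 0 (.cut 1 (.cut 0 (.leaf 2) (.leaf 1)) (.leaf 1)) (.leaf 1)))
    [⟨15, 16, 128⟩, ⟨13, 14, 16⟩] = true := checkAlt_cut chkD3_19 chkD3_24

theorem chkD3_26 : checkAlt 2 (envAlts 7 eEnvD3 [13271, 9953, 6635]) (.cut 0 (.leaf 0) (.cut 1 (.cut 0 (.cut 1 (.leaf 2) (.cut 0 (.leaf 0) (.leaf 1))) (.leaf 1)) (.cut 0 (.cut 1 (.cut 0 (.leaf 2) (.leaf 1)) (.leaf 1)) (.leaf 1))))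
    [⟨7, 8, 64⟩, ⟨13, 14, 16⟩] = true := checkAlt_cut chkD3_14 chkD3_25

theorem chkD3_27 : checkAlt 2 (envAlts 7 eEnvD3 [13271, 9953, 6635]) (.cut 1 (.cut 0 (.leaf 0) (.cut 1 (.leaf 2) (.cut 0 (.leaf 0) (.cut 1 (.cut 0 (.leaf 2) (.leaf 1)) (.cut 0 (.leaf 2) (.leaf 1)))))) (.cut 0 (.leaf 0) (.cut 1 (.cut 0 (.cut 1 (.leaf 2) (.cut 0 (.leaf 0) (.leaf 1))) (.leaf 1)) (.cut 0 (.cut 1 (.cut 0 (.leaf 2) (.leaf 1)) (.leaf 1)) (.leaf 1)))))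
    [⟨7, 8, 64⟩, ⟨6, 7, 8⟩] = true := checkAlt_cut chkD3_13 chkD3_26

theorem chkD3_28 : checkAlt 2 (envAlts 7 eEnvD3 [13271, 9953, 6635]) (.cut 0 (.leaf 0) (.cut 1 (.cut 0 (.leaf 0) (.cut 1 (.leaf 2) (.cut 0 (.leaf 0) (.cut 1 (.cut 0 (.leaf 2) (.leaf 1)) (.cut 0 (.leaf 2) (.leaf 1)))))) (.cut 0 (.leaf 0) (.cut 1 (.cut 0 (.cut 1 (.leaf 2) (.cut 0 (.leaf 0) (.leaf 1))) (.leaf 1)) (.cut 0 (.cut 1 (.cut 0 (.leaf 2) (.leaf 1)) (.leaf 1)) (.leaf 1))))))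
    [⟨3, 4, 32⟩, ⟨6, 7, 8⟩] = true := checkAlt_cut chkD3_4 chkD3_27

theorem chkD3_29 : checkAlt 2 (envAlts 7 eEnvD3 [13271, 9953, 6635]) (.leaf 0)
    [⟨6, 7, 64⟩, ⟨7, 8, 8⟩] = true := chkD3_leaves0.2.2.2.2.2.2.2.2.2.2.2.2.2.2.2.2.2.1

theorem chkD3_30 : checkAlt 2 (envAlts 7 eEnvD3 [13271, 9953, 6635]) (.leaf 0)
    [⟨28, 29, 256⟩, ⟨28, 29, 32⟩] = true := chkD3_leaves0.2.2.2.2.2.2.2.2.2.2.2.2.2.2.2.2.2.2.1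

theorem chkD3_31 : checkAlt 2 (envAlts 7 eEnvD3 [13271, 9953, 6635]) (.leaf 2)
    [⟨29, 30, 256⟩, ⟨56, 57, 64⟩] = true := chkD3_leaves0.2.2.2.2.2.2.2.2.2.2.2.2.2.2.2.2.2.2.2.1

theorem chkD3_32 : checkAlt 2 (envAlts 7 eEnvD3 [13271, 9953, 6635]) (.cut 0 (.leaf 0) (.leaf 1))
    [⟨29, 30, 256⟩, ⟨57, 58, 64⟩] = true := chkD3_leaves0.2.2.2.2.2.2.2.2.2.2.2.2.2.2.2.2.2.2.2.2.1

theorem chkD3_33 : checkAlt 2 (envAlts 7 eEnvD3 [13271, 9953, 6635]) (.cut 1 (.leaf 2) (.cut 0 (.leaf 0) (.leaf 1)))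
    [⟨29, 30, 256⟩, ⟨28, 29, 32⟩] = true := checkAlt_cut chkD3_31 chkD3_32

theorem chkD3_34 : checkAlt 2 (envAlts 7 eEnvD3 [13271, 9953, 6635]) (.cut 0 (.leaf 0) (.cut 1 (.leaf 2) (.cut 0 (.leaf 0) (.leaf 1))))
    [⟨14, 15, 128⟩, ⟨28, 29, 32⟩] = true := checkAlt_cut chkD3_30 chkD3_33

theorem chkD3_35 : checkAlt 2 (envAlts 7 eEnvD3 [13271, 9953, 6635]) (.leaf 0)
    [⟨28, 29, 256⟩, ⟨29, 30, 32⟩] = true := chkD3_leaves0.2.2.2.2.2.2.2.2.2.2.2.2.2.2.2.2.2.2.2.2.2.1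

theorem chkD3_36 : checkAlt 2 (envAlts 7 eEnvD3 [13271, 9953, 6635]) (.cut 0 (.leaf 2) (.leaf 1))
    [⟨29, 30, 256⟩, ⟨58, 59, 64⟩] = true := chkD3_leaves0.2.2.2.2.2.2.2.2.2.2.2.2.2.2.2.2.2.2.2.2.2.2.1

theorem chkD3_37 : checkAlt 2 (envAlts 7 eEnvD3 [13271, 9953, 6635]) (.leaf 1)
    [⟨29, 30, 256⟩, ⟨59, 60, 64⟩] = true := chkD3_leaves0.2.2.2.2.2.2.2.2.2.2.2.2.2.2.2.2.2.2.2.2.2.2.2.1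

theorem chkD3_38 : checkAlt 2 (envAlts 7 eEnvD3 [13271, 9953, 6635]) (.cut 1 (.cut 0 (.leaf 2) (.leaf 1)) (.leaf 1))
    [⟨29, 30, 256⟩, ⟨29, 30, 32⟩] = true := checkAlt_cut chkD3_36 chkD3_37

theorem chkD3_39 : checkAlt 2 (envAlts 7 eEnvD3 [13271, 9953, 6635]) (.cut 0 (.leaf 0) (.cut 1 (.cut 0 (.leaf 2) (.leaf 1)) (.leaf 1)))
    [⟨14, 15, 128⟩, ⟨29, 30, 32⟩] = true := checkAlt_cut chkD3_35 chkD3_38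

theorem chkD3_40 : checkAlt 2 (envAlts 7 eEnvD3 [13271, 9953, 6635]) (.cut 1 (.cut 0 (.leaf 0) (.cut 1 (.leaf 2) (.cut 0 (.leaf 0) (.leaf 1)))) (.cut 0 (.leaf 0) (.cut 1 (.cut 0 (.leaf 2) (.leaf 1)) (.leaf 1))))
    [⟨14, 15, 128⟩, ⟨14, 15, 16⟩] = true := checkAlt_cut chkD3_34 chkD3_39

theorem chkD3_41 : checkAlt 2 (envAlts 7 eEnvD3 [13271, 9953, 6635]) (.leaf 1)
    [⟨15, 16, 128⟩, ⟨14, 15, 16⟩] = true := chkD3_leaves0.2.2.2.2.2.2.2.2.2.2.2.2.2.2.2.2.2.2.2.2.2.2.2.2.1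

theorem chkD3_42 : checkAlt 2 (envAlts 7 eEnvD3 [13271, 9953, 6635]) (.cut 0 (.cut 1 (.cut 0 (.leaf 0) (.cut 1 (.leaf 2) (.cut 0 (.leaf 0) (.leaf 1)))) (.cut 0 (.leaf 0) (.cut 1 (.cut 0 (.leaf 2) (.leaf 1)) (.leaf 1)))) (.leaf 1))
    [⟨7, 8, 64⟩, ⟨14, 15, 16⟩] = true := checkAlt_cut chkD3_40 chkD3_41

theorem chkD3_43 : checkAlt 2 (envAlts 7 eEnvD3 [13271, 9953, 6635]) (.leaf 2)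
    [⟨28, 29, 256⟩, ⟨60, 61, 64⟩] = true := chkD3_leaves0.2.2.2.2.2.2.2.2.2.2.2.2.2.2.2.2.2.2.2.2.2.2.2.2.2.1

theorem chkD3_44 : checkAlt 2 (envAlts 7 eEnvD3 [13271, 9953, 6635]) (.cut 0 (.leaf 0) (.leaf 1))
    [⟨28, 29, 256⟩, ⟨61, 62, 64⟩] = true := chkD3_leaves0.2.2.2.2.2.2.2.2.2.2.2.2.2.2.2.2.2.2.2.2.2.2.2.2.2.2.1

theorem chkD3_45 : checkAlt 2 (envAlts 7 eEnvD3 [13271, 9953, 6635]) (.cut 1 (.leaf 2) (.cut 0 (.leaf 0) (.leaf 1)))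
    [⟨28, 29, 256⟩, ⟨30, 31, 32⟩] = true := checkAlt_cut chkD3_43 chkD3_44

theorem chkD3_46 : checkAlt 2 (envAlts 7 eEnvD3 [13271, 9953, 6635]) (.leaf 1)
    [⟨29, 30, 256⟩, ⟨30, 31, 32⟩] = true := chkD3_leaves0.2.2.2.2.2.2.2.2.2.2.2.2.2.2.2.2.2.2.2.2.2.2.2.2.2.2.2.1

theorem chkD3_47 : checkAlt 2 (envAlts 7 eEnvD3 [13271, 9953, 6635]) (.cut 0 (.cut 1 (.leaf 2) (.cut 0 (.leaf 0) (.leaf 1))) (.leaf 1))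
    [⟨14, 15, 128⟩, ⟨30, 31, 32⟩] = true := checkAlt_cut chkD3_45 chkD3_46

theorem chkD3_48 : checkAlt 2 (envAlts 7 eEnvD3 [13271, 9953, 6635]) (.cut 0 (.leaf 2) (.leaf 1))
    [⟨28, 29, 256⟩, ⟨62, 63, 64⟩] = true := chkD3_leaves0.2.2.2.2.2.2.2.2.2.2.2.2.2.2.2.2.2.2.2.2.2.2.2.2.2.2.2.2.1

theorem chkD3_49 : checkAlt 2 (envAlts 7 eEnvD3 [13271, 9953, 6635]) (.leaf 1)
    [⟨28, 29, 256⟩, ⟨63, 64, 64⟩] = true := chkD3_leaves0.2.2.2.2.2.2.2.2.2.2.2.2.2.2.2.2.2.2.2.2.2.2.2.2.2.2.2.2.2.1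

theorem chkD3_50 : checkAlt 2 (envAlts 7 eEnvD3 [13271, 9953, 6635]) (.cut 1 (.cut 0 (.leaf 2) (.leaf 1)) (.leaf 1))
    [⟨28, 29, 256⟩, ⟨31, 32, 32⟩] = true := checkAlt_cut chkD3_48 chkD3_49

theorem chkD3_51 : checkAlt 2 (envAlts 7 eEnvD3 [13271, 9953, 6635]) (.leaf 1)
    [⟨29, 30, 256⟩, ⟨31, 32, 32⟩] = true := chkD3_leaves0.2.2.2.2.2.2.2.2.2.2.2.2.2.2.2.2.2.2.2.2.2.2.2.2.2.2.2.2.2.2.1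

theorem chkD3_52 : checkAlt 2 (envAlts 7 eEnvD3 [13271, 9953, 6635]) (.cut 0 (.cut 1 (.cut 0 (.leaf 2) (.leaf 1)) (.leaf 1)) (.leaf 1))
    [⟨14, 15, 128⟩, ⟨31, 32, 32⟩] = true := checkAlt_cut chkD3_50 chkD3_51

theorem chkD3_53 : checkAlt 2 (envAlts 7 eEnvD3 [13271, 9953, 6635]) (.cut 1 (.cut 0 (.cut 1 (.leaf 2) (.cut 0 (.leaf 0) (.leaf 1))) (.leaf 1)) (.cut 0 (.cut 1 (.cut 0 (.leaf 2) (.leaf 1)) (.leaf 1)) (.leaf 1)))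
    [⟨14, 15, 128⟩, ⟨15, 16, 16⟩] = true := checkAlt_cut chkD3_47 chkD3_52

theorem chkD3_54 : checkAlt 2 (envAlts 7 eEnvD3 [13271, 9953, 6635]) (.leaf 1)
    [⟨15, 16, 128⟩, ⟨15, 16, 16⟩] = true := chkD3_leaves0.2.2.2.2.2.2.2.2.2.2.2.2.2.2.2.2.2.2.2.2.2.2.2.2.2.2.2.2.2.2.2.1

theorem chkD3_55 : checkAlt 2 (envAlts 7 eEnvD3 [13271, 9953, 6635]) (.cut 0 (.cut 1 (.cut 0 (.cut 1 (.leaf 2) (.cut 0 (.leaf 0) (.leaf 1))) (.leaf 1)) (.cut 0 (.cut 1 (.cut 0 (.leaf 2) (.leaf 1)) (.leaf 1)) (.leaf 1))) (.leaf 1))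
    [⟨7, 8, 64⟩, ⟨15, 16, 16⟩] = true := checkAlt_cut chkD3_53 chkD3_54

theorem chkD3_56 : checkAlt 2 (envAlts 7 eEnvD3 [13271, 9953, 6635]) (.cut 1 (.cut 0 (.cut 1 (.cut 0 (.leaf 0) (.cut 1 (.leaf 2) (.cut 0 (.leaf 0) (.leaf 1)))) (.cut 0 (.leaf 0) (.cut 1 (.cut 0 (.leaf 2) (.leaf 1)) (.leaf 1)))) (.leaf 1)) (.cut 0 (.cut 1 (.cut 0 (.cut 1 (.leaf 2) (.cut 0 (.leaf 0) (.leaf 1))) (.leaf 1)) (.cut 0 (.cut 1 (.cut 0 (.leaf 2) (.leaf 1)) (.leaf 1)) (.leaf 1))) (.leaf 1)))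
    [⟨7, 8, 64⟩, ⟨7, 8, 8⟩] = true := checkAlt_cut chkD3_42 chkD3_55

theorem chkD3_57 : checkAlt 2 (envAlts 7 eEnvD3 [13271, 9953, 6635]) (.cut 0 (.leaf 0) (.cut 1 (.cut 0 (.cut 1 (.cut 0 (.leaf 0) (.cut 1 (.leaf 2) (.cut 0 (.leaf 0) (.leaf 1)))) (.cut 0 (.leaf 0) (.cut 1 (.cut 0 (.leaf 2) (.leaf 1)) (.leaf 1)))) (.leaf 1)) (.cut 0 (.cut 1 (.cut 0 (.cut 1 (.leaf 2) (.cut 0 (.leaf 0) (.leaf 1))) (.leaf 1)) (.cut 0 (.cut 1 (.cut 0 (.leaf 2) (.leaf 1)) (.leaf 1)) (.leaf 1))) (.leaf 1))))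
    [⟨3, 4, 32⟩, ⟨7, 8, 8⟩] = true := checkAlt_cut chkD3_29 chkD3_56

theorem chkD3_58 : checkAlt 2 (envAlts 7 eEnvD3 [13271, 9953, 6635]) (.cut 1 (.cut 0 (.leaf 0) (.cut 1 (.cut 0 (.leaf 0) (.cut 1 (.leaf 2) (.cut 0 (.leaf 0) (.cut 1 (.cut 0 (.leaf 2) (.leaf 1)) (.cut 0 (.leaf 2) (.leaf 1)))))) (.cut 0 (.leaf 0) (.cut 1 (.cut 0 (.cut 1 (.leaf 2) (.cut 0 (.leaf 0) (.leaf 1))) (.leaf 1)) (.cut 0 (.cut 1 (.cut 0 (.leaf 2) (.leaf 1)) (.leaf 1)) (.leaf 1)))))) (.cut 0 (.leaf 0) (.cut 1 (.cut 0 (.cut 1 (.cut 0 (.leaf 0) (.cut 1 (.leaf 2) (.cut 0 (.leaf 0) (.leaf 1)))) (.cut 0 (.leaf 0) (.cut 1 (.cut 0 (.leaf 2) (.leaf 1)) (.leaf 1)))) (.leaf 1)) (.cut 0 (.cut 1 (.cut 0 (.cut 1 (.leaf 2) (.cut 0 (.leaf 0) (.leaf 1))) (.leaf 1)) (.cut 0 (.cut 1 (.cut 0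 (.leaf 2) (.leaf 1)) (.leaf 1)) (.leaf 1))) (.leaf 1)))))
    [⟨3, 4, 32⟩, ⟨3, 4, 4⟩] = true := checkAlt_cut chkD3_28 chkD3_57

theorem chkD3_59 : checkAlt 2 (envAlts 7 eEnvD3 [13271, 9953, 6635]) (.cut 0 (.leaf 0) (.cut 1 (.cut 0 (.leaf 0) (.cut 1 (.cut 0 (.leaf 0) (.cut 1 (.leaf 2) (.cut 0 (.leaf 0) (.cut 1 (.cut 0 (.leaf 2) (.leaf 1)) (.cut 0 (.leaf 2) (.leaf 1)))))) (.cut 0 (.leaf 0) (.cut 1 (.cut 0 (.cut 1 (.leaf 2) (.cut 0 (.leaf 0) (.leaf 1))) (.leaf 1)) (.cut 0 (.cut 1 (.cut 0 (.leaf 2) (.leaf 1)) (.leaf 1)) (.leaf 1)))))) (.cut 0 (.leaf 0) (.cut 1 (.cut 0 (.cut 1 (.cut 0 (.leaf 0) (.cut 1 (.leaf 2) (.cut 0 (.leaf 0) (.leaf 1)))) (.cut 0 (.leaf 0) (.cut 1 (.cut 0 (.leaf 2) (.leaf 1)) (.leaf 1)))) (.leaf 1)) (.cut 0 (.cut 1 (.cut 0 (.cut 1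 (.leaf 2) (.cut 0 (.leaf 0) (.leaf 1))) (.leaf 1)) (.cut 0 (.cut 1 (.cut 0 (.leaf 2) (.leaf 1)) (.leaf 1)) (.leaf 1))) (.leaf 1))))))
    [⟨1, 2, 16⟩, ⟨3, 4, 4⟩] = true := checkAlt_cut chkD3_3 chkD3_58

theorem chkD3_60 : checkAlt 2 (envAlts 7 eEnvD3 [13271, 9953, 6635]) (.cut 1 (.leaf 0) (.cut 0 (.leaf 0) (.cut 1 (.cut 0 (.leaf 0) (.cut 1 (.cut 0 (.leaf 0) (.cut 1 (.leaf 2) (.cut 0 (.leaf 0) (.cut 1 (.cut 0 (.leaf 2) (.leaf 1)) (.cut 0 (.leaf 2) (.leaf 1)))))) (.cut 0 (.leaf 0) (.cut 1 (.cut 0 (.cut 1 (.leaf 2) (.cut 0 (.leaf 0) (.leaf 1))) (.leaf 1)) (.cut 0 (.cut 1 (.cut 0 (.leaf 2) (.leaf 1)) (.leaf 1)) (.leaf 1)))))) (.cut 0 (.leaf 0) (.cut 1 (.cut 0 (.cut 1 (.cut 0 (.leaf 0) (.cut 1 (.leaf 2) (.cut 0 (.leaf 0) (.leaf 1)))) (.cut 0 (.leaf 0)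 (.cut 1 (.cut 0 (.leaf 2) (.leaf 1)) (.leaf 1)))) (.leaf 1)) (.cut 0 (.cut 1 (.cut 0 (.cut 1 (.leaf 2) (.cut 0 (.leaf 0) (.leaf 1))) (.leaf 1)) (.cut 0 (.cut 1 (.cut 0 (.leaf 2) (.leaf 1)) (.leaf 1)) (.leaf 1))) (.leaf 1)))))))
    [⟨1, 2, 16⟩, ⟨1, 2, 2⟩] = true := checkAlt_cut chkD3_2 chkD3_59

theorem chkD3_61 : checkAlt 2 (envAlts 7 eEnvD3 [13271, 9953, 6635]) (.cut 0 (.leaf 0) (.cut 1 (.leaf 0) (.cut 0 (.leaf 0) (.cut 1 (.cut 0 (.leaf 0) (.cut 1 (.cut 0 (.leaf 0) (.cut 1 (.leaf 2) (.cut 0 (.leaf 0) (.cut 1 (.cut 0 (.leaf 2) (.leaf 1)) (.cut 0 (.leaf 2) (.leaf 1)))))) (.cut 0 (.leaf 0) (.cut 1 (.cut 0 (.cut 1 (.leaf 2) (.cut 0 (.leaf 0) (.leaf 1))) (.leaf 1)) (.cut 0 (.cut 1 (.cut 0 (.leaf 2) (.leaf 1)) (.leaf 1)) (.leaf 1)))))) (.cut 0 (.leaf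 0) (.cut 1 (.cut 0 (.cut 1 (.cut 0 (.leaf 0) (.cut 1 (.leaf 2) (.cut 0 (.leaf 0) (.leaf 1)))) (.cut 0 (.leaf 0) (.cut 1 (.cut 0 (.leaf 2) (.leaf 1)) (.leaf 1)))) (.leaf 1)) (.cut 0 (.cut 1 (.cut 0 (.cut 1 (.leaf 2) (.cut 0 (.leaf 0) (.leaf 1))) (.leaf 1)) (.cut 0 (.cut 1 (.cut 0 (.leaf 2) (.leaf 1)) (.leaf 1)) (.leaf 1))) (.leaf 1))))))))
    [⟨0, 1, 8⟩, ⟨1, 2, 2⟩] = true := checkAlt_cut chkD3_1 chkD3_60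

theorem chkD3_62 : checkAlt 2 (envAlts 7 eEnvD3 [13271, 9953, 6635]) (.cut 1 (.leaf 0) (.cut 0 (.leaf 0) (.cut 1 (.leaf 0) (.cut 0 (.leaf 0) (.cut 1 (.cut 0 (.leaf 0) (.cut 1 (.cut 0 (.leaf 0) (.cut 1 (.leaf 2) (.cut 0 (.leaf 0) (.cut 1 (.cut 0 (.leaf 2) (.leaf 1)) (.cut 0 (.leaf 2) (.leaf 1)))))) (.cut 0 (.leaf 0) (.cut 1 (.cut 0 (.cut 1 (.leaf 2) (.cut 0 (.leaf 0) (.leaf 1))) (.leaf 1)) (.cut 0 (.cut 1 (.cut 0 (.leaf 2) (.leaf 1)) (.leaf 1)) (.leaf 1)))))) (.cut 0 (.leaf 0) (.cut 1 (.cut 0 (.cut 1 (.cut 0 (.leaf 0) (.cut 1 (.leaf 2) (.cut 0 (.leaf 0) (.leaf 1)))) (.cut 0 (.leaf 0) (.cut 1 (.cut 0 (.leaf 2) (.leaf 1)) (.leaf 1)))) (.leaf 1)) (.cut 0 (.cut 1 (.cut 0 (.cut 1 (.leaf 2) (.cut 0 (.leaf 0) (.leaf 1))) (.leaf 1)) (.cut 0 (.cut 1 (.cut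 0 (.leaf 2) (.leaf 1)) (.leaf 1)) (.leaf 1))) (.leaf 1)))))))))
    [⟨0, 1, 8⟩, ⟨0, 1, 1⟩] = true := checkAlt_cut chkD3_0 chkD3_61

theorem chkD3_63 : checkAlt 2 (envAlts 7 eEnvD3 [13271, 9953, 6635]) (.leaf 0)
    [⟨2, 3, 16⟩, ⟨0, 1, 4⟩] = true := chkD3_leaves0.2.2.2.2.2.2.2.2.2.2.2.2.2.2.2.2.2.2.2.2.2.2.2.2.2.2.2.2.2.2.2.2.1

theorem chkD3_64 : checkAlt 2 (envAlts 7 eEnvD3 [13271, 9953, 6635]) (.leaf 0)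
    [⟨4, 5, 32⟩, ⟨2, 3, 8⟩] = true := chkD3_leaves0.2.2.2.2.2.2.2.2.2.2.2.2.2.2.2.2.2.2.2.2.2.2.2.2.2.2.2.2.2.2.2.2.2.1

theorem chkD3_65 : checkAlt 2 (envAlts 7 eEnvD3 [13271, 9953, 6635]) (.cut 0 (.leaf 0) (.leaf 3))
    [⟨4, 5, 32⟩, ⟨3, 4, 8⟩] = true := chkD3_leaves0.2.2.2.2.2.2.2.2.2.2.2.2.2.2.2.2.2.2.2.2.2.2.2.2.2.2.2.2.2.2.2.2.2.2.1

theorem chkD3_66 : checkAlt 2 (envAlts 7 eEnvD3 [13271, 9953, 6635]) (.cut 1 (.leaf 0) (.cut 0 (.leaf 0) (.leaf 3)))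
    [⟨4, 5, 32⟩, ⟨1, 2, 4⟩] = true := checkAlt_cut chkD3_64 chkD3_65

theorem chkD3_67 : checkAlt 2 (envAlts 7 eEnvD3 [13271, 9953, 6635]) (.leaf 3)
    [⟨5, 6, 32⟩, ⟨2, 3, 8⟩] = true := chkD3_leaves0.2.2.2.2.2.2.2.2.2.2.2.2.2.2.2.2.2.2.2.2.2.2.2.2.2.2.2.2.2.2.2.2.2.2.2.1

theorem chkD3_68 : checkAlt 2 (envAlts 7 eEnvD3 [13271, 9953, 6635]) (.leaf 2)
    [⟨10, 11, 64⟩, ⟨6, 7, 16⟩] = true := chkD3_leaves0.2.2.2.2.2.2.2.2.2.2.2.2.2.2.2.2.2.2.2.2.2.2.2.2.2.2.2.2.2.2.2.2.2.2.2.2.1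

theorem chkD3_69 : checkAlt 2 (envAlts 7 eEnvD3 [13271, 9953, 6635]) (.cut 1 (.leaf 2) (.leaf 1))
    [⟨20, 21, 128⟩, ⟨7, 8, 16⟩] = true := chkD3_leaves0.2.2.2.2.2.2.2.2.2.2.2.2.2.2.2.2.2.2.2.2.2.2.2.2.2.2.2.2.2.2.2.2.2.2.2.2.2

theorem chkD3_70 : checkAlt 2 (envAlts 7 eEnvD3 [13271, 9953, 6635]) (.leaf 1)
    [⟨21, 22, 128⟩, ⟨7, 8, 16⟩] = true := chkD3_leaves1.1

theorem chkD3_71 : checkAlt 2 (envAlts 7 eEnvD3 [13271, 9953, 6635]) (.cut 0 (.cut 1 (.leaf 2) (.leaf 1)) (.leaf 1))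
    [⟨10, 11, 64⟩, ⟨7, 8, 16⟩] = true := checkAlt_cut chkD3_69 chkD3_70

theorem chkD3_72 : checkAlt 2 (envAlts 7 eEnvD3 [13271, 9953, 6635]) (.cut 1 (.leaf 2) (.cut 0 (.cut 1 (.leaf 2) (.leaf 1)) (.leaf 1)))
    [⟨10, 11, 64⟩, ⟨3, 4, 8⟩] = true := checkAlt_cut chkD3_68 chkD3_71

theorem chkD3_73 : checkAlt 2 (envAlts 7 eEnvD3 [13271, 9953, 6635]) (.leaf 1)
    [⟨11, 12, 64⟩, ⟨3, 4, 8⟩] = true := chkD3_leaves1.2.1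

theorem chkD3_74 : checkAlt 2 (envAlts 7 eEnvD3 [13271, 9953, 6635]) (.cut 0 (.cut 1 (.leaf 2) (.cut 0 (.cut 1 (.leaf 2) (.leaf 1)) (.leaf 1))) (.leaf 1))
    [⟨5, 6, 32⟩, ⟨3, 4, 8⟩] = true := checkAlt_cut chkD3_72 chkD3_73

theorem chkD3_75 : checkAlt 2 (envAlts 7 eEnvD3 [13271, 9953, 6635]) (.cut 1 (.leaf 3) (.cut 0 (.cut 1 (.leaf 2) (.cut 0 (.cut 1 (.leaf 2) (.leaf 1)) (.leaf 1))) (.leaf 1)))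
    [⟨5, 6, 32⟩, ⟨1, 2, 4⟩] = true := checkAlt_cut chkD3_67 chkD3_74

theorem chkD3_76 : checkAlt 2 (envAlts 7 eEnvD3 [13271, 9953, 6635]) (.cut 0 (.cut 1 (.leaf 0) (.cut 0 (.leaf 0) (.leaf 3))) (.cut 1 (.leaf 3) (.cut 0 (.cut 1 (.leaf 2) (.cut 0 (.cut 1 (.leaf 2) (.leaf 1)) (.leaf 1))) (.leaf 1))))
    [⟨2, 3, 16⟩, ⟨1, 2, 4⟩] = true := checkAlt_cut chkD3_66 chkD3_75

theorem chkD3_77 : checkAlt 2 (envAlts 7 eEnvD3 [13271, 9953, 6635]) (.cut 1 (.leaf 0) (.cut 0 (.cut 1 (.leaf 0) (.cut 0 (.leaf 0) (.leaf 3))) (.cut 1 (.leaf 3) (.cut 0 (.cut 1 (.leaf 2) (.cut 0 (.cut 1 (.leaf 2) (.leaf 1)) (.leaf 1))) (.leaf 1)))))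
    [⟨2, 3, 16⟩, ⟨0, 1, 2⟩] = true := checkAlt_cut chkD3_63 chkD3_76

theorem chkD3_78 : checkAlt 2 (envAlts 7 eEnvD3 [13271, 9953, 6635]) (.leaf 0)
    [⟨3, 4, 16⟩, ⟨0, 1, 4⟩] = true := chkD3_leaves1.2.2.1

theorem chkD3_79 : checkAlt 2 (envAlts 7 eEnvD3 [13271, 9953, 6635]) (.cut 1 (.leaf 0) (.leaf 1))
    [⟨12, 13, 64⟩, ⟨2, 3, 8⟩] = true := chkD3_leaves1.2.2.2.1

theorem chkD3_80 : checkAlt 2 (envAlts 7 eEnvD3 [13271, 9953, 6635]) (.leaf 1)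
    [⟨13, 14, 64⟩, ⟨2, 3, 8⟩] = true := chkD3_leaves1.2.2.2.2.1

theorem chkD3_81 : checkAlt 2 (envAlts 7 eEnvD3 [13271, 9953, 6635]) (.cut 0 (.cut 1 (.leaf 0) (.leaf 1)) (.leaf 1))
    [⟨6, 7, 32⟩, ⟨2, 3, 8⟩] = true := checkAlt_cut chkD3_79 chkD3_80

theorem chkD3_82 : checkAlt 2 (envAlts 7 eEnvD3 [13271, 9953, 6635]) (.leaf 1)
    [⟨6, 7, 32⟩, ⟨3, 4, 8⟩] = true := chkD3_leaves1.2.2.2.2.2.1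

theorem chkD3_83 : checkAlt 2 (envAlts 7 eEnvD3 [13271, 9953, 6635]) (.cut 1 (.cut 0 (.cut 1 (.leaf 0) (.leaf 1)) (.leaf 1)) (.leaf 1))
    [⟨6, 7, 32⟩, ⟨1, 2, 4⟩] = true := checkAlt_cut chkD3_81 chkD3_82

theorem chkD3_84 : checkAlt 2 (envAlts 7 eEnvD3 [13271, 9953, 6635]) (.leaf 1)
    [⟨7, 8, 32⟩, ⟨1, 2, 4⟩] = true := chkD3_leaves1.2.2.2.2.2.2.1

theorem chkD3_85 : checkAlt 2 (envAlts 7 eEnvD3 [13271, 9953, 6635]) (.cut 0 (.cut 1 (.cut 0 (.cut 1 (.leaf 0) (.leaf 1)) (.leaf 1)) (.leaf 1)) (.leaf 1))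
    [⟨3, 4, 16⟩, ⟨1, 2, 4⟩] = true := checkAlt_cut chkD3_83 chkD3_84

theorem chkD3_86 : checkAlt 2 (envAlts 7 eEnvD3 [13271, 9953, 6635]) (.cut 1 (.leaf 0) (.cut 0 (.cut 1 (.cut 0 (.cut 1 (.leaf 0) (.leaf 1)) (.leaf 1)) (.leaf 1)) (.leaf 1)))
    [⟨3, 4, 16⟩, ⟨0, 1, 2⟩] = true := checkAlt_cut chkD3_78 chkD3_85

theorem chkD3_87 : checkAlt 2 (envAlts 7 eEnvD3 [13271, 9953, 6635]) (.cut 0 (.cut 1 (.leaf 0) (.cut 0 (.cut 1 (.leaf 0) (.cut 0 (.leaf 0) (.leaf 3))) (.cut 1 (.leaf 3) (.cut 0 (.cut 1 (.leaf 2) (.cut 0 (.cut 1 (.leaf 2) (.leaf 1)) (.leaf 1))) (.leaf 1))))) (.cut 1 (.leaf 0) (.cut 0 (.cut 1 (.cut 0 (.cut 1 (.leaf 0) (.leaf 1)) (.leaf 1)) (.leaf 1)) (.leaf 1))))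
    [⟨1, 2, 8⟩, ⟨0, 1, 2⟩] = true := checkAlt_cut chkD3_77 chkD3_86

theorem chkD3_88 : checkAlt 2 (envAlts 7 eEnvD3 [13271, 9953, 6635]) (.leaf 0)
    [⟨8, 9, 64⟩, ⟨8, 9, 16⟩] = true := chkD3_leaves1.2.2.2.2.2.2.2.1

theorem chkD3_89 : checkAlt 2 (envAlts 7 eEnvD3 [13271, 9953, 6635]) (.leaf 0)
    [⟨16, 17, 128⟩, ⟨9, 10, 16⟩] = true := chkD3_leaves1.2.2.2.2.2.2.2.2.1

theorem chkD3_90 : checkAlt 2 (envAlts 7 eEnvD3 [13271, 9953, 6635]) (.leaf 0)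
    [⟨17, 18, 128⟩, ⟨18, 19, 32⟩] = true := chkD3_leaves1.2.2.2.2.2.2.2.2.2.1

theorem chkD3_91 : checkAlt 2 (envAlts 7 eEnvD3 [13271, 9953, 6635]) (.leaf 0)
    [⟨34, 35, 256⟩, ⟨19, 20, 32⟩] = true := chkD3_leaves1.2.2.2.2.2.2.2.2.2.2.1

theorem chkD3_92 : checkAlt 2 (envAlts 7 eEnvD3 [13271, 9953, 6635]) (.leaf 2)
    [⟨35, 36, 256⟩, ⟨38, 39, 64⟩] = true := chkD3_leaves1.2.2.2.2.2.2.2.2.2.2.2.1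

theorem chkD3_93 : checkAlt 2 (envAlts 7 eEnvD3 [13271, 9953, 6635]) (.cut 0 (.leaf 2) (.leaf 1))
    [⟨35, 36, 256⟩, ⟨39, 40, 64⟩] = true := chkD3_leaves1.2.2.2.2.2.2.2.2.2.2.2.2.1

theorem chkD3_94 : checkAlt 2 (envAlts 7 eEnvD3 [13271, 9953, 6635]) (.cut 1 (.leaf 2) (.cut 0 (.leaf 2) (.leaf 1)))
    [⟨35, 36, 256⟩, ⟨19, 20, 32⟩] = true := checkAlt_cut chkD3_92 chkD3_93

theorem chkD3_95 : checkAlt 2 (envAlts 7 eEnvD3 [13271, 9953, 6635]) (.cut 0 (.leaf 0) (.cut 1 (.leaf 2) (.cut 0 (.leaf 2) (.leaf 1))))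
    [⟨17, 18, 128⟩, ⟨19, 20, 32⟩] = true := checkAlt_cut chkD3_91 chkD3_94

theorem chkD3_96 : checkAlt 2 (envAlts 7 eEnvD3 [13271, 9953, 6635]) (.cut 1 (.leaf 0) (.cut 0 (.leaf 0) (.cut 1 (.leaf 2) (.cut 0 (.leaf 2) (.leaf 1)))))
    [⟨17, 18, 128⟩, ⟨9, 10, 16⟩] = true := checkAlt_cut chkD3_90 chkD3_95

theorem chkD3_97 : checkAlt 2 (envAlts 7 eEnvD3 [13271, 9953, 6635]) (.cut 0 (.leaf 0) (.cut 1 (.leaf 0) (.cut 0 (.leaf 0) (.cut 1 (.leaf 2) (.cut 0 (.leaf 2) (.leaf 1))))))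
    [⟨8, 9, 64⟩, ⟨9, 10, 16⟩] = true := checkAlt_cut chkD3_89 chkD3_96

theorem chkD3_98 : checkAlt 2 (envAlts 7 eEnvD3 [13271, 9953, 6635]) (.cut 1 (.leaf 0) (.cut 0 (.leaf 0) (.cut 1 (.leaf 0) (.cut 0 (.leaf 0) (.cut 1 (.leaf 2) (.cut 0 (.leaf 2) (.leaf 1)))))))
    [⟨8, 9, 64⟩, ⟨4, 5, 8⟩] = true := checkAlt_cut chkD3_88 chkD3_97

theorem chkD3_99 : checkAlt 2 (envAlts 7 eEnvD3 [13271, 9953, 6635]) (.leaf 2)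
    [⟨18, 19, 128⟩, ⟨8, 9, 16⟩] = true := chkD3_leaves1.2.2.2.2.2.2.2.2.2.2.2.2.2.1

theorem chkD3_100 : checkAlt 2 (envAlts 7 eEnvD3 [13271, 9953, 6635]) (.cut 0 (.leaf 2) (.leaf 1))
    [⟨19, 20, 128⟩, ⟨16, 17, 32⟩] = true := chkD3_leaves1.2.2.2.2.2.2.2.2.2.2.2.2.2.2.1

theorem chkD3_101 : checkAlt 2 (envAlts 7 eEnvD3 [13271, 9953, 6635]) (.leaf 1)
    [⟨19, 20, 128⟩, ⟨17, 18, 32⟩] = true := chkD3_leaves1.2.2.2.2.2.2.2.2.2.2.2.2.2.2.2.1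

theorem chkD3_102 : checkAlt 2 (envAlts 7 eEnvD3 [13271, 9953, 6635]) (.cut 1 (.cut 0 (.leaf 2) (.leaf 1)) (.leaf 1))
    [⟨19, 20, 128⟩, ⟨8, 9, 16⟩] = true := checkAlt_cut chkD3_100 chkD3_101

theorem chkD3_103 : checkAlt 2 (envAlts 7 eEnvD3 [13271, 9953, 6635]) (.cut 0 (.leaf 2) (.cut 1 (.cut 0 (.leaf 2) (.leaf 1)) (.leaf 1)))
    [⟨9, 10, 64⟩, ⟨8, 9, 16⟩] = true := checkAlt_cut chkD3_99 chkD3_102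

theorem chkD3_104 : checkAlt 2 (envAlts 7 eEnvD3 [13271, 9953, 6635]) (.leaf 2)
    [⟨36, 37, 256⟩, ⟨36, 37, 64⟩] = true := chkD3_leaves1.2.2.2.2.2.2.2.2.2.2.2.2.2.2.2.2.1

theorem chkD3_105 : checkAlt 2 (envAlts 7 eEnvD3 [13271, 9953, 6635]) (.cut 0 (.leaf 2) (.leaf 1))
    [⟨36, 37, 256⟩, ⟨37, 38, 64⟩] = true := chkD3_leaves1.2.2.2.2.2.2.2.2.2.2.2.2.2.2.2.2.2.1

theorem chkD3_106 : checkAlt 2 (envAlts 7 eEnvD3 [13271, 9953, 6635]) (.cut 1 (.leaf 2) (.cut 0 (.leaf 2) (.leaf 1)))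
    [⟨36, 37, 256⟩, ⟨18, 19, 32⟩] = true := checkAlt_cut chkD3_104 chkD3_105

theorem chkD3_107 : checkAlt 2 (envAlts 7 eEnvD3 [13271, 9953, 6635]) (.leaf 1)
    [⟨37, 38, 256⟩, ⟨18, 19, 32⟩] = true := chkD3_leaves1.2.2.2.2.2.2.2.2.2.2.2.2.2.2.2.2.2.2.1

theorem chkD3_108 : checkAlt 2 (envAlts 7 eEnvD3 [13271, 9953, 6635]) (.cut 0 (.cut 1 (.leaf 2) (.cut 0 (.leaf 2) (.leaf 1))) (.leaf 1))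
    [⟨18, 19, 128⟩, ⟨18, 19, 32⟩] = true := checkAlt_cut chkD3_106 chkD3_107

theorem chkD3_109 : checkAlt 2 (envAlts 7 eEnvD3 [13271, 9953, 6635]) (.leaf 1)
    [⟨18, 19, 128⟩, ⟨19, 20, 32⟩] = true := chkD3_leaves1.2.2.2.2.2.2.2.2.2.2.2.2.2.2.2.2.2.2.2.1

theorem chkD3_110 : checkAlt 2 (envAlts 7 eEnvD3 [13271, 9953, 6635]) (.cut 1 (.cut 0 (.cut 1 (.leaf 2) (.cut 0 (.leaf 2) (.leaf 1))) (.leaf 1)) (.leaf 1))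
    [⟨18, 19, 128⟩, ⟨9, 10, 16⟩] = true := checkAlt_cut chkD3_108 chkD3_109

theorem chkD3_111 : checkAlt 2 (envAlts 7 eEnvD3 [13271, 9953, 6635]) (.leaf 1)
    [⟨19, 20, 128⟩, ⟨9, 10, 16⟩] = true := chkD3_leaves1.2.2.2.2.2.2.2.2.2.2.2.2.2.2.2.2.2.2.2.2.1

theorem chkD3_112 : checkAlt 2 (envAlts 7 eEnvD3 [13271, 9953, 6635]) (.cut 0 (.cut 1 (.cut 0 (.cut 1 (.leaf 2) (.cut 0 (.leaf 2) (.leaf 1))) (.leaf 1)) (.leaf 1)) (.leaf 1))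
    [⟨9, 10, 64⟩, ⟨9, 10, 16⟩] = true := checkAlt_cut chkD3_110 chkD3_111

theorem chkD3_113 : checkAlt 2 (envAlts 7 eEnvD3 [13271, 9953, 6635]) (.cut 1 (.cut 0 (.leaf 2) (.cut 1 (.cut 0 (.leaf 2) (.leaf 1)) (.leaf 1))) (.cut 0 (.cut 1 (.cut 0 (.cut 1 (.leaf 2) (.cut 0 (.leaf 2) (.leaf 1))) (.leaf 1)) (.leaf 1)) (.leaf 1)))
    [⟨9, 10, 64⟩, ⟨4, 5, 8⟩] = true := checkAlt_cut chkD3_103 chkD3_112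

theorem chkD3_114 : checkAlt 2 (envAlts 7 eEnvD3 [13271, 9953, 6635]) (.cut 0 (.cut 1 (.leaf 0) (.cut 0 (.leaf 0) (.cut 1 (.leaf 0) (.cut 0 (.leaf 0) (.cut 1 (.leaf 2) (.cut 0 (.leaf 2) (.leaf 1))))))) (.cut 1 (.cut 0 (.leaf 2) (.cut 1 (.cut 0 (.leaf 2) (.leaf 1)) (.leaf 1))) (.cut 0 (.cut 1 (.cut 0 (.cut 1 (.leaf 2) (.cut 0 (.leaf 2) (.leaf 1))) (.leaf 1)) (.leaf 1)) (.leaf 1))))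
    [⟨4, 5, 32⟩, ⟨4, 5, 8⟩] = true := checkAlt_cut chkD3_98 chkD3_113

theorem chkD3_115 : checkAlt 2 (envAlts 7 eEnvD3 [13271, 9953, 6635]) (.leaf 2)
    [⟨16, 17, 128⟩, ⟨10, 11, 16⟩] = true := chkD3_leaves1.2.2.2.2.2.2.2.2.2.2.2.2.2.2.2.2.2.2.2.2.2.1

theorem chkD3_116 : checkAlt 2 (envAlts 7 eEnvD3 [13271, 9953, 6635]) (.cut 0 (.leaf 2) (.leaf 1))
    [⟨17, 18, 128⟩, ⟨20, 21, 32⟩] = true := chkD3_leaves1.2.2.2.2.2.2.2.2.2.2.2.2.2.2.2.2.2.2.2.2.2.2.1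

theorem chkD3_117 : checkAlt 2 (envAlts 7 eEnvD3 [13271, 9953, 6635]) (.leaf 1)
    [⟨17, 18, 128⟩, ⟨21, 22, 32⟩] = true := chkD3_leaves1.2.2.2.2.2.2.2.2.2.2.2.2.2.2.2.2.2.2.2.2.2.2.2.1

theorem chkD3_118 : checkAlt 2 (envAlts 7 eEnvD3 [13271, 9953, 6635]) (.cut 1 (.cut 0 (.leaf 2) (.leaf 1)) (.leaf 1))
    [⟨17, 18, 128⟩, ⟨10, 11, 16⟩] = true := checkAlt_cut chkD3_116 chkD3_117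

theorem chkD3_119 : checkAlt 2 (envAlts 7 eEnvD3 [13271, 9953, 6635]) (.cut 0 (.leaf 2) (.cut 1 (.cut 0 (.leaf 2) (.leaf 1)) (.leaf 1)))
    [⟨8, 9, 64⟩, ⟨10, 11, 16⟩] = true := checkAlt_cut chkD3_115 chkD3_118

theorem chkD3_120 : checkAlt 2 (envAlts 7 eEnvD3 [13271, 9953, 6635]) (.leaf 0)
    [⟨32, 33, 256⟩, ⟨22, 23, 32⟩] = true := chkD3_leaves1.2.2.2.2.2.2.2.2.2.2.2.2.2.2.2.2.2.2.2.2.2.2.2.2.1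

theorem chkD3_121 : checkAlt 2 (envAlts 7 eEnvD3 [13271, 9953, 6635]) (.cut 0 (.leaf 2) (.leaf 1))
    [⟨33, 34, 256⟩, ⟨44, 45, 64⟩] = true := chkD3_leaves1.2.2.2.2.2.2.2.2.2.2.2.2.2.2.2.2.2.2.2.2.2.2.2.2.2.1

theorem chkD3_122 : checkAlt 2 (envAlts 7 eEnvD3 [13271, 9953, 6635]) (.leaf 1)
    [⟨33, 34, 256⟩, ⟨45, 46, 64⟩] = true := chkD3_leaves1.2.2.2.2.2.2.2.2.2.2.2.2.2.2.2.2.2.2.2.2.2.2.2.2.2.2.1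

theorem chkD3_123 : checkAlt 2 (envAlts 7 eEnvD3 [13271, 9953, 6635]) (.cut 1 (.cut 0 (.leaf 2) (.leaf 1)) (.leaf 1))
    [⟨33, 34, 256⟩, ⟨22, 23, 32⟩] = true := checkAlt_cut chkD3_121 chkD3_122

theorem chkD3_124 : checkAlt 2 (envAlts 7 eEnvD3 [13271, 9953, 6635]) (.cut 0 (.leaf 0) (.cut 1 (.cut 0 (.leaf 2) (.leaf 1)) (.leaf 1)))
    [⟨16, 17, 128⟩, ⟨22, 23, 32⟩] = true := checkAlt_cut chkD3_120 chkD3_123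

theorem chkD3_125 : checkAlt 2 (envAlts 7 eEnvD3 [13271, 9953, 6635]) (.leaf 2)
    [⟨32, 33, 256⟩, ⟨46, 47, 64⟩] = true := chkD3_leaves1.2.2.2.2.2.2.2.2.2.2.2.2.2.2.2.2.2.2.2.2.2.2.2.2.2.2.2.1

theorem chkD3_126 : checkAlt 2 (envAlts 7 eEnvD3 [13271, 9953, 6635]) (.cut 0 (.leaf 2) (.leaf 1))
    [⟨32, 33, 256⟩, ⟨47, 48, 64⟩] = true := chkD3_leaves1.2.2.2.2.2.2.2.2.2.2.2.2.2.2.2.2.2.2.2.2.2.2.2.2.2.2.2.2.1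

theorem chkD3_127 : checkAlt 2 (envAlts 7 eEnvD3 [13271, 9953, 6635]) (.cut 1 (.leaf 2) (.cut 0 (.leaf 2) (.leaf 1)))
    [⟨32, 33, 256⟩, ⟨23, 24, 32⟩] = true := checkAlt_cut chkD3_125 chkD3_126

theorem chkD3_128 : checkAlt 2 (envAlts 7 eEnvD3 [13271, 9953, 6635]) (.leaf 1)
    [⟨33, 34, 256⟩, ⟨23, 24, 32⟩] = true := chkD3_leaves1.2.2.2.2.2.2.2.2.2.2.2.2.2.2.2.2.2.2.2.2.2.2.2.2.2.2.2.2.2.1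

theorem chkD3_129 : checkAlt 2 (envAlts 7 eEnvD3 [13271, 9953, 6635]) (.cut 0 (.cut 1 (.leaf 2) (.cut 0 (.leaf 2) (.leaf 1))) (.leaf 1))
    [⟨16, 17, 128⟩, ⟨23, 24, 32⟩] = true := checkAlt_cut chkD3_127 chkD3_128

theorem chkD3_130 : checkAlt 2 (envAlts 7 eEnvD3 [13271, 9953, 6635]) (.cut 1 (.cut 0 (.leaf 0) (.cut 1 (.cut 0 (.leaf 2) (.leaf 1)) (.leaf 1))) (.cut 0 (.cut 1 (.leaf 2) (.cut 0 (.leaf 2) (.leaf 1))) (.leaf 1)))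
    [⟨16, 17, 128⟩, ⟨11, 12, 16⟩] = true := checkAlt_cut chkD3_124 chkD3_129

theorem chkD3_131 : checkAlt 2 (envAlts 7 eEnvD3 [13271, 9953, 6635]) (.leaf 1)
    [⟨17, 18, 128⟩, ⟨11, 12, 16⟩] = true := chkD3_leaves1.2.2.2.2.2.2.2.2.2.2.2.2.2.2.2.2.2.2.2.2.2.2.2.2.2.2.2.2.2.2.1

theorem chkD3_132 : checkAlt 2 (envAlts 7 eEnvD3 [13271, 9953, 6635]) (.cut 0 (.cut 1 (.cut 0 (.leaf 0) (.cut 1 (.cut 0 (.leaf 2) (.leaf 1)) (.leaf 1))) (.cut 0 (.cut 1 (.leaf 2) (.cut 0 (.leaf 2) (.leaf 1))) (.leaf 1))) (.leaf 1))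
    [⟨8, 9, 64⟩, ⟨11, 12, 16⟩] = true := checkAlt_cut chkD3_130 chkD3_131

theorem chkD3_133 : checkAlt 2 (envAlts 7 eEnvD3 [13271, 9953, 6635]) (.cut 1 (.cut 0 (.leaf 2) (.cut 1 (.cut 0 (.leaf 2) (.leaf 1)) (.leaf 1))) (.cut 0 (.cut 1 (.cut 0 (.leaf 0) (.cut 1 (.cut 0 (.leaf 2) (.leaf 1)) (.leaf 1))) (.cut 0 (.cut 1 (.leaf 2) (.cut 0 (.leaf 2) (.leaf 1))) (.leaf 1))) (.leaf 1)))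
    [⟨8, 9, 64⟩, ⟨5, 6, 8⟩] = true := checkAlt_cut chkD3_119 chkD3_132

theorem chkD3_134 : checkAlt 2 (envAlts 7 eEnvD3 [13271, 9953, 6635]) (.leaf 1)
    [⟨9, 10, 64⟩, ⟨5, 6, 8⟩] = true := chkD3_leaves1.2.2.2.2.2.2.2.2.2.2.2.2.2.2.2.2.2.2.2.2.2.2.2.2.2.2.2.2.2.2.2.1

theorem chkD3_135 : checkAlt 2 (envAlts 7 eEnvD3 [13271, 9953, 6635]) (.cut 0 (.cut 1 (.cut 0 (.leaf 2) (.cut 1 (.cut 0 (.leaf 2) (.leaf 1)) (.leaf 1))) (.cut 0 (.cut 1 (.cut 0 (.leaf 0) (.cut 1 (.cut 0 (.leaf 2) (.leaf 1)) (.leaf 1))) (.cut 0 (.cut 1 (.leaf 2) (.cut 0 (.leaf 2) (.leaf 1))) (.leaf 1))) (.leaf 1))) (.leaf 1))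
    [⟨4, 5, 32⟩, ⟨5, 6, 8⟩] = true := checkAlt_cut chkD3_133 chkD3_134

theorem chkD3_136 : checkAlt 2 (envAlts 7 eEnvD3 [13271, 9953, 6635]) (.cut 1 (.cut 0 (.cut 1 (.leaf 0) (.cut 0 (.leaf 0) (.cut 1 (.leaf 0) (.cut 0 (.leaf 0) (.cut 1 (.leaf 2) (.cut 0 (.leaf 2) (.leaf 1))))))) (.cut 1 (.cut 0 (.leaf 2) (.cut 1 (.cut 0 (.leaf 2) (.leaf 1)) (.leaf 1))) (.cut 0 (.cut 1 (.cut 0 (.cut 1 (.leaf 2) (.cut 0 (.leaf 2) (.leaf 1))) (.leaf 1)) (.leaf 1)) (.leaf 1)))) (.cut 0 (.cut 1 (.cut 0 (.leaf 2) (.cut 1 (.cut 0 (.leaf 2) (.leaf 1)) (.leaf 1))) (.cut 0 (.cut 1 (.cut 0 (.leaf 0) (.cut 1 (.cut 0 (.leaf 2) (.leaf 1)) (.leaf 1))) (.cut 0 (.cut 1 (.leaf 2) (.cut 0 (.leaf 2) (.leaf 1))) (.leaf 1))) (.leaf 1))) (.leaf 1)))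
    [⟨4, 5, 32⟩, ⟨2, 3, 4⟩] = true := checkAlt_cut chkD3_114 chkD3_135

theorem chkD3_137 : checkAlt 2 (envAlts 7 eEnvD3 [13271, 9953, 6635]) (.leaf 1)
    [⟨5, 6, 32⟩, ⟨2, 3, 4⟩] = true := chkD3_leaves1.2.2.2.2.2.2.2.2.2.2.2.2.2.2.2.2.2.2.2.2.2.2.2.2.2.2.2.2.2.2.2.2.1

theorem chkD3_138 : checkAlt 2 (envAlts 7 eEnvD3 [13271, 9953, 6635]) (.cut 0 (.cut 1 (.cut 0 (.cut 1 (.leaf 0) (.cut 0 (.leaf 0) (.cut 1 (.leaf 0) (.cut 0 (.leaf 0) (.cut 1 (.leaf 2) (.cut 0 (.leaf 2) (.leaf 1))))))) (.cut 1 (.cut 0 (.leaf 2) (.cut 1 (.cut 0 (.leaf 2) (.leaf 1)) (.leaf 1))) (.cut 0 (.cut 1 (.cut 0 (.cut 1 (.leaf 2) (.cut 0 (.leaf 2) (.leaf 1))) (.leaf 1)) (.leaf 1)) (.leaf 1)))) (.cut 0 (.cut 1 (.cut 0 (.leaf 2) (.cut 1 (.cut 0 (.leaf 2) (.leaf 1)) (.leaf 1))) (.cut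 0 (.cut 1 (.cut 0 (.leaf 0) (.cut 1 (.cut 0 (.leaf 2) (.leaf 1)) (.leaf 1))) (.cut 0 (.cut 1 (.leaf 2) (.cut 0 (.leaf 2) (.leaf 1))) (.leaf 1))) (.leaf 1))) (.leaf 1))) (.leaf 1))
    [⟨2, 3, 16⟩, ⟨2, 3, 4⟩] = true := checkAlt_cut chkD3_136 chkD3_137

theorem chkD3_139 : checkAlt 2 (envAlts 7 eEnvD3 [13271, 9953, 6635]) (.leaf 1)
    [⟨2, 3, 16⟩, ⟨3, 4, 4⟩] = true := chkD3_leaves1.2.2.2.2.2.2.2.2.2.2.2.2.2.2.2.2.2.2.2.2.2.2.2.2.2.2.2.2.2.2.2.2.2.1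

theorem chkD3_140 : checkAlt 2 (envAlts 7 eEnvD3 [13271, 9953, 6635]) (.cut 1 (.cut 0 (.cut 1 (.cut 0 (.cut 1 (.leaf 0) (.cut 0 (.leaf 0) (.cut 1 (.leaf 0) (.cut 0 (.leaf 0) (.cut 1 (.leaf 2) (.cut 0 (.leaf 2) (.leaf 1))))))) (.cut 1 (.cut 0 (.leaf 2) (.cut 1 (.cut 0 (.leaf 2) (.leaf 1)) (.leaf 1))) (.cut 0 (.cut 1 (.cut 0 (.cut 1 (.leaf 2) (.cut 0 (.leaf 2) (.leaf 1))) (.leaf 1)) (.leaf 1)) (.leaf 1)))) (.cut 0 (.cut 1 (.cut 0 (.leaf 2) (.cut 1 (.cut 0 (.leaf 2) (.leaf 1)) (.leaf 1))) (.cut 0 (.cut 1 (.cut 0 (.leaf 0) (.cut 1 (.cut 0 (.leaf 2) (.leaf 1)) (.leaf 1))) (.cut 0 (.cut 1 (.leaf 2) (.cut 0 (.leaf 2) (.leaf 1))) (.leaf 1))) (.leaf 1))) (.leaf 1))) (.leaf 1)) (.leaf 1))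
    [⟨2, 3, 16⟩, ⟨1, 2, 2⟩] = true := checkAlt_cut chkD3_138 chkD3_139

theorem chkD3_141 : checkAlt 2 (envAlts 7 eEnvD3 [13271, 9953, 6635]) (.leaf 1)
    [⟨3, 4, 16⟩, ⟨1, 2, 2⟩] = true := chkD3_leaves1.2.2.2.2.2.2.2.2.2.2.2.2.2.2.2.2.2.2.2.2.2.2.2.2.2.2.2.2.2.2.2.2.2.2.1

theorem chkD3_142 : checkAlt 2 (envAlts 7 eEnvD3 [13271, 9953, 6635]) (.cut 0 (.cut 1 (.cut 0 (.cut 1 (.cut 0 (.cut 1 (.leaf 0) (.cut 0 (.leaf 0) (.cut 1 (.leaf 0) (.cut 0 (.leaf 0) (.cut 1 (.leaf 2) (.cut 0 (.leaf 2) (.leaf 1))))))) (.cut 1 (.cut 0 (.leaf 2) (.cut 1 (.cut 0 (.leaf 2) (.leaf 1)) (.leaf 1))) (.cut 0 (.cut 1 (.cut 0 (.cut 1 (.leaf 2) (.cut 0 (.leaf 2) (.leaf 1))) (.leaf 1)) (.leaf 1)) (.leaf 1)))) (.cut 0 (.cut 1 (.cut 0 (.leaf 2) (.cut 1 (.cut 0 (.leaf 2) (.leaf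 1)) (.leaf 1))) (.cut 0 (.cut 1 (.cut 0 (.leaf 0) (.cut 1 (.cut 0 (.leaf 2) (.leaf 1)) (.leaf 1))) (.cut 0 (.cut 1 (.leaf 2) (.cut 0 (.leaf 2) (.leaf 1))) (.leaf 1))) (.leaf 1))) (.leaf 1))) (.leaf 1)) (.leaf 1)) (.leaf 1))
    [⟨1, 2, 8⟩, ⟨1, 2, 2⟩] = true := checkAlt_cut chkD3_140 chkD3_141

theorem chkD3_143 : checkAlt 2 (envAlts 7 eEnvD3 [13271, 9953, 6635]) (.cut 1 (.cut 0 (.cut 1 (.leaf 0) (.cut 0 (.cut 1 (.leaf 0) (.cut 0 (.leaf 0) (.leaf 3))) (.cut 1 (.leaf 3) (.cut 0 (.cut 1 (.leaf 2) (.cut 0 (.cut 1 (.leaf 2) (.leaf 1)) (.leaf 1))) (.leaf 1))))) (.cut 1 (.leaf 0) (.cut 0 (.cut 1 (.cut 0 (.cut 1 (.leaf 0) (.leaf 1)) (.leaf 1)) (.leaf 1)) (.leaf 1)))) (.cut 0 (.cut 1 (.cut 0 (.cut 1 (.cut 0 (.cut 1 (.leaf 0) (.cut 0 (.leaf 0) (.cut 1 (.leaf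 0) (.cut 0 (.leaf 0) (.cut 1 (.leaf 2) (.cut 0 (.leaf 2) (.leaf 1))))))) (.cut 1 (.cut 0 (.leaf 2) (.cut 1 (.cut 0 (.leaf 2) (.leaf 1)) (.leaf 1))) (.cut 0 (.cut 1 (.cut 0 (.cut 1 (.leaf 2) (.cut 0 (.leaf 2) (.leaf 1))) (.leaf 1)) (.leaf 1)) (.leaf 1)))) (.cut 0 (.cut 1 (.cut 0 (.leaf 2) (.cut 1 (.cut 0 (.leaf 2) (.leaf 1)) (.leaf 1))) (.cut 0 (.cut 1 (.cut 0 (.leaf 0) (.cut 1 (.cut 0 (.leaf 2) (.leaf 1)) (.leaf 1))) (.cut 0 (.cut 1 (.leaf 2) (.cut 0 (.leaf 2) (.leaf 1))) (.leaf 1))) (.leaf 1))) (.leaf 1))) (.leaf 1)) (.leaf 1)) (.leaf 1)))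
    [⟨1, 2, 8⟩, ⟨0, 1, 1⟩] = true := checkAlt_cut chkD3_87 chkD3_142

theorem chkD3_144 : checkAlt 2 (envAlts 7 eEnvD3 [13271, 9953, 6635]) (.cut 0 (.cut 1 (.leaf 0) (.cut 0 (.leaf 0) (.cut 1 (.leaf 0) (.cut 0 (.leaf 0) (.cut 1 (.cut 0 (.leaf 0) (.cut 1 (.cut 0 (.leaf 0) (.cut 1 (.leaf 2) (.cut 0 (.leaf 0) (.cut 1 (.cut 0 (.leaf 2) (.leaf 1)) (.cut 0 (.leaf 2) (.leaf 1)))))) (.cut 0 (.leaf 0) (.cut 1 (.cut 0 (.cut 1 (.leaf 2) (.cut 0 (.leaf 0) (.leaf 1))) (.leaf 1)) (.cut 0 (.cut 1 (.cut 0 (.leaf 2) (.leaf 1)) (.leaf 1)) (.leaf 1)))))) (.cut 0 (.leaf 0) (.cut 1 (.cut 0 (.cut 1 (.cut 0 (.leaf 0) (.cut 1 (.leaf 2) (.cut 0 (.leaf 0) (.leaf 1)))) (.cut 0 (.leaf 0) (.cut 1 (.cut 0 (.leaf 2) (.leaf 1)) (.leaf 1)))) (.leaf 1)) (.cut 0 (.cut 1 (.cut 0 (.cut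 1 (.leaf 2) (.cut 0 (.leaf 0) (.leaf 1))) (.leaf 1)) (.cut 0 (.cut 1 (.cut 0 (.leaf 2) (.leaf 1)) (.leaf 1)) (.leaf 1))) (.leaf 1))))))))) (.cut 1 (.cut 0 (.cut 1 (.leaf 0) (.cut 0 (.cut 1 (.leaf 0) (.cut 0 (.leaf 0) (.leaf 3))) (.cut 1 (.leaf 3) (.cut 0 (.cut 1 (.leaf 2) (.cut 0 (.cut 1 (.leaf 2) (.leaf 1)) (.leaf 1))) (.leaf 1))))) (.cut 1 (.leaf 0) (.cut 0 (.cut 1 (.cut 0 (.cut 1 (.leaf 0) (.leaf 1)) (.leaf 1)) (.leaf 1)) (.leaf 1)))) (.cut 0 (.cut 1 (.cut 0 (.cut 1 (.cut 0 (.cut 1 (.leaf 0) (.cut 0 (.leaf 0) (.cut 1 (.leaf 0) (.cut 0 (.leaf 0) (.cut 1 (.leaf 2) (.cut 0 (.leaf 2) (.leaf 1))))))) (.cut 1 (.cut 0 (.leaf 2) (.cut 1 (.cut 0 (.leaf 2) (.leaf 1)) (.leaf 1))) (.cut 0 (.cut 1 (.cut 0 (.cut 1 (.leaf 2) (.cut 0 (.leaf 2) (.leaf 1))) (.leaf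 1)) (.leaf 1)) (.leaf 1)))) (.cut 0 (.cut 1 (.cut 0 (.leaf 2) (.cut 1 (.cut 0 (.leaf 2) (.leaf 1)) (.leaf 1))) (.cut 0 (.cut 1 (.cut 0 (.leaf 0) (.cut 1 (.cut 0 (.leaf 2) (.leaf 1)) (.leaf 1))) (.cut 0 (.cut 1 (.leaf 2) (.cut 0 (.leaf 2) (.leaf 1))) (.leaf 1))) (.leaf 1))) (.leaf 1))) (.leaf 1)) (.leaf 1)) (.leaf 1))))
    [⟨0, 1, 4⟩, ⟨0, 1, 1⟩] = true := checkAlt_cut chkD3_62 chkD3_143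

theorem chkD3_145 : checkAlt 2 (envAlts 7 eEnvD3 [13271, 9953, 6635]) (.leaf 0)
    [⟨8, 9, 32⟩, ⟨0, 1, 8⟩] = true := chkD3_leaves1.2.2.2.2.2.2.2.2.2.2.2.2.2.2.2.2.2.2.2.2.2.2.2.2.2.2.2.2.2.2.2.2.2.2.2.1

theorem chkD3_146 : checkAlt 2 (envAlts 7 eEnvD3 [13271, 9953, 6635]) (.cut 1 (.leaf 0) (.leaf 1))
    [⟨16, 17, 64⟩, ⟨1, 2, 8⟩] = true := chkD3_leaves1.2.2.2.2.2.2.2.2.2.2.2.2.2.2.2.2.2.2.2.2.2.2.2.2.2.2.2.2.2.2.2.2.2.2.2.2.1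

theorem chkD3_147 : checkAlt 2 (envAlts 7 eEnvD3 [13271, 9953, 6635]) (.leaf 1)
    [⟨17, 18, 64⟩, ⟨1, 2, 8⟩] = true := chkD3_leaves1.2.2.2.2.2.2.2.2.2.2.2.2.2.2.2.2.2.2.2.2.2.2.2.2.2.2.2.2.2.2.2.2.2.2.2.2.2

theorem chkD3_148 : checkAlt 2 (envAlts 7 eEnvD3 [13271, 9953, 6635]) (.cut 0 (.cut 1 (.leaf 0) (.leaf 1)) (.leaf 1))
    [⟨8, 9, 32⟩, ⟨1, 2, 8⟩] = true := checkAlt_cut chkD3_146 chkD3_147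

theorem chkD3_149 : checkAlt 2 (envAlts 7 eEnvD3 [13271, 9953, 6635]) (.cut 1 (.leaf 0) (.cut 0 (.cut 1 (.leaf 0) (.leaf 1)) (.leaf 1)))
    [⟨8, 9, 32⟩, ⟨0, 1, 4⟩] = true := checkAlt_cut chkD3_145 chkD3_148

theorem chkD3_150 : checkAlt 2 (envAlts 7 eEnvD3 [13271, 9953, 6635]) (.cut 1 (.leaf 0) (.leaf 1))
    [⟨9, 10, 32⟩, ⟨0, 1, 4⟩] = true := chkD3_leaves2.1

theorem chkD3_151 : checkAlt 2 (envAlts 7 eEnvD3 [13271, 9953, 6635]) (.cut 0 (.cut 1 (.leaf 0) (.cut 0 (.cut 1 (.leaf 0) (.leaf 1)) (.leaf 1))) (.cut 1 (.leaf 0) (.leaf 1)))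
    [⟨4, 5, 16⟩, ⟨0, 1, 4⟩] = true := checkAlt_cut chkD3_149 chkD3_150

theorem chkD3_152 : checkAlt 2 (envAlts 7 eEnvD3 [13271, 9953, 6635]) (.leaf 1)
    [⟨4, 5, 16⟩, ⟨1, 2, 4⟩] = true := chkD3_leaves2.2.1

theorem chkD3_153 : checkAlt 2 (envAlts 7 eEnvD3 [13271, 9953, 6635]) (.cut 1 (.cut 0 (.cut 1 (.leaf 0) (.cut 0 (.cut 1 (.leaf 0) (.leaf 1)) (.leaf 1))) (.cut 1 (.leaf 0) (.leaf 1))) (.leaf 1))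
    [⟨4, 5, 16⟩, ⟨0, 1, 2⟩] = true := checkAlt_cut chkD3_151 chkD3_152

theorem chkD3_154 : checkAlt 2 (envAlts 7 eEnvD3 [13271, 9953, 6635]) (.cut 1 (.leaf 0) (.leaf 1))
    [⟨10, 11, 32⟩, ⟨0, 1, 4⟩] = true := chkD3_leaves2.2.2.1

theorem chkD3_155 : checkAlt 2 (envAlts 7 eEnvD3 [13271, 9953, 6635]) (.cut 1 (.leaf 0) (.leaf 1))
    [⟨11, 12, 32⟩, ⟨0, 1, 4⟩] = true := chkD3_leaves2.2.2.2.1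

theorem chkD3_156 : checkAlt 2 (envAlts 7 eEnvD3 [13271, 9953, 6635]) (.cut 0 (.cut 1 (.leaf 0) (.leaf 1)) (.cut 1 (.leaf 0) (.leaf 1)))
    [⟨5, 6, 16⟩, ⟨0, 1, 4⟩] = true := checkAlt_cut chkD3_154 chkD3_155

theorem chkD3_157 : checkAlt 2 (envAlts 7 eEnvD3 [13271, 9953, 6635]) (.leaf 1)
    [⟨5, 6, 16⟩, ⟨1, 2, 4⟩] = true := chkD3_leaves2.2.2.2.2.1

theorem chkD3_158 : checkAlt 2 (envAlts 7 eEnvD3 [13271, 9953, 6635]) (.cut 1 (.cut 0 (.cut 1 (.leaf 0) (.leaf 1)) (.cut 1 (.leaf 0) (.leaf 1))) (.leaf 1))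
    [⟨5, 6, 16⟩, ⟨0, 1, 2⟩] = true := checkAlt_cut chkD3_156 chkD3_157

theorem chkD3_159 : checkAlt 2 (envAlts 7 eEnvD3 [13271, 9953, 6635]) (.cut 0 (.cut 1 (.cut 0 (.cut 1 (.leaf 0) (.cut 0 (.cut 1 (.leaf 0) (.leaf 1)) (.leaf 1))) (.cut 1 (.leaf 0) (.leaf 1))) (.leaf 1)) (.cut 1 (.cut 0 (.cut 1 (.leaf 0) (.leaf 1)) (.cut 1 (.leaf 0) (.leaf 1))) (.leaf 1)))
    [⟨2, 3, 8⟩, ⟨0, 1, 2⟩] = true := checkAlt_cut chkD3_153 chkD3_158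

theorem chkD3_160 : checkAlt 2 (envAlts 7 eEnvD3 [13271, 9953, 6635]) (.leaf 1)
    [⟨2, 3, 8⟩, ⟨1, 2, 2⟩] = true := chkD3_leaves2.2.2.2.2.2.1

theorem chkD3_161 : checkAlt 2 (envAlts 7 eEnvD3 [13271, 9953, 6635]) (.cut 1 (.cut 0 (.cut 1 (.cut 0 (.cut 1 (.leaf 0) (.cut 0 (.cut 1 (.leaf 0) (.leaf 1)) (.leaf 1))) (.cut 1 (.leaf 0) (.leaf 1))) (.leaf 1)) (.cut 1 (.cut 0 (.cut 1 (.leaf 0) (.leaf 1)) (.cut 1 (.leaf 0) (.leaf 1))) (.leaf 1))) (.leaf 1))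
    [⟨2, 3, 8⟩, ⟨0, 1, 1⟩] = true := checkAlt_cut chkD3_159 chkD3_160

theorem chkD3_162 : checkAlt 2 (envAlts 7 eEnvD3 [13271, 9953, 6635]) (.leaf 2)
    [⟨24, 25, 64⟩, ⟨0, 1, 8⟩] = true := chkD3_leaves2.2.2.2.2.2.2.1

theorem chkD3_163 : checkAlt 2 (envAlts 7 eEnvD3 [13271, 9953, 6635]) (.cut 1 (.leaf 0) (.leaf 1))
    [⟨25, 26, 64⟩, ⟨0, 1, 8⟩] = true := chkD3_leaves2.2.2.2.2.2.2.2.1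

theorem chkD3_164 : checkAlt 2 (envAlts 7 eEnvD3 [13271, 9953, 6635]) (.cut 0 (.leaf 2) (.cut 1 (.leaf 0) (.leaf 1)))
    [⟨12, 13, 32⟩, ⟨0, 1, 8⟩] = true := checkAlt_cut chkD3_162 chkD3_163

theorem chkD3_165 : checkAlt 2 (envAlts 7 eEnvD3 [13271, 9953, 6635]) (.leaf 1)
    [⟨12, 13, 32⟩, ⟨1, 2, 8⟩] = true := chkD3_leaves2.2.2.2.2.2.2.2.2.1

theorem chkD3_166 : checkAlt 2 (envAlts 7 eEnvD3 [13271, 9953, 6635]) (.cut 1 (.cut 0 (.leaf 2) (.cut 1 (.leaf 0) (.leaf 1))) (.leaf 1))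
    [⟨12, 13, 32⟩, ⟨0, 1, 4⟩] = true := checkAlt_cut chkD3_164 chkD3_165

theorem chkD3_167 : checkAlt 2 (envAlts 7 eEnvD3 [13271, 9953, 6635]) (.cut 1 (.leaf 0) (.leaf 1))
    [⟨26, 27, 64⟩, ⟨0, 1, 8⟩] = true := chkD3_leaves2.2.2.2.2.2.2.2.2.2.1

theorem chkD3_168 : checkAlt 2 (envAlts 7 eEnvD3 [13271, 9953, 6635]) (.cut 1 (.leaf 0) (.leaf 1))
    [⟨27, 28, 64⟩, ⟨0, 1, 8⟩] = true := chkD3_leaves2.2.2.2.2.2.2.2.2.2.2.1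

theorem chkD3_169 : checkAlt 2 (envAlts 7 eEnvD3 [13271, 9953, 6635]) (.cut 0 (.cut 1 (.leaf 0) (.leaf 1)) (.cut 1 (.leaf 0) (.leaf 1)))
    [⟨13, 14, 32⟩, ⟨0, 1, 8⟩] = true := checkAlt_cut chkD3_167 chkD3_168

theorem chkD3_170 : checkAlt 2 (envAlts 7 eEnvD3 [13271, 9953, 6635]) (.leaf 1)
    [⟨13, 14, 32⟩, ⟨1, 2, 8⟩] = true := chkD3_leaves2.2.2.2.2.2.2.2.2.2.2.2.1

theorem chkD3_171 : checkAlt 2 (envAlts 7 eEnvD3 [13271, 9953, 6635]) (.cut 1 (.cut 0 (.cut 1 (.leaf 0) (.leaf 1)) (.cut 1 (.leaf 0) (.leaf 1))) (.leaf 1))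
    [⟨13, 14, 32⟩, ⟨0, 1, 4⟩] = true := checkAlt_cut chkD3_169 chkD3_170

theorem chkD3_172 : checkAlt 2 (envAlts 7 eEnvD3 [13271, 9953, 6635]) (.cut 0 (.cut 1 (.cut 0 (.leaf 2) (.cut 1 (.leaf 0) (.leaf 1))) (.leaf 1)) (.cut 1 (.cut 0 (.cut 1 (.leaf 0) (.leaf 1)) (.cut 1 (.leaf 0) (.leaf 1))) (.leaf 1)))
    [⟨6, 7, 16⟩, ⟨0, 1, 4⟩] = true := checkAlt_cut chkD3_166 chkD3_171

theorem chkD3_173 : checkAlt 2 (envAlts 7 eEnvD3 [13271, 9953, 6635]) (.leaf 1)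
    [⟨6, 7, 16⟩, ⟨1, 2, 4⟩] = true := chkD3_leaves2.2.2.2.2.2.2.2.2.2.2.2.2.1

theorem chkD3_174 : checkAlt 2 (envAlts 7 eEnvD3 [13271, 9953, 6635]) (.cut 1 (.cut 0 (.cut 1 (.cut 0 (.leaf 2) (.cut 1 (.leaf 0) (.leaf 1))) (.leaf 1)) (.cut 1 (.cut 0 (.cut 1 (.leaf 0) (.leaf 1)) (.cut 1 (.leaf 0) (.leaf 1))) (.leaf 1))) (.leaf 1))
    [⟨6, 7, 16⟩, ⟨0, 1, 2⟩] = true := checkAlt_cut chkD3_172 chkD3_173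

theorem chkD3_175 : checkAlt 2 (envAlts 7 eEnvD3 [13271, 9953, 6635]) (.cut 1 (.leaf 0) (.leaf 1))
    [⟨28, 29, 64⟩, ⟨0, 1, 8⟩] = true := chkD3_leaves2.2.2.2.2.2.2.2.2.2.2.2.2.2.1

theorem chkD3_176 : checkAlt 2 (envAlts 7 eEnvD3 [13271, 9953, 6635]) (.cut 1 (.leaf 0) (.leaf 1))
    [⟨29, 30, 64⟩, ⟨0, 1, 8⟩] = true := chkD3_leaves2.2.2.2.2.2.2.2.2.2.2.2.2.2.2.1

theorem chkD3_177 : checkAlt 2 (envAlts 7 eEnvD3 [13271, 9953, 6635]) (.cut 0 (.cut 1 (.leaf 0) (.leaf 1)) (.cut 1 (.leaf 0) (.leaf 1)))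
    [⟨14, 15, 32⟩, ⟨0, 1, 8⟩] = true := checkAlt_cut chkD3_175 chkD3_176

theorem chkD3_178 : checkAlt 2 (envAlts 7 eEnvD3 [13271, 9953, 6635]) (.leaf 1)
    [⟨14, 15, 32⟩, ⟨1, 2, 8⟩] = true := chkD3_leaves2.2.2.2.2.2.2.2.2.2.2.2.2.2.2.2.1

theorem chkD3_179 : checkAlt 2 (envAlts 7 eEnvD3 [13271, 9953, 6635]) (.cut 1 (.cut 0 (.cut 1 (.leaf 0) (.leaf 1)) (.cut 1 (.leaf 0) (.leaf 1))) (.leaf 1))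
    [⟨14, 15, 32⟩, ⟨0, 1, 4⟩] = true := checkAlt_cut chkD3_177 chkD3_178

theorem chkD3_180 : checkAlt 2 (envAlts 7 eEnvD3 [13271, 9953, 6635]) (.cut 1 (.leaf 0) (.leaf 1))
    [⟨30, 31, 64⟩, ⟨0, 1, 8⟩] = true := chkD3_leaves2.2.2.2.2.2.2.2.2.2.2.2.2.2.2.2.2.1

theorem chkD3_181 : checkAlt 2 (envAlts 7 eEnvD3 [13271, 9953, 6635]) (.cut 1 (.leaf 0) (.leaf 1))
    [⟨31, 32, 64⟩, ⟨0, 1, 8⟩] = true := chkD3_leaves2.2.2.2.2.2.2.2.2.2.2.2.2.2.2.2.2.2.1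

theorem chkD3_182 : checkAlt 2 (envAlts 7 eEnvD3 [13271, 9953, 6635]) (.cut 0 (.cut 1 (.leaf 0) (.leaf 1)) (.cut 1 (.leaf 0) (.leaf 1)))
    [⟨15, 16, 32⟩, ⟨0, 1, 8⟩] = true := checkAlt_cut chkD3_180 chkD3_181

theorem chkD3_183 : checkAlt 2 (envAlts 7 eEnvD3 [13271, 9953, 6635]) (.leaf 1)
    [⟨15, 16, 32⟩, ⟨1, 2, 8⟩] = true := chkD3_leaves2.2.2.2.2.2.2.2.2.2.2.2.2.2.2.2.2.2.2.1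

theorem chkD3_184 : checkAlt 2 (envAlts 7 eEnvD3 [13271, 9953, 6635]) (.cut 1 (.cut 0 (.cut 1 (.leaf 0) (.leaf 1)) (.cut 1 (.leaf 0) (.leaf 1))) (.leaf 1))
    [⟨15, 16, 32⟩, ⟨0, 1, 4⟩] = true := checkAlt_cut chkD3_182 chkD3_183

theorem chkD3_185 : checkAlt 2 (envAlts 7 eEnvD3 [13271, 9953, 6635]) (.cut 0 (.cut 1 (.cut 0 (.cut 1 (.leaf 0) (.leaf 1)) (.cut 1 (.leaf 0) (.leaf 1))) (.leaf 1)) (.cut 1 (.cut 0 (.cut 1 (.leaf 0) (.leaf 1)) (.cut 1 (.leaf 0) (.leaf 1))) (.leaf 1)))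
    [⟨7, 8, 16⟩, ⟨0, 1, 4⟩] = true := checkAlt_cut chkD3_179 chkD3_184

theorem chkD3_186 : checkAlt 2 (envAlts 7 eEnvD3 [13271, 9953, 6635]) (.leaf 1)
    [⟨7, 8, 16⟩, ⟨1, 2, 4⟩] = true := chkD3_leaves2.2.2.2.2.2.2.2.2.2.2.2.2.2.2.2.2.2.2.2.1

theorem chkD3_187 : checkAlt 2 (envAlts 7 eEnvD3 [13271, 9953, 6635]) (.cut 1 (.cut 0 (.cut 1 (.cut 0 (.cut 1 (.leaf 0) (.leaf 1)) (.cut 1 (.leaf 0) (.leaf 1))) (.leaf 1)) (.cut 1 (.cut 0 (.cut 1 (.leaf 0) (.leaf 1)) (.cut 1 (.leaf 0) (.leaf 1))) (.leaf 1))) (.leaf 1))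
    [⟨7, 8, 16⟩, ⟨0, 1, 2⟩] = true := checkAlt_cut chkD3_185 chkD3_186

theorem chkD3_188 : checkAlt 2 (envAlts 7 eEnvD3 [13271, 9953, 6635]) (.cut 0 (.cut 1 (.cut 0 (.cut 1 (.cut 0 (.leaf 2) (.cut 1 (.leaf 0) (.leaf 1))) (.leaf 1)) (.cut 1 (.cut 0 (.cut 1 (.leaf 0) (.leaf 1)) (.cut 1 (.leaf 0) (.leaf 1))) (.leaf 1))) (.leaf 1)) (.cut 1 (.cut 0 (.cut 1 (.cut 0 (.cut 1 (.leaf 0) (.leaf 1)) (.cut 1 (.leaf 0) (.leaf 1))) (.leaf 1)) (.cut 1 (.cut 0 (.cut 1 (.leaf 0) (.leaf 1)) (.cut 1 (.leaf 0) (.leaf 1))) (.leaf 1))) (.leaf 1)))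
    [⟨3, 4, 8⟩, ⟨0, 1, 2⟩] = true := checkAlt_cut chkD3_174 chkD3_187

theorem chkD3_189 : checkAlt 2 (envAlts 7 eEnvD3 [13271, 9953, 6635]) (.leaf 1)
    [⟨3, 4, 8⟩, ⟨1, 2, 2⟩] = true := chkD3_leaves2.2.2.2.2.2.2.2.2.2.2.2.2.2.2.2.2.2.2.2.2.1

theorem chkD3_190 : checkAlt 2 (envAlts 7 eEnvD3 [13271, 9953, 6635]) (.cut 1 (.cut 0 (.cut 1 (.cut 0 (.cut 1 (.cut 0 (.leaf 2) (.cut 1 (.leaf 0) (.leaf 1))) (.leaf 1)) (.cut 1 (.cut 0 (.cut 1 (.leaf 0) (.leaf 1)) (.cut 1 (.leaf 0) (.leaf 1))) (.leaf 1))) (.leaf 1)) (.cut 1 (.cut 0 (.cut 1 (.cut 0 (.cut 1 (.leaf 0) (.leaf 1)) (.cut 1 (.leaf 0) (.leaf 1))) (.leaf 1)) (.cut 1 (.cut 0 (.cut 1 (.leaf 0) (.leaf 1)) (.cut 1 (.leaf 0) (.leaf 1))) (.leaf 1))) (.leaf 1))) (.leaf 1))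
    [⟨3, 4, 8⟩, ⟨0, 1, 1⟩] = true := checkAlt_cut chkD3_188 chkD3_189

theorem chkD3_191 : checkAlt 2 (envAlts 7 eEnvD3 [13271, 9953, 6635]) (.cut 0 (.cut 1 (.cut 0 (.cut 1 (.cut 0 (.cut 1 (.leaf 0) (.cut 0 (.cut 1 (.leaf 0) (.leaf 1)) (.leaf 1))) (.cut 1 (.leaf 0) (.leaf 1))) (.leaf 1)) (.cut 1 (.cut 0 (.cut 1 (.leaf 0) (.leaf 1)) (.cut 1 (.leaf 0) (.leaf 1))) (.leaf 1))) (.leaf 1)) (.cut 1 (.cut 0 (.cut 1 (.cut 0 (.cut 1 (.cut 0 (.leaf 2) (.cut 1 (.leaf 0) (.leaf 1))) (.leaf 1)) (.cut 1 (.cut 0 (.cut 1 (.leaf 0) (.leaf 1)) (.cut 1 (.leaf 0) (.leaf 1))) (.leaf 1))) (.leaf 1)) (.cut 1 (.cut 0 (.cut 1 (.cut 0 (.cut 1 (.leaf 0) (.leaf 1)) (.cut 1 (.leaf 0) (.leaf 1))) (.leaf 1)) (.cut 1 (.cut 0 (.cut 1 (.leaf 0) (.leaf 1)) (.cut 1 (.leaf 0) (.leaf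 1))) (.leaf 1))) (.leaf 1))) (.leaf 1)))
    [⟨1, 2, 4⟩, ⟨0, 1, 1⟩] = true := checkAlt_cut chkD3_161 chkD3_190

theorem chkD3_192 : checkAlt 2 (envAlts 7 eEnvD3 [13271, 9953, 6635]) (.cut 0 (.cut 0 (.cut 1 (.leaf 0) (.cut 0 (.leaf 0) (.cut 1 (.leaf 0) (.cut 0 (.leaf 0) (.cut 1 (.cut 0 (.leaf 0) (.cut 1 (.cut 0 (.leaf 0) (.cut 1 (.leaf 2) (.cut 0 (.leaf 0) (.cut 1 (.cut 0 (.leaf 2) (.leaf 1)) (.cut 0 (.leaf 2) (.leaf 1)))))) (.cut 0 (.leaf 0) (.cut 1 (.cut 0 (.cut 1 (.leaf 2) (.cut 0 (.leaf 0) (.leaf 1))) (.leaf 1)) (.cut 0 (.cut 1 (.cut 0 (.leaf 2) (.leaf 1)) (.leaf 1)) (.leaf 1)))))) (.cut 0 (.leaf 0) (.cut 1 (.cut 0 (.cut 1 (.cut 0 (.leaf 0) (.cut 1 (.leaf 2) (.cut 0 (.leaf 0) (.leaf 1)))) (.cut 0 (.leaf 0) (.cut 1 (.cut 0 (.leaf 2) (.leaf 1))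 (.leaf 1)))) (.leaf 1)) (.cut 0 (.cut 1 (.cut 0 (.cut 1 (.leaf 2) (.cut 0 (.leaf 0) (.leaf 1))) (.leaf 1)) (.cut 0 (.cut 1 (.cut 0 (.leaf 2) (.leaf 1)) (.leaf 1)) (.leaf 1))) (.leaf 1))))))))) (.cut 1 (.cut 0 (.cut 1 (.leaf 0) (.cut 0 (.cut 1 (.leaf 0) (.cut 0 (.leaf 0) (.leaf 3))) (.cut 1 (.leaf 3) (.cut 0 (.cut 1 (.leaf 2) (.cut 0 (.cut 1 (.leaf 2) (.leaf 1)) (.leaf 1))) (.leaf 1))))) (.cut 1 (.leaf 0) (.cut 0 (.cut 1 (.cut 0 (.cut 1 (.leaf 0) (.leaf 1)) (.leaf 1)) (.leaf 1)) (.leaf 1)))) (.cut 0 (.cut 1 (.cut 0 (.cut 1 (.cut 0 (.cut 1 (.leaf 0) (.cut 0 (.leaf 0) (.cut 1 (.leaf 0) (.cut 0 (.leaf 0) (.cut 1 (.leaf 2) (.cut 0 (.leaf 2) (.leaf 1))))))) (.cut 1 (.cut 0 (.leaf 2) (.cut 1 (.cut 0 (.leaf 2) (.leaf 1)) (.leaf 1))) (.cut 0 (.cut 1 (.cut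 0 (.cut 1 (.leaf 2) (.cut 0 (.leaf 2) (.leaf 1))) (.leaf 1)) (.leaf 1)) (.leaf 1)))) (.cut 0 (.cut 1 (.cut 0 (.leaf 2) (.cut 1 (.cut 0 (.leaf 2) (.leaf 1)) (.leaf 1))) (.cut 0 (.cut 1 (.cut 0 (.leaf 0) (.cut 1 (.cut 0 (.leaf 2) (.leaf 1)) (.leaf 1))) (.cut 0 (.cut 1 (.leaf 2) (.cut 0 (.leaf 2) (.leaf 1))) (.leaf 1))) (.leaf 1))) (.leaf 1))) (.leaf 1)) (.leaf 1)) (.leaf 1)))) (.cut 0 (.cut 1 (.cut 0 (.cut 1 (.cut 0 (.cut 1 (.leaf 0) (.cut 0 (.cut 1 (.leaf 0) (.leaf 1)) (.leaf 1))) (.cut 1 (.leaf 0) (.leaf 1))) (.leaf 1)) (.cut 1 (.cut 0 (.cut 1 (.leaf 0) (.leaf 1)) (.cut 1 (.leaf 0) (.leaf 1))) (.leaf 1))) (.leaf 1)) (.cut 1 (.cut 0 (.cut 1 (.cut 0 (.cut 1 (.cut 0 (.leaf 2) (.cut 1 (.leaf 0) (.leaf 1))) (.leaf 1)) (.cut 1 (.cut 0 (.cut 1 (.leaf 0)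 (.leaf 1)) (.cut 1 (.leaf 0) (.leaf 1))) (.leaf 1))) (.leaf 1)) (.cut 1 (.cut 0 (.cut 1 (.cut 0 (.cut 1 (.leaf 0) (.leaf 1)) (.cut 1 (.leaf 0) (.leaf 1))) (.leaf 1)) (.cut 1 (.cut 0 (.cut 1 (.leaf 0) (.leaf 1)) (.cut 1 (.leaf 0) (.leaf 1))) (.leaf 1))) (.leaf 1))) (.leaf 1))))
    [⟨0, 1, 2⟩, ⟨0, 1, 1⟩] = true := checkAlt_cut chkD3_144 chkD3_191

theorem chkD3_193 : checkAlt 2 (envAlts 7 eEnvD3 [13271, 9953, 6635]) (.cut 1 (.leaf 0) (.leaf 1))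
    [⟨32, 33, 64⟩, ⟨0, 1, 8⟩] = true := chkD3_leaves2.2.2.2.2.2.2.2.2.2.2.2.2.2.2.2.2.2.2.2.2.2.1

theorem chkD3_194 : checkAlt 2 (envAlts 7 eEnvD3 [13271, 9953, 6635]) (.cut 1 (.leaf 0) (.leaf 1))
    [⟨33, 34, 64⟩, ⟨0, 1, 8⟩] = true := chkD3_leaves2.2.2.2.2.2.2.2.2.2.2.2.2.2.2.2.2.2.2.2.2.2.2.1

theorem chkD3_195 : checkAlt 2 (envAlts 7 eEnvD3 [13271, 9953, 6635]) (.cut 0 (.cut 1 (.leaf 0) (.leaf 1)) (.cut 1 (.leaf 0) (.leaf 1)))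
    [⟨16, 17, 32⟩, ⟨0, 1, 8⟩] = true := checkAlt_cut chkD3_193 chkD3_194

theorem chkD3_196 : checkAlt 2 (envAlts 7 eEnvD3 [13271, 9953, 6635]) (.leaf 1)
    [⟨16, 17, 32⟩, ⟨1, 2, 8⟩] = true := chkD3_leaves2.2.2.2.2.2.2.2.2.2.2.2.2.2.2.2.2.2.2.2.2.2.2.2.1

theorem chkD3_197 : checkAlt 2 (envAlts 7 eEnvD3 [13271, 9953, 6635]) (.cut 1 (.cut 0 (.cut 1 (.leaf 0) (.leaf 1)) (.cut 1 (.leaf 0) (.leaf 1))) (.leaf 1))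
    [⟨16, 17, 32⟩, ⟨0, 1, 4⟩] = true := checkAlt_cut chkD3_195 chkD3_196

theorem chkD3_198 : checkAlt 2 (envAlts 7 eEnvD3 [13271, 9953, 6635]) (.cut 1 (.leaf 0) (.leaf 1))
    [⟨34, 35, 64⟩, ⟨0, 1, 8⟩] = true := chkD3_leaves2.2.2.2.2.2.2.2.2.2.2.2.2.2.2.2.2.2.2.2.2.2.2.2.2.1

theorem chkD3_199 : checkAlt 2 (envAlts 7 eEnvD3 [13271, 9953, 6635]) (.cut 1 (.leaf 0) (.leaf 1))
    [⟨35, 36, 64⟩, ⟨0, 1, 8⟩] = true := chkD3_leaves2.2.2.2.2.2.2.2.2.2.2.2.2.2.2.2.2.2.2.2.2.2.2.2.2.2.1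

theorem chkD3_200 : checkAlt 2 (envAlts 7 eEnvD3 [13271, 9953, 6635]) (.cut 0 (.cut 1 (.leaf 0) (.leaf 1)) (.cut 1 (.leaf 0) (.leaf 1)))
    [⟨17, 18, 32⟩, ⟨0, 1, 8⟩] = true := checkAlt_cut chkD3_198 chkD3_199

theorem chkD3_201 : checkAlt 2 (envAlts 7 eEnvD3 [13271, 9953, 6635]) (.leaf 1)
    [⟨17, 18, 32⟩, ⟨1, 2, 8⟩] = true := chkD3_leaves2.2.2.2.2.2.2.2.2.2.2.2.2.2.2.2.2.2.2.2.2.2.2.2.2.2.2.1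

theorem chkD3_202 : checkAlt 2 (envAlts 7 eEnvD3 [13271, 9953, 6635]) (.cut 1 (.cut 0 (.cut 1 (.leaf 0) (.leaf 1)) (.cut 1 (.leaf 0) (.leaf 1))) (.leaf 1))
    [⟨17, 18, 32⟩, ⟨0, 1, 4⟩] = true := checkAlt_cut chkD3_200 chkD3_201

theorem chkD3_203 : checkAlt 2 (envAlts 7 eEnvD3 [13271, 9953, 6635]) (.cut 0 (.cut 1 (.cut 0 (.cut 1 (.leaf 0) (.leaf 1)) (.cut 1 (.leaf 0) (.leaf 1))) (.leaf 1)) (.cut 1 (.cut 0 (.cut 1 (.leaf 0) (.leaf 1)) (.cut 1 (.leaf 0) (.leaf 1))) (.leaf 1)))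
    [⟨8, 9, 16⟩, ⟨0, 1, 4⟩] = true := checkAlt_cut chkD3_197 chkD3_202

theorem chkD3_204 : checkAlt 2 (envAlts 7 eEnvD3 [13271, 9953, 6635]) (.leaf 1)
    [⟨8, 9, 16⟩, ⟨1, 2, 4⟩] = true := chkD3_leaves2.2.2.2.2.2.2.2.2.2.2.2.2.2.2.2.2.2.2.2.2.2.2.2.2.2.2.2.1

theorem chkD3_205 : checkAlt 2 (envAlts 7 eEnvD3 [13271, 9953, 6635]) (.cut 1 (.cut 0 (.cut 1 (.cut 0 (.cut 1 (.leaf 0) (.leaf 1)) (.cut 1 (.leaf 0) (.leaf 1))) (.leaf 1)) (.cut 1 (.cut 0 (.cut 1 (.leaf 0) (.leaf 1)) (.cut 1 (.leaf 0) (.leaf 1))) (.leaf 1))) (.leaf 1))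
    [⟨8, 9, 16⟩, ⟨0, 1, 2⟩] = true := checkAlt_cut chkD3_203 chkD3_204

theorem chkD3_206 : checkAlt 2 (envAlts 7 eEnvD3 [13271, 9953, 6635]) (.cut 1 (.leaf 0) (.leaf 1))
    [⟨36, 37, 64⟩, ⟨0, 1, 8⟩] = true := chkD3_leaves2.2.2.2.2.2.2.2.2.2.2.2.2.2.2.2.2.2.2.2.2.2.2.2.2.2.2.2.2.1

theorem chkD3_207 : checkAlt 2 (envAlts 7 eEnvD3 [13271, 9953, 6635]) (.cut 1 (.leaf 0) (.leaf 1))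
    [⟨37, 38, 64⟩, ⟨0, 1, 8⟩] = true := chkD3_leaves2.2.2.2.2.2.2.2.2.2.2.2.2.2.2.2.2.2.2.2.2.2.2.2.2.2.2.2.2.2.1

theorem chkD3_208 : checkAlt 2 (envAlts 7 eEnvD3 [13271, 9953, 6635]) (.cut 0 (.cut 1 (.leaf 0) (.leaf 1)) (.cut 1 (.leaf 0) (.leaf 1)))
    [⟨18, 19, 32⟩, ⟨0, 1, 8⟩] = true := checkAlt_cut chkD3_206 chkD3_207

theorem chkD3_209 : checkAlt 2 (envAlts 7 eEnvD3 [13271, 9953, 6635]) (.leaf 1)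
    [⟨18, 19, 32⟩, ⟨1, 2, 8⟩] = true := chkD3_leaves2.2.2.2.2.2.2.2.2.2.2.2.2.2.2.2.2.2.2.2.2.2.2.2.2.2.2.2.2.2.2.1

theorem chkD3_210 : checkAlt 2 (envAlts 7 eEnvD3 [13271, 9953, 6635]) (.cut 1 (.cut 0 (.cut 1 (.leaf 0) (.leaf 1)) (.cut 1 (.leaf 0) (.leaf 1))) (.leaf 1))
    [⟨18, 19, 32⟩, ⟨0, 1, 4⟩] = true := checkAlt_cut chkD3_208 chkD3_209

theorem chkD3_211 : checkAlt 2 (envAlts 7 eEnvD3 [13271, 9953, 6635]) (.cut 1 (.leaf 0) (.leaf 1))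
    [⟨38, 39, 64⟩, ⟨0, 1, 8⟩] = true := chkD3_leaves2.2.2.2.2.2.2.2.2.2.2.2.2.2.2.2.2.2.2.2.2.2.2.2.2.2.2.2.2.2.2.2.1

theorem chkD3_212 : checkAlt 2 (envAlts 7 eEnvD3 [13271, 9953, 6635]) (.leaf 1)
    [⟨39, 40, 64⟩, ⟨0, 1, 8⟩] = true := chkD3_leaves2.2.2.2.2.2.2.2.2.2.2.2.2.2.2.2.2.2.2.2.2.2.2.2.2.2.2.2.2.2.2.2.2.1

theorem chkD3_213 : checkAlt 2 (envAlts 7 eEnvD3 [13271, 9953, 6635]) (.cut 0 (.cut 1 (.leaf 0) (.leaf 1)) (.leaf 1))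
    [⟨19, 20, 32⟩, ⟨0, 1, 8⟩] = true := checkAlt_cut chkD3_211 chkD3_212

theorem chkD3_214 : checkAlt 2 (envAlts 7 eEnvD3 [13271, 9953, 6635]) (.leaf 1)
    [⟨19, 20, 32⟩, ⟨1, 2, 8⟩] = true := chkD3_leaves2.2.2.2.2.2.2.2.2.2.2.2.2.2.2.2.2.2.2.2.2.2.2.2.2.2.2.2.2.2.2.2.2.2.1

theorem chkD3_215 : checkAlt 2 (envAlts 7 eEnvD3 [13271, 9953, 6635]) (.cut 1 (.cut 0 (.cut 1 (.leaf 0) (.leaf 1)) (.leaf 1)) (.leaf 1))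
    [⟨19, 20, 32⟩, ⟨0, 1, 4⟩] = true := checkAlt_cut chkD3_213 chkD3_214

theorem chkD3_216 : checkAlt 2 (envAlts 7 eEnvD3 [13271, 9953, 6635]) (.cut 0 (.cut 1 (.cut 0 (.cut 1 (.leaf 0) (.leaf 1)) (.cut 1 (.leaf 0) (.leaf 1))) (.leaf 1)) (.cut 1 (.cut 0 (.cut 1 (.leaf 0) (.leaf 1)) (.leaf 1)) (.leaf 1)))
    [⟨9, 10, 16⟩, ⟨0, 1, 4⟩] = true := checkAlt_cut chkD3_210 chkD3_215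

theorem chkD3_217 : checkAlt 2 (envAlts 7 eEnvD3 [13271, 9953, 6635]) (.leaf 1)
    [⟨9, 10, 16⟩, ⟨1, 2, 4⟩] = true := chkD3_leaves2.2.2.2.2.2.2.2.2.2.2.2.2.2.2.2.2.2.2.2.2.2.2.2.2.2.2.2.2.2.2.2.2.2.2.1

theorem chkD3_218 : checkAlt 2 (envAlts 7 eEnvD3 [13271, 9953, 6635]) (.cut 1 (.cut 0 (.cut 1 (.cut 0 (.cut 1 (.leaf 0) (.leaf 1)) (.cut 1 (.leaf 0) (.leaf 1))) (.leaf 1)) (.cut 1 (.cut 0 (.cut 1 (.leaf 0) (.leaf 1)) (.leaf 1)) (.leaf 1))) (.leaf 1))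
    [⟨9, 10, 16⟩, ⟨0, 1, 2⟩] = true := checkAlt_cut chkD3_216 chkD3_217

theorem chkD3_219 : checkAlt 2 (envAlts 7 eEnvD3 [13271, 9953, 6635]) (.cut 0 (.cut 1 (.cut 0 (.cut 1 (.cut 0 (.cut 1 (.leaf 0) (.leaf 1)) (.cut 1 (.leaf 0) (.leaf 1))) (.leaf 1)) (.cut 1 (.cut 0 (.cut 1 (.leaf 0) (.leaf 1)) (.cut 1 (.leaf 0) (.leaf 1))) (.leaf 1))) (.leaf 1)) (.cut 1 (.cut 0 (.cut 1 (.cut 0 (.cut 1 (.leaf 0) (.leaf 1)) (.cut 1 (.leaf 0) (.leaf 1))) (.leaf 1)) (.cut 1 (.cut 0 (.cut 1 (.leaf 0) (.leaf 1)) (.leaf 1)) (.leaf 1))) (.leaf 1)))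
    [⟨4, 5, 8⟩, ⟨0, 1, 2⟩] = true := checkAlt_cut chkD3_205 chkD3_218

theorem chkD3_220 : checkAlt 2 (envAlts 7 eEnvD3 [13271, 9953, 6635]) (.leaf 1)
    [⟨4, 5, 8⟩, ⟨1, 2, 2⟩] = true := chkD3_leaves2.2.2.2.2.2.2.2.2.2.2.2.2.2.2.2.2.2.2.2.2.2.2.2.2.2.2.2.2.2.2.2.2.2.2.2.1

theorem chkD3_221 : checkAlt 2 (envAlts 7 eEnvD3 [13271, 9953, 6635]) (.cut 1 (.cut 0 (.cut 1 (.cut 0 (.cut 1 (.cut 0 (.cut 1 (.leaf 0) (.leaf 1)) (.cut 1 (.leaf 0) (.leaf 1))) (.leaf 1)) (.cut 1 (.cut 0 (.cut 1 (.leaf 0) (.leaf 1)) (.cut 1 (.leaf 0) (.leaf 1))) (.leaf 1))) (.leaf 1)) (.cut 1 (.cut 0 (.cut 1 (.cut 0 (.cut 1 (.leaf 0) (.leaf 1)) (.cut 1 (.leaf 0) (.leaf 1))) (.leaf 1)) (.cut 1 (.cut 0 (.cut 1 (.leaf 0) (.leaf 1)) (.leaf 1)) (.leaf 1))) (.leaf 1))) (.leaf 1))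
    [⟨4, 5, 8⟩, ⟨0, 1, 1⟩] = true := checkAlt_cut chkD3_219 chkD3_220

theorem chkD3_222 : checkAlt 2 (envAlts 7 eEnvD3 [13271, 9953, 6635]) (.leaf 1)
    [⟨5, 6, 8⟩, ⟨0, 1, 1⟩] = true := chkD3_leaves2.2.2.2.2.2.2.2.2.2.2.2.2.2.2.2.2.2.2.2.2.2.2.2.2.2.2.2.2.2.2.2.2.2.2.2.2.1

theorem chkD3_223 : checkAlt 2 (envAlts 7 eEnvD3 [13271, 9953, 6635]) (.cut 0 (.cut 1 (.cut 0 (.cut 1 (.cut 0 (.cut 1 (.cut 0 (.cut 1 (.leaf 0) (.leaf 1)) (.cut 1 (.leaf 0) (.leaf 1))) (.leaf 1)) (.cut 1 (.cut 0 (.cut 1 (.leaf 0) (.leaf 1)) (.cut 1 (.leaf 0) (.leaf 1))) (.leaf 1))) (.leaf 1)) (.cut 1 (.cut 0 (.cut 1 (.cut 0 (.cut 1 (.leaf 0) (.leaf 1)) (.cut 1 (.leaf 0) (.leaf 1))) (.leaf 1)) (.cut 1 (.cut 0 (.cut 1 (.leaf 0) (.leaf 1)) (.leaf 1)) (.leaf 1))) (.leaf 1))) (.leaf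 1)) (.leaf 1))
    [⟨2, 3, 4⟩, ⟨0, 1, 1⟩] = true := checkAlt_cut chkD3_221 chkD3_222

theorem chkD3_224 : checkAlt 2 (envAlts 7 eEnvD3 [13271, 9953, 6635]) (.leaf 1)
    [⟨3, 4, 4⟩, ⟨0, 1, 1⟩] = true := chkD3_leaves2.2.2.2.2.2.2.2.2.2.2.2.2.2.2.2.2.2.2.2.2.2.2.2.2.2.2.2.2.2.2.2.2.2.2.2.2.2

theorem chkD3_225 : checkAlt 2 (envAlts 7 eEnvD3 [13271, 9953, 6635]) (.cut 0 (.cut 0 (.cut 1 (.cut 0 (.cut 1 (.cut 0 (.cut 1 (.cut 0 (.cut 1 (.leaf 0) (.leaf 1)) (.cut 1 (.leaf 0) (.leaf 1))) (.leaf 1)) (.cut 1 (.cut 0 (.cut 1 (.leaf 0) (.leaf 1)) (.cut 1 (.leaf 0) (.leaf 1))) (.leaf 1))) (.leaf 1)) (.cut 1 (.cut 0 (.cut 1 (.cut 0 (.cut 1 (.leaf 0) (.leaf 1)) (.cut 1 (.leaf 0) (.leaf 1))) (.leaf 1)) (.cut 1 (.cut 0 (.cut 1 (.leaf 0) (.leaf 1)) (.leaf 1)) (.leaf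 1))) (.leaf 1))) (.leaf 1)) (.leaf 1)) (.leaf 1))
    [⟨1, 2, 2⟩, ⟨0, 1, 1⟩] = true := checkAlt_cut chkD3_223 chkD3_224

theorem chkD3_226 : checkAlt 2 (envAlts 7 eEnvD3 [13271, 9953, 6635]) (.cut 0 (.cut 0 (.cut 0 (.cut 1 (.leaf 0) (.cut 0 (.leaf 0) (.cut 1 (.leaf 0) (.cut 0 (.leaf 0) (.cut 1 (.cut 0 (.leaf 0) (.cut 1 (.cut 0 (.leaf 0) (.cut 1 (.leaf 2) (.cut 0 (.leaf 0) (.cut 1 (.cut 0 (.leaf 2) (.leaf 1)) (.cut 0 (.leaf 2) (.leaf 1)))))) (.cut 0 (.leaf 0) (.cut 1 (.cut 0 (.cut 1 (.leaf 2) (.cut 0 (.leaf 0) (.leaf 1))) (.leaf 1)) (.cut 0 (.cut 1 (.cut 0 (.leaf 2) (.leaf 1)) (.leaf 1)) (.leaf 1)))))) (.cut 0 (.leaf 0) (.cut 1 (.cut 0 (.cut 1 (.cut 0 (.leaf 0) (.cut 1 (.leaf 2) (.cut 0 (.leaf 0) (.leaf 1)))) (.cut 0 (.leaf 0) (.cut 1 (.cut 0 (.leaf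 2) (.leaf 1)) (.leaf 1)))) (.leaf 1)) (.cut 0 (.cut 1 (.cut 0 (.cut 1 (.leaf 2) (.cut 0 (.leaf 0) (.leaf 1))) (.leaf 1)) (.cut 0 (.cut 1 (.cut 0 (.leaf 2) (.leaf 1)) (.leaf 1)) (.leaf 1))) (.leaf 1))))))))) (.cut 1 (.cut 0 (.cut 1 (.leaf 0) (.cut 0 (.cut 1 (.leaf 0) (.cut 0 (.leaf 0) (.leaf 3))) (.cut 1 (.leaf 3) (.cut 0 (.cut 1 (.leaf 2) (.cut 0 (.cut 1 (.leaf 2) (.leaf 1)) (.leaf 1))) (.leaf 1))))) (.cut 1 (.leaf 0) (.cut 0 (.cut 1 (.cut 0 (.cut 1 (.leaf 0) (.leaf 1)) (.leaf 1)) (.leaf 1)) (.leaf 1)))) (.cut 0 (.cut 1 (.cut 0 (.cut 1 (.cut 0 (.cut 1 (.leaf 0) (.cut 0 (.leaf 0) (.cut 1 (.leaf 0) (.cut 0 (.leaf 0) (.cut 1 (.leaf 2) (.cut 0 (.leaf 2) (.leaf 1))))))) (.cut 1 (.cut 0 (.leaf 2) (.cut 1 (.cut 0 (.leaf 2) (.leaf 1)) (.leaf 1))) (.cut 0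 (.cut 1 (.cut 0 (.cut 1 (.leaf 2) (.cut 0 (.leaf 2) (.leaf 1))) (.leaf 1)) (.leaf 1)) (.leaf 1)))) (.cut 0 (.cut 1 (.cut 0 (.leaf 2) (.cut 1 (.cut 0 (.leaf 2) (.leaf 1)) (.leaf 1))) (.cut 0 (.cut 1 (.cut 0 (.leaf 0) (.cut 1 (.cut 0 (.leaf 2) (.leaf 1)) (.leaf 1))) (.cut 0 (.cut 1 (.leaf 2) (.cut 0 (.leaf 2) (.leaf 1))) (.leaf 1))) (.leaf 1))) (.leaf 1))) (.leaf 1)) (.leaf 1)) (.leaf 1)))) (.cut 0 (.cut 1 (.cut 0 (.cut 1 (.cut 0 (.cut 1 (.leaf 0) (.cut 0 (.cut 1 (.leaf 0) (.leaf 1)) (.leaf 1))) (.cut 1 (.leaf 0) (.leaf 1))) (.leaf 1)) (.cut 1 (.cut 0 (.cut 1 (.leaf 0) (.leaf 1)) (.cut 1 (.leaf 0) (.leaf 1))) (.leaf 1))) (.leaf 1)) (.cut 1 (.cut 0 (.cut 1 (.cut 0 (.cut 1 (.cut 0 (.leaf 2) (.cut 1 (.leaf 0) (.leaf 1))) (.leaf 1)) (.cut 1 (.cut 0 (.cut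 1 (.leaf 0) (.leaf 1)) (.cut 1 (.leaf 0) (.leaf 1))) (.leaf 1))) (.leaf 1)) (.cut 1 (.cut 0 (.cut 1 (.cut 0 (.cut 1 (.leaf 0) (.leaf 1)) (.cut 1 (.leaf 0) (.leaf 1))) (.leaf 1)) (.cut 1 (.cut 0 (.cut 1 (.leaf 0) (.leaf 1)) (.cut 1 (.leaf 0) (.leaf 1))) (.leaf 1))) (.leaf 1))) (.leaf 1)))) (.cut 0 (.cut 0 (.cut 1 (.cut 0 (.cut 1 (.cut 0 (.cut 1 (.cut 0 (.cut 1 (.leaf 0) (.leaf 1)) (.cut 1 (.leaf 0) (.leaf 1))) (.leaf 1)) (.cut 1 (.cut 0 (.cut 1 (.leaf 0) (.leaf 1)) (.cut 1 (.leaf 0) (.leaf 1))) (.leaf 1))) (.leaf 1)) (.cut 1 (.cut 0 (.cut 1 (.cut 0 (.cut 1 (.leaf 0) (.leaf 1)) (.cut 1 (.leaf 0) (.leaf 1))) (.leaf 1)) (.cut 1 (.cut 0 (.cut 1 (.leaf 0) (.leaf 1)) (.leaf 1)) (.leaf 1))) (.leaf 1))) (.leaf 1)) (.leaf 1)) (.leaf 1)))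
    [⟨0, 1, 1⟩, ⟨0, 1, 1⟩] = true := checkAlt_cut chkD3_192 chkD3_225

theorem envD3_nonneg {p z : ℝ} (hp : 0 ≤ p) (hp1 : p ≤ 1) (hz : 0 ≤ z) (hz1 : z ≤ 1)
    (hY : 0 ≤ ysum (chart p z)) (hr : 3000 ≤ 1497 * ysum (chart p z)) :
    0 ≤ eEnvD3.eval (pt [p, z]) :=
  env_nonneg (by decide) chkD3_226 hp hp1 hz hz1 hY hr

end Vale.Agent.P154.NegEnd2
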