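import Vale.Agent.P154.NegEnd2.EnvDefs

/-!
P154 NegEnd2: certificate of envelope D4 (generated).
-/

namespace Vale.Agent.P154.NegEnd2

open PolyCheck NegEnd


theorem chkD4_leaves0 :
    (checkAlt 2 (envAlts 7 eEnvD4 [331, 3317, 33177]) (.leaf 0) [⟨0, 1, 8⟩, ⟨0, 1, 2⟩] = true) ∧
    (checkAlt 2 (envAlts 7 eEnvD4 [331, 3317, 33177]) (.leaf 0) [⟨0, 1, 16⟩, ⟨1, 2, 2⟩] = true) ∧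
    (checkAlt 2 (envAlts 7 eEnvD4 [331, 3317, 33177]) (.leaf 0) [⟨1, 2, 16⟩, ⟨2, 3, 4⟩] = true) ∧
    (checkAlt 2 (envAlts 7 eEnvD4 [331, 3317, 33177]) (.leaf 0) [⟨2, 3, 32⟩, ⟨3, 4, 4⟩] = true) ∧
    (checkAlt 2 (envAlts 7 eEnvD4 [331, 3317, 33177]) (.leaf 0) [⟨6, 7, 64⟩, ⟨6, 7, 8⟩] = true) ∧
    (checkAlt 2 (envAlts 7 eEnvD4 [331, 3317, 33177]) (.leaf 0) [⟨7, 8, 64⟩, ⟨12, 13, 16⟩] = true) ∧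
    (checkAlt 2 (envAlts 7 eEnvD4 [331, 3317, 33177]) (.cut 0 (.leaf 0) (.leaf 3)) [⟨7, 8, 64⟩, ⟨13, 14, 16⟩] = true) ∧
    (checkAlt 2 (envAlts 7 eEnvD4 [331, 3317, 33177]) (.leaf 0) [⟨6, 7, 64⟩, ⟨7, 8, 8⟩] = true) ∧
    (checkAlt 2 (envAlts 7 eEnvD4 [331, 3317, 33177]) (.cut 0 (.leaf 2) (.leaf 1)) [⟨7, 8, 64⟩, ⟨14, 15, 16⟩] = true) ∧
    (checkAlt 2 (envAlts 7 eEnvD4 [331, 3317, 33177]) (.cut 0 (.leaf 3) (.leaf 1)) [⟨7, 8, 64⟩, ⟨15, 16, 16⟩] = true) ∧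
    (checkAlt 2 (envAlts 7 eEnvD4 [331, 3317, 33177]) (.leaf 0) [⟨2, 3, 16⟩, ⟨0, 1, 4⟩] = true) ∧
    (checkAlt 2 (envAlts 7 eEnvD4 [331, 3317, 33177]) (.leaf 0) [⟨4, 5, 32⟩, ⟨1, 2, 4⟩] = true) ∧
    (checkAlt 2 (envAlts 7 eEnvD4 [331, 3317, 33177]) (.leaf 0) [⟨5, 6, 32⟩, ⟨2, 3, 8⟩] = true) ∧
    (checkAlt 2 (envAlts 7 eEnvD4 [331, 3317, 33177]) (.cut 0 (.leaf 3) (.leaf 1)) [⟨5, 6, 32⟩, ⟨3, 4, 8⟩] = true) ∧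
    (checkAlt 2 (envAlts 7 eEnvD4 [331, 3317, 33177]) (.leaf 0) [⟨3, 4, 16⟩, ⟨0, 1, 4⟩] = true) ∧
    (checkAlt 2 (envAlts 7 eEnvD4 [331, 3317, 33177]) (.cut 1 (.leaf 3) (.leaf 1)) [⟨6, 7, 32⟩, ⟨1, 2, 4⟩] = true) := by
  refine ⟨?_, ?_, ?_, ?_, ?_, ?_, ?_, ?_, ?_, ?_, ?_, ?_, ?_, ?_, ?_, ?_⟩ <;> decide +kernel

theorem chkD4_leaves1 :
    (checkAlt 2 (envAlts 7 eEnvD4 [331, 3317, 33177]) (.leaf 1) [⟨7, 8, 32⟩, ⟨1, 2, 4⟩] = true) ∧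
    (checkAlt 2 (envAlts 7 eEnvD4 [331, 3317, 33177]) (.cut 0 (.leaf 0) (.leaf 3)) [⟨4, 5, 32⟩, ⟨4, 5, 8⟩] = true) ∧
    (checkAlt 2 (envAlts 7 eEnvD4 [331, 3317, 33177]) (.cut 0 (.leaf 0) (.leaf 3)) [⟨8, 9, 64⟩, ⟨10, 11, 16⟩] = true) ∧
    (checkAlt 2 (envAlts 7 eEnvD4 [331, 3317, 33177]) (.leaf 3) [⟨8, 9, 64⟩, ⟨11, 12, 16⟩] = true) ∧
    (checkAlt 2 (envAlts 7 eEnvD4 [331, 3317, 33177]) (.leaf 1) [⟨9, 10, 64⟩, ⟨5, 6, 8⟩] = true) ∧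
    (checkAlt 2 (envAlts 7 eEnvD4 [331, 3317, 33177]) (.leaf 1) [⟨5, 6, 32⟩, ⟨2, 3, 4⟩] = true) ∧
    (checkAlt 2 (envAlts 7 eEnvD4 [331, 3317, 33177]) (.leaf 1) [⟨2, 3, 16⟩, ⟨3, 4, 4⟩] = true) ∧
    (checkAlt 2 (envAlts 7 eEnvD4 [331, 3317, 33177]) (.leaf 1) [⟨3, 4, 16⟩, ⟨1, 2, 2⟩] = true) ∧
    (checkAlt 2 (envAlts 7 eEnvD4 [331, 3317, 33177]) (.leaf 3) [⟨8, 9, 32⟩, ⟨0, 1, 4⟩] = true) ∧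
    (checkAlt 2 (envAlts 7 eEnvD4 [331, 3317, 33177]) (.cut 1 (.leaf 0) (.leaf 1)) [⟨9, 10, 32⟩, ⟨0, 1, 4⟩] = true) ∧
    (checkAlt 2 (envAlts 7 eEnvD4 [331, 3317, 33177]) (.leaf 1) [⟨4, 5, 16⟩, ⟨1, 2, 4⟩] = true) ∧
    (checkAlt 2 (envAlts 7 eEnvD4 [331, 3317, 33177]) (.cut 1 (.leaf 0) (.leaf 1)) [⟨10, 11, 32⟩, ⟨0, 1, 4⟩] = true) ∧
    (checkAlt 2 (envAlts 7 eEnvD4 [331, 3317, 33177]) (.cut 1 (.leaf 0) (.leaf 1)) [⟨11, 12, 32⟩, ⟨0, 1, 4⟩] = true) ∧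
    (checkAlt 2 (envAlts 7 eEnvD4 [331, 3317, 33177]) (.leaf 1) [⟨5, 6, 16⟩, ⟨1, 2, 4⟩] = true) ∧
    (checkAlt 2 (envAlts 7 eEnvD4 [331, 3317, 33177]) (.leaf 1) [⟨2, 3, 8⟩, ⟨1, 2, 2⟩] = true) ∧
    (checkAlt 2 (envAlts 7 eEnvD4 [331, 3317, 33177]) (.cut 1 (.leaf 0) (.leaf 1)) [⟨12, 13, 32⟩, ⟨0, 1, 4⟩] = true) := by
  refine ⟨?_, ?_, ?_, ?_, ?_, ?_, ?_, ?_, ?_, ?_, ?_, ?_, ?_, ?_, ?_, ?_⟩ <;> decide +kernel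

theorem chkD4_leaves2 :
    (checkAlt 2 (envAlts 7 eEnvD4 [331, 3317, 33177]) (.cut 1 (.leaf 0) (.leaf 1)) [⟨13, 14, 32⟩, ⟨0, 1, 4⟩] = true) ∧
    (checkAlt 2 (envAlts 7 eEnvD4 [331, 3317, 33177]) (.leaf 1) [⟨6, 7, 16⟩, ⟨1, 2, 4⟩] = true) ∧
    (checkAlt 2 (envAlts 7 eEnvD4 [331, 3317, 33177]) (.cut 1 (.leaf 3) (.leaf 1)) [⟨14, 15, 32⟩, ⟨0, 1, 4⟩] = true) ∧
    (checkAlt 2 (envAlts 7 eEnvD4 [331, 3317, 33177]) (.cut 1 (.leaf 4) (.leaf 1)) [⟨15, 16, 32⟩, ⟨0, 1, 4⟩] = true) ∧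
    (checkAlt 2 (envAlts 7 eEnvD4 [331, 3317, 33177]) (.leaf 1) [⟨7, 8, 16⟩, ⟨1, 2, 4⟩] = true) ∧
    (checkAlt 2 (envAlts 7 eEnvD4 [331, 3317, 33177]) (.leaf 1) [⟨3, 4, 8⟩, ⟨1, 2, 2⟩] = true) ∧
    (checkAlt 2 (envAlts 7 eEnvD4 [331, 3317, 33177]) (.cut 1 (.leaf 4) (.leaf 1)) [⟨16, 17, 32⟩, ⟨0, 1, 4⟩] = true) ∧
    (checkAlt 2 (envAlts 7 eEnvD4 [331, 3317, 33177]) (.cut 1 (.leaf 4) (.leaf 1)) [⟨17, 18, 32⟩, ⟨0, 1, 4⟩] = true) ∧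
    (checkAlt 2 (envAlts 7 eEnvD4 [331, 3317, 33177]) (.leaf 1) [⟨8, 9, 16⟩, ⟨1, 2, 4⟩] = true) ∧
    (checkAlt 2 (envAlts 7 eEnvD4 [331, 3317, 33177]) (.cut 1 (.leaf 4) (.leaf 1)) [⟨18, 19, 32⟩, ⟨0, 1, 4⟩] = true) ∧
    (checkAlt 2 (envAlts 7 eEnvD4 [331, 3317, 33177]) (.cut 1 (.leaf 4) (.leaf 1)) [⟨19, 20, 32⟩, ⟨0, 1, 4⟩] = true) ∧
    (checkAlt 2 (envAlts 7 eEnvD4 [331, 3317, 33177]) (.leaf 1) [⟨9, 10, 16⟩, ⟨1, 2, 4⟩] = true) ∧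
    (checkAlt 2 (envAlts 7 eEnvD4 [331, 3317, 33177]) (.leaf 1) [⟨4, 5, 8⟩, ⟨1, 2, 2⟩] = true) ∧
    (checkAlt 2 (envAlts 7 eEnvD4 [331, 3317, 33177]) (.leaf 1) [⟨5, 6, 8⟩, ⟨0, 1, 1⟩] = true) ∧
    (checkAlt 2 (envAlts 7 eEnvD4 [331, 3317, 33177]) (.leaf 1) [⟨3, 4, 4⟩, ⟨0, 1, 1⟩] = true) := by
  refine ⟨?_, ?_, ?_, ?_, ?_, ?_, ?_, ?_, ?_, ?_, ?_, ?_, ?_, ?_, ?_⟩ <;> decide +kernel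

theorem chkD4_0 : checkAlt 2 (envAlts 7 eEnvD4 [331, 3317, 33177]) (.leaf 0)
    [⟨0, 1, 8⟩, ⟨0, 1, 2⟩] = true := chkD4_leaves0.1

theorem chkD4_1 : checkAlt 2 (envAlts 7 eEnvD4 [331, 3317, 33177]) (.leaf 0)
    [⟨0, 1, 16⟩, ⟨1, 2, 2⟩] = true := chkD4_leaves0.2.1

theorem chkD4_2 : checkAlt 2 (envAlts 7 eEnvD4 [331, 3317, 33177]) (.leaf 0)
    [⟨1, 2, 16⟩, ⟨2, 3, 4⟩] = true := chkD4_leaves0.2.2.1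

theorem chkD4_3 : checkAlt 2 (envAlts 7 eEnvD4 [331, 3317, 33177]) (.leaf 0)
    [⟨2, 3, 32⟩, ⟨3, 4, 4⟩] = true := chkD4_leaves0.2.2.2.1

theorem chkD4_4 : checkAlt 2 (envAlts 7 eEnvD4 [331, 3317, 33177]) (.leaf 0)
    [⟨6, 7, 64⟩, ⟨6, 7, 8⟩] = true := chkD4_leaves0.2.2.2.2.1

theorem chkD4_5 : checkAlt 2 (envAlts 7 eEnvD4 [331, 3317, 33177]) (.leaf 0)
    [⟨7, 8, 64⟩, ⟨12, 13, 16⟩] = true := chkD4_leaves0.2.2.2.2.2.1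

theorem chkD4_6 : checkAlt 2 (envAlts 7 eEnvD4 [331, 3317, 33177]) (.cut 0 (.leaf 0) (.leaf 3))
    [⟨7, 8, 64⟩, ⟨13, 14, 16⟩] = true := chkD4_leaves0.2.2.2.2.2.2.1

theorem chkD4_7 : checkAlt 2 (envAlts 7 eEnvD4 [331, 3317, 33177]) (.cut 1 (.leaf 0) (.cut 0 (.leaf 0) (.leaf 3)))
    [⟨7, 8, 64⟩, ⟨6, 7, 8⟩] = true := checkAlt_cut chkD4_5 chkD4_6

theorem chkD4_8 : checkAlt 2 (envAlts 7 eEnvD4 [331, 3317, 33177]) (.cut 0 (.leaf 0) (.cut 1 (.leaf 0) (.cut 0 (.leaf 0) (.leaf 3))))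
    [⟨3, 4, 32⟩, ⟨6, 7, 8⟩] = true := checkAlt_cut chkD4_4 chkD4_7

theorem chkD4_9 : checkAlt 2 (envAlts 7 eEnvD4 [331, 3317, 33177]) (.leaf 0)
    [⟨6, 7, 64⟩, ⟨7, 8, 8⟩] = true := chkD4_leaves0.2.2.2.2.2.2.2.1

theorem chkD4_10 : checkAlt 2 (envAlts 7 eEnvD4 [331, 3317, 33177]) (.cut 0 (.leaf 2) (.leaf 1))
    [⟨7, 8, 64⟩, ⟨14, 15, 16⟩] = true := chkD4_leaves0.2.2.2.2.2.2.2.2.1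

theorem chkD4_11 : checkAlt 2 (envAlts 7 eEnvD4 [331, 3317, 33177]) (.cut 0 (.leaf 3) (.leaf 1))
    [⟨7, 8, 64⟩, ⟨15, 16, 16⟩] = true := chkD4_leaves0.2.2.2.2.2.2.2.2.2.1

theorem chkD4_12 : checkAlt 2 (envAlts 7 eEnvD4 [331, 3317, 33177]) (.cut 1 (.cut 0 (.leaf 2) (.leaf 1)) (.cut 0 (.leaf 3) (.leaf 1)))
    [⟨7, 8, 64⟩, ⟨7, 8, 8⟩] = true := checkAlt_cut chkD4_10 chkD4_11

theorem chkD4_13 : checkAlt 2 (envAlts 7 eEnvD4 [331, 3317, 33177]) (.cut 0 (.leaf 0) (.cut 1 (.cut 0 (.leaf 2) (.leaf 1)) (.cut 0 (.leaf 3) (.leaf 1))))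
    [⟨3, 4, 32⟩, ⟨7, 8, 8⟩] = true := checkAlt_cut chkD4_9 chkD4_12

theorem chkD4_14 : checkAlt 2 (envAlts 7 eEnvD4 [331, 3317, 33177]) (.cut 1 (.cut 0 (.leaf 0) (.cut 1 (.leaf 0) (.cut 0 (.leaf 0) (.leaf 3)))) (.cut 0 (.leaf 0) (.cut 1 (.cut 0 (.leaf 2) (.leaf 1)) (.cut 0 (.leaf 3) (.leaf 1)))))
    [⟨3, 4, 32⟩, ⟨3, 4, 4⟩] = true := checkAlt_cut chkD4_8 chkD4_13

theorem chkD4_15 : checkAlt 2 (envAlts 7 eEnvD4 [331, 3317, 33177]) (.cut 0 (.leaf 0) (.cut 1 (.cut 0 (.leaf 0) (.cut 1 (.leaf 0) (.cut 0 (.leaf 0) (.leaf 3)))) (.cut 0 (.leaf 0) (.cut 1 (.cut 0 (.leaf 2) (.leaf 1)) (.cut 0 (.leaf 3) (.leaf 1))))))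
    [⟨1, 2, 16⟩, ⟨3, 4, 4⟩] = true := checkAlt_cut chkD4_3 chkD4_14

theorem chkD4_16 : checkAlt 2 (envAlts 7 eEnvD4 [331, 3317, 33177]) (.cut 1 (.leaf 0) (.cut 0 (.leaf 0) (.cut 1 (.cut 0 (.leaf 0) (.cut 1 (.leaf 0) (.cut 0 (.leaf 0) (.leaf 3)))) (.cut 0 (.leaf 0) (.cut 1 (.cut 0 (.leaf 2) (.leaf 1)) (.cut 0 (.leaf 3) (.leaf 1)))))))
    [⟨1, 2, 16⟩, ⟨1, 2, 2⟩] = true := checkAlt_cut chkD4_2 chkD4_15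

theorem chkD4_17 : checkAlt 2 (envAlts 7 eEnvD4 [331, 3317, 33177]) (.cut 0 (.leaf 0) (.cut 1 (.leaf 0) (.cut 0 (.leaf 0) (.cut 1 (.cut 0 (.leaf 0) (.cut 1 (.leaf 0) (.cut 0 (.leaf 0) (.leaf 3)))) (.cut 0 (.leaf 0) (.cut 1 (.cut 0 (.leaf 2) (.leaf 1)) (.cut 0 (.leaf 3) (.leaf 1))))))))
    [⟨0, 1, 8⟩, ⟨1, 2, 2⟩] = true := checkAlt_cut chkD4_1 chkD4_16

theorem chkD4_18 : checkAlt 2 (envAlts 7 eEnvD4 [331, 3317, 33177]) (.cut 1 (.leaf 0) (.cut 0 (.leaf 0) (.cut 1 (.leaf 0) (.cut 0 (.leaf 0) (.cut 1 (.cut 0 (.leaf 0) (.cut 1 (.leaf 0) (.cut 0 (.leaf 0) (.leaf 3)))) (.cut 0 (.leaf 0) (.cut 1 (.cut 0 (.leaf 2) (.leaf 1)) (.cut 0 (.leaf 3) (.leaf 1)))))))))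
    [⟨0, 1, 8⟩, ⟨0, 1, 1⟩] = true := checkAlt_cut chkD4_0 chkD4_17

theorem chkD4_19 : checkAlt 2 (envAlts 7 eEnvD4 [331, 3317, 33177]) (.leaf 0)
    [⟨2, 3, 16⟩, ⟨0, 1, 4⟩] = true := chkD4_leaves0.2.2.2.2.2.2.2.2.2.2.1

theorem chkD4_20 : checkAlt 2 (envAlts 7 eEnvD4 [331, 3317, 33177]) (.leaf 0)
    [⟨4, 5, 32⟩, ⟨1, 2, 4⟩] = true := chkD4_leaves0.2.2.2.2.2.2.2.2.2.2.2.1

theorem chkD4_21 : checkAlt 2 (envAlts 7 eEnvD4 [331, 3317, 33177]) (.leaf 0)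
    [⟨5, 6, 32⟩, ⟨2, 3, 8⟩] = true := chkD4_leaves0.2.2.2.2.2.2.2.2.2.2.2.2.1

theorem chkD4_22 : checkAlt 2 (envAlts 7 eEnvD4 [331, 3317, 33177]) (.cut 0 (.leaf 3) (.leaf 1))
    [⟨5, 6, 32⟩, ⟨3, 4, 8⟩] = true := chkD4_leaves0.2.2.2.2.2.2.2.2.2.2.2.2.2.1

theorem chkD4_23 : checkAlt 2 (envAlts 7 eEnvD4 [331, 3317, 33177]) (.cut 1 (.leaf 0) (.cut 0 (.leaf 3) (.leaf 1)))
    [⟨5, 6, 32⟩, ⟨1, 2, 4⟩] = true := checkAlt_cut chkD4_21 chkD4_22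

theorem chkD4_24 : checkAlt 2 (envAlts 7 eEnvD4 [331, 3317, 33177]) (.cut 0 (.leaf 0) (.cut 1 (.leaf 0) (.cut 0 (.leaf 3) (.leaf 1))))
    [⟨2, 3, 16⟩, ⟨1, 2, 4⟩] = true := checkAlt_cut chkD4_20 chkD4_23

theorem chkD4_25 : checkAlt 2 (envAlts 7 eEnvD4 [331, 3317, 33177]) (.cut 1 (.leaf 0) (.cut 0 (.leaf 0) (.cut 1 (.leaf 0) (.cut 0 (.leaf 3) (.leaf 1)))))
    [⟨2, 3, 16⟩, ⟨0, 1, 2⟩] = true := checkAlt_cut chkD4_19 chkD4_24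

theorem chkD4_26 : checkAlt 2 (envAlts 7 eEnvD4 [331, 3317, 33177]) (.leaf 0)
    [⟨3, 4, 16⟩, ⟨0, 1, 4⟩] = true := chkD4_leaves0.2.2.2.2.2.2.2.2.2.2.2.2.2.2.1

theorem chkD4_27 : checkAlt 2 (envAlts 7 eEnvD4 [331, 3317, 33177]) (.cut 1 (.leaf 3) (.leaf 1))
    [⟨6, 7, 32⟩, ⟨1, 2, 4⟩] = true := chkD4_leaves0.2.2.2.2.2.2.2.2.2.2.2.2.2.2.2

theorem chkD4_28 : checkAlt 2 (envAlts 7 eEnvD4 [331, 3317, 33177]) (.leaf 1)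
    [⟨7, 8, 32⟩, ⟨1, 2, 4⟩] = true := chkD4_leaves1.1

theorem chkD4_29 : checkAlt 2 (envAlts 7 eEnvD4 [331, 3317, 33177]) (.cut 0 (.cut 1 (.leaf 3) (.leaf 1)) (.leaf 1))
    [⟨3, 4, 16⟩, ⟨1, 2, 4⟩] = true := checkAlt_cut chkD4_27 chkD4_28

theorem chkD4_30 : checkAlt 2 (envAlts 7 eEnvD4 [331, 3317, 33177]) (.cut 1 (.leaf 0) (.cut 0 (.cut 1 (.leaf 3) (.leaf 1)) (.leaf 1)))
    [⟨3, 4, 16⟩, ⟨0, 1, 2⟩] = true := checkAlt_cut chkD4_26 chkD4_29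

theorem chkD4_31 : checkAlt 2 (envAlts 7 eEnvD4 [331, 3317, 33177]) (.cut 0 (.cut 1 (.leaf 0) (.cut 0 (.leaf 0) (.cut 1 (.leaf 0) (.cut 0 (.leaf 3) (.leaf 1))))) (.cut 1 (.leaf 0) (.cut 0 (.cut 1 (.leaf 3) (.leaf 1)) (.leaf 1))))
    [⟨1, 2, 8⟩, ⟨0, 1, 2⟩] = true := checkAlt_cut chkD4_25 chkD4_30

theorem chkD4_32 : checkAlt 2 (envAlts 7 eEnvD4 [331, 3317, 33177]) (.cut 0 (.leaf 0) (.leaf 3))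
    [⟨4, 5, 32⟩, ⟨4, 5, 8⟩] = true := chkD4_leaves1.2.1

theorem chkD4_33 : checkAlt 2 (envAlts 7 eEnvD4 [331, 3317, 33177]) (.cut 0 (.leaf 0) (.leaf 3))
    [⟨8, 9, 64⟩, ⟨10, 11, 16⟩] = true := chkD4_leaves1.2.2.1

theorem chkD4_34 : checkAlt 2 (envAlts 7 eEnvD4 [331, 3317, 33177]) (.leaf 3)
    [⟨8, 9, 64⟩, ⟨11, 12, 16⟩] = true := chkD4_leaves1.2.2.2.1

theorem chkD4_35 : checkAlt 2 (envAlts 7 eEnvD4 [331, 3317, 33177]) (.cut 1 (.cut 0 (.leaf 0) (.leaf 3)) (.leaf 3))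
    [⟨8, 9, 64⟩, ⟨5, 6, 8⟩] = true := checkAlt_cut chkD4_33 chkD4_34

theorem chkD4_36 : checkAlt 2 (envAlts 7 eEnvD4 [331, 3317, 33177]) (.leaf 1)
    [⟨9, 10, 64⟩, ⟨5, 6, 8⟩] = true := chkD4_leaves1.2.2.2.2.1

theorem chkD4_37 : checkAlt 2 (envAlts 7 eEnvD4 [331, 3317, 33177]) (.cut 0 (.cut 1 (.cut 0 (.leaf 0) (.leaf 3)) (.leaf 3)) (.leaf 1))
    [⟨4, 5, 32⟩, ⟨5, 6, 8⟩] = true := checkAlt_cut chkD4_35 chkD4_36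

theorem chkD4_38 : checkAlt 2 (envAlts 7 eEnvD4 [331, 3317, 33177]) (.cut 1 (.cut 0 (.leaf 0) (.leaf 3)) (.cut 0 (.cut 1 (.cut 0 (.leaf 0) (.leaf 3)) (.leaf 3)) (.leaf 1)))
    [⟨4, 5, 32⟩, ⟨2, 3, 4⟩] = true := checkAlt_cut chkD4_32 chkD4_37

theorem chkD4_39 : checkAlt 2 (envAlts 7 eEnvD4 [331, 3317, 33177]) (.leaf 1)
    [⟨5, 6, 32⟩, ⟨2, 3, 4⟩] = true := chkD4_leaves1.2.2.2.2.2.1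

theorem chkD4_40 : checkAlt 2 (envAlts 7 eEnvD4 [331, 3317, 33177]) (.cut 0 (.cut 1 (.cut 0 (.leaf 0) (.leaf 3)) (.cut 0 (.cut 1 (.cut 0 (.leaf 0) (.leaf 3)) (.leaf 3)) (.leaf 1))) (.leaf 1))
    [⟨2, 3, 16⟩, ⟨2, 3, 4⟩] = true := checkAlt_cut chkD4_38 chkD4_39

theorem chkD4_41 : checkAlt 2 (envAlts 7 eEnvD4 [331, 3317, 33177]) (.leaf 1)
    [⟨2, 3, 16⟩, ⟨3, 4, 4⟩] = true := chkD4_leaves1.2.2.2.2.2.2.1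

theorem chkD4_42 : checkAlt 2 (envAlts 7 eEnvD4 [331, 3317, 33177]) (.cut 1 (.cut 0 (.cut 1 (.cut 0 (.leaf 0) (.leaf 3)) (.cut 0 (.cut 1 (.cut 0 (.leaf 0) (.leaf 3)) (.leaf 3)) (.leaf 1))) (.leaf 1)) (.leaf 1))
    [⟨2, 3, 16⟩, ⟨1, 2, 2⟩] = true := checkAlt_cut chkD4_40 chkD4_41

theorem chkD4_43 : checkAlt 2 (envAlts 7 eEnvD4 [331, 3317, 33177]) (.leaf 1)
    [⟨3, 4, 16⟩, ⟨1, 2, 2⟩] = true := chkD4_leaves1.2.2.2.2.2.2.2.1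

theorem chkD4_44 : checkAlt 2 (envAlts 7 eEnvD4 [331, 3317, 33177]) (.cut 0 (.cut 1 (.cut 0 (.cut 1 (.cut 0 (.leaf 0) (.leaf 3)) (.cut 0 (.cut 1 (.cut 0 (.leaf 0) (.leaf 3)) (.leaf 3)) (.leaf 1))) (.leaf 1)) (.leaf 1)) (.leaf 1))
    [⟨1, 2, 8⟩, ⟨1, 2, 2⟩] = true := checkAlt_cut chkD4_42 chkD4_43

theorem chkD4_45 : checkAlt 2 (envAlts 7 eEnvD4 [331, 3317, 33177]) (.cut 1 (.cut 0 (.cut 1 (.leaf 0) (.cut 0 (.leaf 0) (.cut 1 (.leaf 0) (.cut 0 (.leaf 3) (.leaf 1))))) (.cut 1 (.leaf 0) (.cut 0 (.cut 1 (.leaf 3) (.leaf 1)) (.leaf 1)))) (.cut 0 (.cut 1 (.cut 0 (.cut 1 (.cut 0 (.leaf 0) (.leaf 3)) (.cut 0 (.cut 1 (.cut 0 (.leaf 0) (.leaf 3)) (.leaf 3)) (.leaf 1))) (.leaf 1)) (.leaf 1)) (.leaf 1)))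
    [⟨1, 2, 8⟩, ⟨0, 1, 1⟩] = true := checkAlt_cut chkD4_31 chkD4_44

theorem chkD4_46 : checkAlt 2 (envAlts 7 eEnvD4 [331, 3317, 33177]) (.cut 0 (.cut 1 (.leaf 0) (.cut 0 (.leaf 0) (.cut 1 (.leaf 0) (.cut 0 (.leaf 0) (.cut 1 (.cut 0 (.leaf 0) (.cut 1 (.leaf 0) (.cut 0 (.leaf 0) (.leaf 3)))) (.cut 0 (.leaf 0) (.cut 1 (.cut 0 (.leaf 2) (.leaf 1)) (.cut 0 (.leaf 3) (.leaf 1))))))))) (.cut 1 (.cut 0 (.cut 1 (.leaf 0) (.cut 0 (.leaf 0) (.cut 1 (.leaf 0) (.cut 0 (.leaf 3) (.leaf 1))))) (.cut 1 (.leaf 0) (.cut 0 (.cut 1 (.leaf 3) (.leaf 1)) (.leaf 1)))) (.cut 0 (.cut 1 (.cut 0 (.cut 1 (.cut 0 (.leaf 0) (.leaf 3)) (.cut 0 (.cut 1 (.cut 0 (.leaf 0) (.leaf 3)) (.leaf 3)) (.leaf 1))) (.leaf 1)) (.leaf 1)) (.leaf 1))))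
    [⟨0, 1, 4⟩, ⟨0, 1, 1⟩] = true := checkAlt_cut chkD4_18 chkD4_45

theorem chkD4_47 : checkAlt 2 (envAlts 7 eEnvD4 [331, 3317, 33177]) (.leaf 3)
    [⟨8, 9, 32⟩, ⟨0, 1, 4⟩] = true := chkD4_leaves1.2.2.2.2.2.2.2.2.1

theorem chkD4_48 : checkAlt 2 (envAlts 7 eEnvD4 [331, 3317, 33177]) (.cut 1 (.leaf 0) (.leaf 1))
    [⟨9, 10, 32⟩, ⟨0, 1, 4⟩] = true := chkD4_leaves1.2.2.2.2.2.2.2.2.2.1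

theorem chkD4_49 : checkAlt 2 (envAlts 7 eEnvD4 [331, 3317, 33177]) (.cut 0 (.leaf 3) (.cut 1 (.leaf 0) (.leaf 1)))
    [⟨4, 5, 16⟩, ⟨0, 1, 4⟩] = true := checkAlt_cut chkD4_47 chkD4_48

theorem chkD4_50 : checkAlt 2 (envAlts 7 eEnvD4 [331, 3317, 33177]) (.leaf 1)
    [⟨4, 5, 16⟩, ⟨1, 2, 4⟩] = true := chkD4_leaves1.2.2.2.2.2.2.2.2.2.2.1

theorem chkD4_51 : checkAlt 2 (envAlts 7 eEnvD4 [331, 3317, 33177]) (.cut 1 (.cut 0 (.leaf 3) (.cut 1 (.leaf 0) (.leaf 1))) (.leaf 1))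
    [⟨4, 5, 16⟩, ⟨0, 1, 2⟩] = true := checkAlt_cut chkD4_49 chkD4_50

theorem chkD4_52 : checkAlt 2 (envAlts 7 eEnvD4 [331, 3317, 33177]) (.cut 1 (.leaf 0) (.leaf 1))
    [⟨10, 11, 32⟩, ⟨0, 1, 4⟩] = true := chkD4_leaves1.2.2.2.2.2.2.2.2.2.2.2.1

theorem chkD4_53 : checkAlt 2 (envAlts 7 eEnvD4 [331, 3317, 33177]) (.cut 1 (.leaf 0) (.leaf 1))
    [⟨11, 12, 32⟩, ⟨0, 1, 4⟩] = true := chkD4_leaves1.2.2.2.2.2.2.2.2.2.2.2.2.1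

theorem chkD4_54 : checkAlt 2 (envAlts 7 eEnvD4 [331, 3317, 33177]) (.cut 0 (.cut 1 (.leaf 0) (.leaf 1)) (.cut 1 (.leaf 0) (.leaf 1)))
    [⟨5, 6, 16⟩, ⟨0, 1, 4⟩] = true := checkAlt_cut chkD4_52 chkD4_53

theorem chkD4_55 : checkAlt 2 (envAlts 7 eEnvD4 [331, 3317, 33177]) (.leaf 1)
    [⟨5, 6, 16⟩, ⟨1, 2, 4⟩] = true := chkD4_leaves1.2.2.2.2.2.2.2.2.2.2.2.2.2.1

theorem chkD4_56 : checkAlt 2 (envAlts 7 eEnvD4 [331, 3317, 33177]) (.cut 1 (.cut 0 (.cut 1 (.leaf 0) (.leaf 1)) (.cut 1 (.leaf 0) (.leaf 1))) (.leaf 1))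
    [⟨5, 6, 16⟩, ⟨0, 1, 2⟩] = true := checkAlt_cut chkD4_54 chkD4_55

theorem chkD4_57 : checkAlt 2 (envAlts 7 eEnvD4 [331, 3317, 33177]) (.cut 0 (.cut 1 (.cut 0 (.leaf 3) (.cut 1 (.leaf 0) (.leaf 1))) (.leaf 1)) (.cut 1 (.cut 0 (.cut 1 (.leaf 0) (.leaf 1)) (.cut 1 (.leaf 0) (.leaf 1))) (.leaf 1)))
    [⟨2, 3, 8⟩, ⟨0, 1, 2⟩] = true := checkAlt_cut chkD4_51 chkD4_56

theorem chkD4_58 : checkAlt 2 (envAlts 7 eEnvD4 [331, 3317, 33177]) (.leaf 1)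
    [⟨2, 3, 8⟩, ⟨1, 2, 2⟩] = true := chkD4_leaves1.2.2.2.2.2.2.2.2.2.2.2.2.2.2.1

theorem chkD4_59 : checkAlt 2 (envAlts 7 eEnvD4 [331, 3317, 33177]) (.cut 1 (.cut 0 (.cut 1 (.cut 0 (.leaf 3) (.cut 1 (.leaf 0) (.leaf 1))) (.leaf 1)) (.cut 1 (.cut 0 (.cut 1 (.leaf 0) (.leaf 1)) (.cut 1 (.leaf 0) (.leaf 1))) (.leaf 1))) (.leaf 1))
    [⟨2, 3, 8⟩, ⟨0, 1, 1⟩] = true := checkAlt_cut chkD4_57 chkD4_58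

theorem chkD4_60 : checkAlt 2 (envAlts 7 eEnvD4 [331, 3317, 33177]) (.cut 1 (.leaf 0) (.leaf 1))
    [⟨12, 13, 32⟩, ⟨0, 1, 4⟩] = true := chkD4_leaves1.2.2.2.2.2.2.2.2.2.2.2.2.2.2.2

theorem chkD4_61 : checkAlt 2 (envAlts 7 eEnvD4 [331, 3317, 33177]) (.cut 1 (.leaf 0) (.leaf 1))
    [⟨13, 14, 32⟩, ⟨0, 1, 4⟩] = true := chkD4_leaves2.1

theorem chkD4_62 : checkAlt 2 (envAlts 7 eEnvD4 [331, 3317, 33177]) (.cut 0 (.cut 1 (.leaf 0) (.leaf 1)) (.cut 1 (.leaf 0) (.leaf 1)))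
    [⟨6, 7, 16⟩, ⟨0, 1, 4⟩] = true := checkAlt_cut chkD4_60 chkD4_61

theorem chkD4_63 : checkAlt 2 (envAlts 7 eEnvD4 [331, 3317, 33177]) (.leaf 1)
    [⟨6, 7, 16⟩, ⟨1, 2, 4⟩] = true := chkD4_leaves2.2.1

theorem chkD4_64 : checkAlt 2 (envAlts 7 eEnvD4 [331, 3317, 33177]) (.cut 1 (.cut 0 (.cut 1 (.leaf 0) (.leaf 1)) (.cut 1 (.leaf 0) (.leaf 1))) (.leaf 1))
    [⟨6, 7, 16⟩, ⟨0, 1, 2⟩] = true := checkAlt_cut chkD4_62 chkD4_63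

theorem chkD4_65 : checkAlt 2 (envAlts 7 eEnvD4 [331, 3317, 33177]) (.cut 1 (.leaf 3) (.leaf 1))
    [⟨14, 15, 32⟩, ⟨0, 1, 4⟩] = true := chkD4_leaves2.2.2.1

theorem chkD4_66 : checkAlt 2 (envAlts 7 eEnvD4 [331, 3317, 33177]) (.cut 1 (.leaf 4) (.leaf 1))
    [⟨15, 16, 32⟩, ⟨0, 1, 4⟩] = true := chkD4_leaves2.2.2.2.1

theorem chkD4_67 : checkAlt 2 (envAlts 7 eEnvD4 [331, 3317, 33177]) (.cut 0 (.cut 1 (.leaf 3) (.leaf 1)) (.cut 1 (.leaf 4) (.leaf 1)))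
    [⟨7, 8, 16⟩, ⟨0, 1, 4⟩] = true := checkAlt_cut chkD4_65 chkD4_66

theorem chkD4_68 : checkAlt 2 (envAlts 7 eEnvD4 [331, 3317, 33177]) (.leaf 1)
    [⟨7, 8, 16⟩, ⟨1, 2, 4⟩] = true := chkD4_leaves2.2.2.2.2.1

theorem chkD4_69 : checkAlt 2 (envAlts 7 eEnvD4 [331, 3317, 33177]) (.cut 1 (.cut 0 (.cut 1 (.leaf 3) (.leaf 1)) (.cut 1 (.leaf 4) (.leaf 1))) (.leaf 1))
    [⟨7, 8, 16⟩, ⟨0, 1, 2⟩] = true := checkAlt_cut chkD4_67 chkD4_68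

theorem chkD4_70 : checkAlt 2 (envAlts 7 eEnvD4 [331, 3317, 33177]) (.cut 0 (.cut 1 (.cut 0 (.cut 1 (.leaf 0) (.leaf 1)) (.cut 1 (.leaf 0) (.leaf 1))) (.leaf 1)) (.cut 1 (.cut 0 (.cut 1 (.leaf 3) (.leaf 1)) (.cut 1 (.leaf 4) (.leaf 1))) (.leaf 1)))
    [⟨3, 4, 8⟩, ⟨0, 1, 2⟩] = true := checkAlt_cut chkD4_64 chkD4_69

theorem chkD4_71 : checkAlt 2 (envAlts 7 eEnvD4 [331, 3317, 33177]) (.leaf 1)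
    [⟨3, 4, 8⟩, ⟨1, 2, 2⟩] = true := chkD4_leaves2.2.2.2.2.2.1

theorem chkD4_72 : checkAlt 2 (envAlts 7 eEnvD4 [331, 3317, 33177]) (.cut 1 (.cut 0 (.cut 1 (.cut 0 (.cut 1 (.leaf 0) (.leaf 1)) (.cut 1 (.leaf 0) (.leaf 1))) (.leaf 1)) (.cut 1 (.cut 0 (.cut 1 (.leaf 3) (.leaf 1)) (.cut 1 (.leaf 4) (.leaf 1))) (.leaf 1))) (.leaf 1))
    [⟨3, 4, 8⟩, ⟨0, 1, 1⟩] = true := checkAlt_cut chkD4_70 chkD4_71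

theorem chkD4_73 : checkAlt 2 (envAlts 7 eEnvD4 [331, 3317, 33177]) (.cut 0 (.cut 1 (.cut 0 (.cut 1 (.cut 0 (.leaf 3) (.cut 1 (.leaf 0) (.leaf 1))) (.leaf 1)) (.cut 1 (.cut 0 (.cut 1 (.leaf 0) (.leaf 1)) (.cut 1 (.leaf 0) (.leaf 1))) (.leaf 1))) (.leaf 1)) (.cut 1 (.cut 0 (.cut 1 (.cut 0 (.cut 1 (.leaf 0) (.leaf 1)) (.cut 1 (.leaf 0) (.leaf 1))) (.leaf 1)) (.cut 1 (.cut 0 (.cut 1 (.leaf 3) (.leaf 1)) (.cut 1 (.leaf 4) (.leaf 1))) (.leaf 1))) (.leaf 1)))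
    [⟨1, 2, 4⟩, ⟨0, 1, 1⟩] = true := checkAlt_cut chkD4_59 chkD4_72

theorem chkD4_74 : checkAlt 2 (envAlts 7 eEnvD4 [331, 3317, 33177]) (.cut 0 (.cut 0 (.cut 1 (.leaf 0) (.cut 0 (.leaf 0) (.cut 1 (.leaf 0) (.cut 0 (.leaf 0) (.cut 1 (.cut 0 (.leaf 0) (.cut 1 (.leaf 0) (.cut 0 (.leaf 0) (.leaf 3)))) (.cut 0 (.leaf 0) (.cut 1 (.cut 0 (.leaf 2) (.leaf 1)) (.cut 0 (.leaf 3) (.leaf 1))))))))) (.cut 1 (.cut 0 (.cut 1 (.leaf 0) (.cut 0 (.leaf 0) (.cut 1 (.leaf 0) (.cut 0 (.leaf 3) (.leaf 1))))) (.cut 1 (.leaf 0) (.cut 0 (.cut 1 (.leaf 3) (.leaf 1)) (.leaf 1)))) (.cut 0 (.cut 1 (.cut 0 (.cut 1 (.cut 0 (.leaf 0) (.leaf 3)) (.cut 0 (.cut 1 (.cut 0 (.leaf 0) (.leaf 3)) (.leaf 3)) (.leaf 1))) (.leaf 1)) (.leaf 1)) (.leaf 1)))) (.cut 0 (.cut 1 (.cut 0 (.cut 1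 (.cut 0 (.leaf 3) (.cut 1 (.leaf 0) (.leaf 1))) (.leaf 1)) (.cut 1 (.cut 0 (.cut 1 (.leaf 0) (.leaf 1)) (.cut 1 (.leaf 0) (.leaf 1))) (.leaf 1))) (.leaf 1)) (.cut 1 (.cut 0 (.cut 1 (.cut 0 (.cut 1 (.leaf 0) (.leaf 1)) (.cut 1 (.leaf 0) (.leaf 1))) (.leaf 1)) (.cut 1 (.cut 0 (.cut 1 (.leaf 3) (.leaf 1)) (.cut 1 (.leaf 4) (.leaf 1))) (.leaf 1))) (.leaf 1))))
    [⟨0, 1, 2⟩, ⟨0, 1, 1⟩] = true := checkAlt_cut chkD4_46 chkD4_73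

theorem chkD4_75 : checkAlt 2 (envAlts 7 eEnvD4 [331, 3317, 33177]) (.cut 1 (.leaf 4) (.leaf 1))
    [⟨16, 17, 32⟩, ⟨0, 1, 4⟩] = true := chkD4_leaves2.2.2.2.2.2.2.1

theorem chkD4_76 : checkAlt 2 (envAlts 7 eEnvD4 [331, 3317, 33177]) (.cut 1 (.leaf 4) (.leaf 1))
    [⟨17, 18, 32⟩, ⟨0, 1, 4⟩] = true := chkD4_leaves2.2.2.2.2.2.2.2.1

theorem chkD4_77 : checkAlt 2 (envAlts 7 eEnvD4 [331, 3317, 33177]) (.cut 0 (.cut 1 (.leaf 4) (.leaf 1)) (.cut 1 (.leaf 4) (.leaf 1)))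
    [⟨8, 9, 16⟩, ⟨0, 1, 4⟩] = true := checkAlt_cut chkD4_75 chkD4_76

theorem chkD4_78 : checkAlt 2 (envAlts 7 eEnvD4 [331, 3317, 33177]) (.leaf 1)
    [⟨8, 9, 16⟩, ⟨1, 2, 4⟩] = true := chkD4_leaves2.2.2.2.2.2.2.2.2.1

theorem chkD4_79 : checkAlt 2 (envAlts 7 eEnvD4 [331, 3317, 33177]) (.cut 1 (.cut 0 (.cut 1 (.leaf 4) (.leaf 1)) (.cut 1 (.leaf 4) (.leaf 1))) (.leaf 1))
    [⟨8, 9, 16⟩, ⟨0, 1, 2⟩] = true := checkAlt_cut chkD4_77 chkD4_78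

theorem chkD4_80 : checkAlt 2 (envAlts 7 eEnvD4 [331, 3317, 33177]) (.cut 1 (.leaf 4) (.leaf 1))
    [⟨18, 19, 32⟩, ⟨0, 1, 4⟩] = true := chkD4_leaves2.2.2.2.2.2.2.2.2.2.1

theorem chkD4_81 : checkAlt 2 (envAlts 7 eEnvD4 [331, 3317, 33177]) (.cut 1 (.leaf 4) (.leaf 1))
    [⟨19, 20, 32⟩, ⟨0, 1, 4⟩] = true := chkD4_leaves2.2.2.2.2.2.2.2.2.2.2.1

theorem chkD4_82 : checkAlt 2 (envAlts 7 eEnvD4 [331, 3317, 33177]) (.cut 0 (.cut 1 (.leaf 4) (.leaf 1)) (.cut 1 (.leaf 4) (.leaf 1)))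
    [⟨9, 10, 16⟩, ⟨0, 1, 4⟩] = true := checkAlt_cut chkD4_80 chkD4_81

theorem chkD4_83 : checkAlt 2 (envAlts 7 eEnvD4 [331, 3317, 33177]) (.leaf 1)
    [⟨9, 10, 16⟩, ⟨1, 2, 4⟩] = true := chkD4_leaves2.2.2.2.2.2.2.2.2.2.2.2.1

theorem chkD4_84 : checkAlt 2 (envAlts 7 eEnvD4 [331, 3317, 33177]) (.cut 1 (.cut 0 (.cut 1 (.leaf 4) (.leaf 1)) (.cut 1 (.leaf 4) (.leaf 1))) (.leaf 1))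
    [⟨9, 10, 16⟩, ⟨0, 1, 2⟩] = true := checkAlt_cut chkD4_82 chkD4_83

theorem chkD4_85 : checkAlt 2 (envAlts 7 eEnvD4 [331, 3317, 33177]) (.cut 0 (.cut 1 (.cut 0 (.cut 1 (.leaf 4) (.leaf 1)) (.cut 1 (.leaf 4) (.leaf 1))) (.leaf 1)) (.cut 1 (.cut 0 (.cut 1 (.leaf 4) (.leaf 1)) (.cut 1 (.leaf 4) (.leaf 1))) (.leaf 1)))
    [⟨4, 5, 8⟩, ⟨0, 1, 2⟩] = true := checkAlt_cut chkD4_79 chkD4_84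

theorem chkD4_86 : checkAlt 2 (envAlts 7 eEnvD4 [331, 3317, 33177]) (.leaf 1)
    [⟨4, 5, 8⟩, ⟨1, 2, 2⟩] = true := chkD4_leaves2.2.2.2.2.2.2.2.2.2.2.2.2.1

theorem chkD4_87 : checkAlt 2 (envAlts 7 eEnvD4 [331, 3317, 33177]) (.cut 1 (.cut 0 (.cut 1 (.cut 0 (.cut 1 (.leaf 4) (.leaf 1)) (.cut 1 (.leaf 4) (.leaf 1))) (.leaf 1)) (.cut 1 (.cut 0 (.cut 1 (.leaf 4) (.leaf 1)) (.cut 1 (.leaf 4) (.leaf 1))) (.leaf 1))) (.leaf 1))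
    [⟨4, 5, 8⟩, ⟨0, 1, 1⟩] = true := checkAlt_cut chkD4_85 chkD4_86

theorem chkD4_88 : checkAlt 2 (envAlts 7 eEnvD4 [331, 3317, 33177]) (.leaf 1)
    [⟨5, 6, 8⟩, ⟨0, 1, 1⟩] = true := chkD4_leaves2.2.2.2.2.2.2.2.2.2.2.2.2.2.1

theorem chkD4_89 : checkAlt 2 (envAlts 7 eEnvD4 [331, 3317, 33177]) (.cut 0 (.cut 1 (.cut 0 (.cut 1 (.cut 0 (.cut 1 (.leaf 4) (.leaf 1)) (.cut 1 (.leaf 4) (.leaf 1))) (.leaf 1)) (.cut 1 (.cut 0 (.cut 1 (.leaf 4) (.leaf 1)) (.cut 1 (.leaf 4) (.leaf 1))) (.leaf 1))) (.leaf 1)) (.leaf 1))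
    [⟨2, 3, 4⟩, ⟨0, 1, 1⟩] = true := checkAlt_cut chkD4_87 chkD4_88

theorem chkD4_90 : checkAlt 2 (envAlts 7 eEnvD4 [331, 3317, 33177]) (.leaf 1)
    [⟨3, 4, 4⟩, ⟨0, 1, 1⟩] = true := chkD4_leaves2.2.2.2.2.2.2.2.2.2.2.2.2.2.2

theorem chkD4_91 : checkAlt 2 (envAlts 7 eEnvD4 [331, 3317, 33177]) (.cut 0 (.cut 0 (.cut 1 (.cut 0 (.cut 1 (.cut 0 (.cut 1 (.leaf 4) (.leaf 1)) (.cut 1 (.leaf 4) (.leaf 1))) (.leaf 1)) (.cut 1 (.cut 0 (.cut 1 (.leaf 4) (.leaf 1)) (.cut 1 (.leaf 4) (.leaf 1))) (.leaf 1))) (.leaf 1)) (.leaf 1)) (.leaf 1))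
    [⟨1, 2, 2⟩, ⟨0, 1, 1⟩] = true := checkAlt_cut chkD4_89 chkD4_90

theorem chkD4_92 : checkAlt 2 (envAlts 7 eEnvD4 [331, 3317, 33177]) (.cut 0 (.cut 0 (.cut 0 (.cut 1 (.leaf 0) (.cut 0 (.leaf 0) (.cut 1 (.leaf 0) (.cut 0 (.leaf 0) (.cut 1 (.cut 0 (.leaf 0) (.cut 1 (.leaf 0) (.cut 0 (.leaf 0) (.leaf 3)))) (.cut 0 (.leaf 0) (.cut 1 (.cut 0 (.leaf 2) (.leaf 1)) (.cut 0 (.leaf 3) (.leaf 1))))))))) (.cut 1 (.cut 0 (.cut 1 (.leaf 0) (.cut 0 (.leaf 0) (.cut 1 (.leaf 0) (.cut 0 (.leaf 3) (.leaf 1))))) (.cut 1 (.leaf 0) (.cut 0 (.cut 1 (.leaf 3) (.leaf 1)) (.leaf 1)))) (.cut 0 (.cut 1 (.cut 0 (.cut 1 (.cut 0 (.leaf 0) (.leaf 3)) (.cut 0 (.cut 1 (.cut 0 (.leaf 0) (.leaf 3)) (.leaf 3)) (.leaf 1))) (.leaf 1)) (.leaf 1)) (.leaf 1)))) (.cut 0 (.cut 1 (.cut 0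 (.cut 1 (.cut 0 (.leaf 3) (.cut 1 (.leaf 0) (.leaf 1))) (.leaf 1)) (.cut 1 (.cut 0 (.cut 1 (.leaf 0) (.leaf 1)) (.cut 1 (.leaf 0) (.leaf 1))) (.leaf 1))) (.leaf 1)) (.cut 1 (.cut 0 (.cut 1 (.cut 0 (.cut 1 (.leaf 0) (.leaf 1)) (.cut 1 (.leaf 0) (.leaf 1))) (.leaf 1)) (.cut 1 (.cut 0 (.cut 1 (.leaf 3) (.leaf 1)) (.cut 1 (.leaf 4) (.leaf 1))) (.leaf 1))) (.leaf 1)))) (.cut 0 (.cut 0 (.cut 1 (.cut 0 (.cut 1 (.cut 0 (.cut 1 (.leaf 4) (.leaf 1)) (.cut 1 (.leaf 4) (.leaf 1))) (.leaf 1)) (.cut 1 (.cut 0 (.cut 1 (.leaf 4) (.leaf 1)) (.cut 1 (.leaf 4) (.leaf 1))) (.leaf 1))) (.leaf 1)) (.leaf 1)) (.leaf 1)))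
    [⟨0, 1, 1⟩, ⟨0, 1, 1⟩] = true := checkAlt_cut chkD4_74 chkD4_91

theorem envD4_nonneg {p z : ℝ} (hp : 0 ≤ p) (hp1 : p ≤ 1) (hz : 0 ≤ z) (hz1 : z ≤ 1)
    (hY : 0 ≤ ysum (chart p z)) (hr : 3000 ≤ 1497 * ysum (chart p z)) :
    0 ≤ eEnvD4.eval (pt [p, z]) :=
  env_nonneg (by decide) chkD4_92 hp hp1 hz hz1 hY hr

end Vale.Agent.P154.NegEnd2
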