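import Vale.Agent.P154.NegEnd2.EnvBase

/-!
P154 NegEnd2: the atoms and the envelopes (generated).
-/

namespace Vale.Agent.P154.NegEnd2

open PolyCheck NegEnd

/-- Six times the atoms. -/
def atomI : Fin 5 → Fin 3 → ℕ := ![![2, 2, 2], ![1, 2, 3], ![1, 1, 4], ![0, 2, 4], ![0, 1, 5]]

/-- Coefficients of envelope V. -/
def L_V : List (ℤ × ℕ × ℕ) :=
  [(-265024, 2, 0), (-167169, 1, 1), (-2515, 3, 0), (454174, 0, 2), (-691043, 2, 1), (403984, 4, 0), (-1107794, 1, 2), (1354957, 3, 1), (611876, 0, 3), (-1311395, 5, 0), (134622, 2, 2)]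

/-- Coefficients of envelope G. -/
def L_G : List (ℤ × ℕ × ℕ) :=
  [(301762, 2, 0), (8896, 1, 1), (1174085, 3, 0), (-1694728, 0, 2), (1104486, 2, 1), (-12276570, 4, 0), (26390210, 1, 2)]

/-- Coefficients of envelope D1. -/
def L_D1 : List (ℤ × ℕ × ℕ) :=
  [(5273, 2, 0), (12887, 1, 1), (9404, 3, 0), (4953, 0, 2), (-304182, 2, 1), (-234403, 4, 0), (-233304, 1, 2)]

/-- Coefficients of envelope D2. -/
def L_D2 : List (ℤ × ℕ × ℕ) :=
  [(-1372, 2, 0), (3516, 1, 1), (15281, 3, 0), (-29802, 0, 2), (207141, 2, 1), (-96506, 4, 0), (1135645, 1, 2)]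

/-- Coefficients of envelope D3. -/
def L_D3 : List (ℤ × ℕ × ℕ) :=
  [(40966, 2, 0), (455048, 1, 1), (199541, 3, 0), (142034, 0, 2), (-7516339, 2, 1), (-7041648, 4, 0), (-7656033, 1, 2)]

/-- Coefficients of envelope D4. -/
def L_D4 : List (ℤ × ℕ × ℕ) :=
  [(8069, 2, 0), (28547, 1, 1), (15424, 3, 0), (15449, 0, 2), (-651836, 2, 1), (-471728, 4, 0), (-587452, 1, 2)]

/-- Coefficients of envelope A. -/
def L_A : List (ℤ × ℕ × ℕ) :=
  [(191286, 2, 0), (-824238, 1, 1), (-1324373, 3, 0), (-762509, 0, 2), (13338810, 2, 1), (18205650, 4, 0), (18883360, 1, 2)]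

/-- Coefficients of envelope Q. -/
def L_Q : List (ℤ × ℕ × ℕ) :=
  [(13565432000, 3, 0), (-13237944000, 0, 2), (-254168000, 2, 1), (78619704000, 4, 0), (-80346640000, 1, 2), (-600222480000, 3, 1), (599962080000, 0, 3), (-566305360000, 5, 0), (620300240000, 2, 2)]

/-- Envelope V as an expression. -/
def eEnvV : Ex :=
    Ex.c (-133906608000) * (eT (atomI 0) * eYs ^ 9) +
    Ex.c (195889104000) * (eT (atomI 1) * eYs ^ 9) +
    Ex.c (-49813056000) * (eT (atomI 2) * eYs ^ 9) +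
    Ex.c (-7534944000) * (eT (atomI 3) * eYs ^ 9) +
    Ex.c (1656288000) * (eT (atomI 4) * eYs ^ 9) +
    Ex.c (-1321812000) * (eNS * eYs ^ 8) +
    polEx 10 5 L_V

/-- Envelope G as an expression. -/
def eEnvG : Ex :=
    Ex.c (133906608000) * (eT (atomI 0) * eYs ^ 7) +
    Ex.c (-195889104000) * (eT (atomI 1) * eYs ^ 7) +
    Ex.c (49813056000) * (eT (atomI 2) * eYs ^ 7) +
    Ex.c (7534944000) * (eT (atomI 3) * eYs ^ 7) +
    Ex.c (-1656288000) * (eT (atomI 4) * eYs ^ 7) +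
    Ex.c (1321812000) * (eNS * eYs ^ 6) +
    polEx 8 5 L_G

/-- Envelope D1 as an expression. -/
def eEnvD1 : Ex :=
    Ex.c (388800000) * (eT (atomI 1) * eYs ^ 7) +
    Ex.c (-354974400) * (eT (atomI 0) * eYs ^ 7) +
    Ex.c (-475200) * (eNS * eYs ^ 6) +
    Ex.c (-3283200) * (eNC * eYs ^ 5) +
    polEx 8 5 L_D1

/-- Envelope D2 as an expression. -/
def eEnvD2 : Ex :=
    Ex.c (-388800000) * (eT (atomI 2) * eYs ^ 7) +
    Ex.c (295876800) * (eT (atomI 0) * eYs ^ 7) +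
    Ex.c (-1425600) * (eNS * eYs ^ 6) +
    Ex.c (6350400) * (eNC * eYs ^ 5) +
    polEx 8 5 L_D2

/-- Envelope D3 as an expression. -/
def eEnvD3 : Ex :=
    Ex.c (-388800000) * (eT (atomI 3) * eYs ^ 7) +
    Ex.c (236001600) * (eT (atomI 0) * eYs ^ 7) +
    Ex.c (7732800) * (eNS * eYs ^ 6) +
    Ex.c (9244800) * (eNC * eYs ^ 5) +
    polEx 8 5 L_D3

/-- Envelope D4 as an expression. -/
def eEnvD4 : Ex :=
    Ex.c (388800000) * (eT (atomI 4) * eYs ^ 7) +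
    Ex.c (-156297600) * (eT (atomI 0) * eYs ^ 7) +
    Ex.c (-1900800) * (eNS * eYs ^ 6) +
    Ex.c (-7732800) * (eNC * eYs ^ 5) +
    polEx 8 5 L_D4

/-- Envelope A as an expression. -/
def eEnvA : Ex :=
    Ex.c (-388800000) * (eT (atomI 0) * eYs ^ 7) +
    Ex.c (129600000) * (eNS * eYs ^ 6) +
    Ex.c (-86400000) * (eNC * eYs ^ 5) +
    polEx 8 5 L_A

/-- Envelope Q as an expression. -/
def eEnvQ : Ex :=
    Ex.c (-199252224) * ((Ex.c 1000 * eT (atomI 2) - Ex.c 761 * eT (atomI 0)) ^ 2 * eYs ^ 8) +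
    Ex.c (-30139776) * ((Ex.c 1000 * eT (atomI 3) - Ex.c 607 * eT (atomI 0)) ^ 2 * eYs ^ 8) +
    Ex.c (14601163392) * (eNS ^ 2 * eYs ^ 6) +
    Ex.c (4641030144) * (eNS * eNC * eYs ^ 5) +
    polEx 10 5 L_Q

end Vale.Agent.P154.NegEnd2
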