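import Vale.Agent.P154.NegEnd2.EnvDefs

/-!
P154 NegEnd2: certificate of envelope G (generated).
-/

namespace Vale.Agent.P154.NegEnd2

open PolyCheck NegEnd


theorem chkG_leaves0 :
    (checkAlt 2 (envAlts 7 eEnvG [9953, 33177]) (.leaf 0) [⟨0, 1, 8⟩, ⟨0, 1, 4⟩] = true) ∧
    (checkAlt 2 (envAlts 7 eEnvG [9953, 33177]) (.leaf 0) [⟨1, 2, 8⟩, ⟨0, 1, 8⟩] = true) ∧
    (checkAlt 2 (envAlts 7 eEnvG [9953, 33177]) (.leaf 0) [⟨2, 3, 16⟩, ⟨1, 2, 8⟩] = true) ∧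
    (checkAlt 2 (envAlts 7 eEnvG [9953, 33177]) (.leaf 0) [⟨3, 4, 16⟩, ⟨2, 3, 16⟩] = true) ∧
    (checkAlt 2 (envAlts 7 eEnvG [9953, 33177]) (.leaf 2) [⟨6, 7, 32⟩, ⟨3, 4, 16⟩] = true) ∧
    (checkAlt 2 (envAlts 7 eEnvG [9953, 33177]) (.cut 1 (.leaf 3) (.leaf 1)) [⟨7, 8, 32⟩, ⟨3, 4, 16⟩] = true) ∧
    (checkAlt 2 (envAlts 7 eEnvG [9953, 33177]) (.leaf 0) [⟨0, 1, 8⟩, ⟨1, 2, 4⟩] = true) ∧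
    (checkAlt 2 (envAlts 7 eEnvG [9953, 33177]) (.leaf 0) [⟨2, 3, 16⟩, ⟨2, 3, 8⟩] = true) ∧
    (checkAlt 2 (envAlts 7 eEnvG [9953, 33177]) (.cut 0 (.leaf 0) (.leaf 1)) [⟨6, 7, 32⟩, ⟨8, 9, 32⟩] = true) ∧
    (checkAlt 2 (envAlts 7 eEnvG [9953, 33177]) (.cut 0 (.leaf 3) (.leaf 1)) [⟨6, 7, 32⟩, ⟨9, 10, 32⟩] = true) ∧
    (checkAlt 2 (envAlts 7 eEnvG [9953, 33177]) (.leaf 1) [⟨7, 8, 32⟩, ⟨4, 5, 16⟩] = true) ∧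
    (checkAlt 2 (envAlts 7 eEnvG [9953, 33177]) (.leaf 1) [⟨3, 4, 16⟩, ⟨5, 6, 16⟩] = true) := by
  refine ⟨?_, ?_, ?_, ?_, ?_, ?_, ?_, ?_, ?_, ?_, ?_, ?_⟩ <;> decide +kernel

theorem chkG_leaves1 :
    (checkAlt 2 (envAlts 7 eEnvG [9953, 33177]) (.cut 0 (.leaf 0) (.leaf 1)) [⟨1, 2, 8⟩, ⟨3, 4, 8⟩] = true) ∧
    (checkAlt 2 (envAlts 7 eEnvG [9953, 33177]) (.leaf 0) [⟨2, 3, 8⟩, ⟨0, 1, 8⟩] = true) ∧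
    (checkAlt 2 (envAlts 7 eEnvG [9953, 33177]) (.cut 0 (.leaf 0) (.leaf 1)) [⟨4, 5, 16⟩, ⟨2, 3, 16⟩] = true) ∧
    (checkAlt 2 (envAlts 7 eEnvG [9953, 33177]) (.leaf 1) [⟨4, 5, 16⟩, ⟨3, 4, 16⟩] = true) ∧
    (checkAlt 2 (envAlts 7 eEnvG [9953, 33177]) (.leaf 1) [⟨5, 6, 16⟩, ⟨1, 2, 8⟩] = true) ∧
    (checkAlt 2 (envAlts 7 eEnvG [9953, 33177]) (.leaf 0) [⟨6, 7, 16⟩, ⟨0, 1, 8⟩] = true) ∧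
    (checkAlt 2 (envAlts 7 eEnvG [9953, 33177]) (.cut 1 (.leaf 0) (.leaf 1)) [⟨7, 8, 16⟩, ⟨0, 1, 8⟩] = true) ∧
    (checkAlt 2 (envAlts 7 eEnvG [9953, 33177]) (.leaf 1) [⟨3, 4, 8⟩, ⟨1, 2, 8⟩] = true) ∧
    (checkAlt 2 (envAlts 7 eEnvG [9953, 33177]) (.leaf 1) [⟨1, 2, 4⟩, ⟨1, 2, 4⟩] = true) ∧
    (checkAlt 2 (envAlts 7 eEnvG [9953, 33177]) (.cut 0 (.leaf 0) (.leaf 0)) [⟨0, 1, 2⟩, ⟨1, 2, 2⟩] = true) ∧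
    (checkAlt 2 (envAlts 7 eEnvG [9953, 33177]) (.cut 1 (.leaf 0) (.leaf 1)) [⟨8, 9, 16⟩, ⟨0, 1, 8⟩] = true) ∧
    (checkAlt 2 (envAlts 7 eEnvG [9953, 33177]) (.cut 1 (.leaf 0) (.leaf 1)) [⟨18, 19, 32⟩, ⟨0, 1, 16⟩] = true) := by
  refine ⟨?_, ?_, ?_, ?_, ?_, ?_, ?_, ?_, ?_, ?_, ?_, ?_⟩ <;> decide +kernel

theorem chkG_leaves2 :
    (checkAlt 2 (envAlts 7 eEnvG [9953, 33177]) (.cut 0 (.leaf 0) (.leaf 1)) [⟨38, 39, 64⟩, ⟨0, 1, 64⟩] = true) ∧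
    (checkAlt 2 (envAlts 7 eEnvG [9953, 33177]) (.leaf 1) [⟨38, 39, 64⟩, ⟨1, 2, 64⟩] = true) ∧
    (checkAlt 2 (envAlts 7 eEnvG [9953, 33177]) (.leaf 1) [⟨39, 40, 64⟩, ⟨0, 1, 32⟩] = true) ∧
    (checkAlt 2 (envAlts 7 eEnvG [9953, 33177]) (.leaf 1) [⟨19, 20, 32⟩, ⟨1, 2, 32⟩] = true) ∧
    (checkAlt 2 (envAlts 7 eEnvG [9953, 33177]) (.leaf 1) [⟨9, 10, 16⟩, ⟨1, 2, 16⟩] = true) ∧
    (checkAlt 2 (envAlts 7 eEnvG [9953, 33177]) (.leaf 1) [⟨4, 5, 8⟩, ⟨1, 2, 8⟩] = true) ∧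
    (checkAlt 2 (envAlts 7 eEnvG [9953, 33177]) (.leaf 1) [⟨5, 6, 8⟩, ⟨0, 1, 4⟩] = true) ∧
    (checkAlt 2 (envAlts 7 eEnvG [9953, 33177]) (.leaf 1) [⟨2, 3, 4⟩, ⟨1, 2, 4⟩] = true) ∧
    (checkAlt 2 (envAlts 7 eEnvG [9953, 33177]) (.leaf 1) [⟨3, 4, 4⟩, ⟨0, 1, 2⟩] = true) ∧
    (checkAlt 2 (envAlts 7 eEnvG [9953, 33177]) (.leaf 0) [⟨1, 2, 2⟩, ⟨1, 2, 2⟩] = true) := by
  refine ⟨?_, ?_, ?_, ?_, ?_, ?_, ?_, ?_, ?_, ?_⟩ <;> decide +kernel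

theorem chkG_0 : checkAlt 2 (envAlts 7 eEnvG [9953, 33177]) (.leaf 0)
    [⟨0, 1, 8⟩, ⟨0, 1, 4⟩] = true := chkG_leaves0.1

theorem chkG_1 : checkAlt 2 (envAlts 7 eEnvG [9953, 33177]) (.leaf 0)
    [⟨1, 2, 8⟩, ⟨0, 1, 8⟩] = true := chkG_leaves0.2.1

theorem chkG_2 : checkAlt 2 (envAlts 7 eEnvG [9953, 33177]) (.leaf 0)
    [⟨2, 3, 16⟩, ⟨1, 2, 8⟩] = true := chkG_leaves0.2.2.1

theorem chkG_3 : checkAlt 2 (envAlts 7 eEnvG [9953, 33177]) (.leaf 0)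
    [⟨3, 4, 16⟩, ⟨2, 3, 16⟩] = true := chkG_leaves0.2.2.2.1

theorem chkG_4 : checkAlt 2 (envAlts 7 eEnvG [9953, 33177]) (.leaf 2)
    [⟨6, 7, 32⟩, ⟨3, 4, 16⟩] = true := chkG_leaves0.2.2.2.2.1

theorem chkG_5 : checkAlt 2 (envAlts 7 eEnvG [9953, 33177]) (.cut 1 (.leaf 3) (.leaf 1))
    [⟨7, 8, 32⟩, ⟨3, 4, 16⟩] = true := chkG_leaves0.2.2.2.2.2.1

theorem chkG_6 : checkAlt 2 (envAlts 7 eEnvG [9953, 33177]) (.cut 0 (.leaf 2) (.cut 1 (.leaf 3) (.leaf 1)))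
    [⟨3, 4, 16⟩, ⟨3, 4, 16⟩] = true := checkAlt_cut chkG_4 chkG_5

theorem chkG_7 : checkAlt 2 (envAlts 7 eEnvG [9953, 33177]) (.cut 1 (.leaf 0) (.cut 0 (.leaf 2) (.cut 1 (.leaf 3) (.leaf 1))))
    [⟨3, 4, 16⟩, ⟨1, 2, 8⟩] = true := checkAlt_cut chkG_3 chkG_6

theorem chkG_8 : checkAlt 2 (envAlts 7 eEnvG [9953, 33177]) (.cut 0 (.leaf 0) (.cut 1 (.leaf 0) (.cut 0 (.leaf 2) (.cut 1 (.leaf 3) (.leaf 1)))))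
    [⟨1, 2, 8⟩, ⟨1, 2, 8⟩] = true := checkAlt_cut chkG_2 chkG_7

theorem chkG_9 : checkAlt 2 (envAlts 7 eEnvG [9953, 33177]) (.cut 1 (.leaf 0) (.cut 0 (.leaf 0) (.cut 1 (.leaf 0) (.cut 0 (.leaf 2) (.cut 1 (.leaf 3) (.leaf 1))))))
    [⟨1, 2, 8⟩, ⟨0, 1, 4⟩] = true := checkAlt_cut chkG_1 chkG_8

theorem chkG_10 : checkAlt 2 (envAlts 7 eEnvG [9953, 33177]) (.cut 0 (.leaf 0) (.cut 1 (.leaf 0) (.cut 0 (.leaf 0) (.cut 1 (.leaf 0) (.cut 0 (.leaf 2) (.cut 1 (.leaf 3) (.leaf 1)))))))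
    [⟨0, 1, 4⟩, ⟨0, 1, 4⟩] = true := checkAlt_cut chkG_0 chkG_9

theorem chkG_11 : checkAlt 2 (envAlts 7 eEnvG [9953, 33177]) (.leaf 0)
    [⟨0, 1, 8⟩, ⟨1, 2, 4⟩] = true := chkG_leaves0.2.2.2.2.2.2.1

theorem chkG_12 : checkAlt 2 (envAlts 7 eEnvG [9953, 33177]) (.leaf 0)
    [⟨2, 3, 16⟩, ⟨2, 3, 8⟩] = true := chkG_leaves0.2.2.2.2.2.2.2.1

theorem chkG_13 : checkAlt 2 (envAlts 7 eEnvG [9953, 33177]) (.cut 0 (.leaf 0) (.leaf 1))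
    [⟨6, 7, 32⟩, ⟨8, 9, 32⟩] = true := chkG_leaves0.2.2.2.2.2.2.2.2.1

theorem chkG_14 : checkAlt 2 (envAlts 7 eEnvG [9953, 33177]) (.cut 0 (.leaf 3) (.leaf 1))
    [⟨6, 7, 32⟩, ⟨9, 10, 32⟩] = true := chkG_leaves0.2.2.2.2.2.2.2.2.2.1

theorem chkG_15 : checkAlt 2 (envAlts 7 eEnvG [9953, 33177]) (.cut 1 (.cut 0 (.leaf 0) (.leaf 1)) (.cut 0 (.leaf 3) (.leaf 1)))
    [⟨6, 7, 32⟩, ⟨4, 5, 16⟩] = true := checkAlt_cut chkG_13 chkG_14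

theorem chkG_16 : checkAlt 2 (envAlts 7 eEnvG [9953, 33177]) (.leaf 1)
    [⟨7, 8, 32⟩, ⟨4, 5, 16⟩] = true := chkG_leaves0.2.2.2.2.2.2.2.2.2.2.1

theorem chkG_17 : checkAlt 2 (envAlts 7 eEnvG [9953, 33177]) (.cut 0 (.cut 1 (.cut 0 (.leaf 0) (.leaf 1)) (.cut 0 (.leaf 3) (.leaf 1))) (.leaf 1))
    [⟨3, 4, 16⟩, ⟨4, 5, 16⟩] = true := checkAlt_cut chkG_15 chkG_16

theorem chkG_18 : checkAlt 2 (envAlts 7 eEnvG [9953, 33177]) (.leaf 1)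
    [⟨3, 4, 16⟩, ⟨5, 6, 16⟩] = true := chkG_leaves0.2.2.2.2.2.2.2.2.2.2.2

theorem chkG_19 : checkAlt 2 (envAlts 7 eEnvG [9953, 33177]) (.cut 1 (.cut 0 (.cut 1 (.cut 0 (.leaf 0) (.leaf 1)) (.cut 0 (.leaf 3) (.leaf 1))) (.leaf 1)) (.leaf 1))
    [⟨3, 4, 16⟩, ⟨2, 3, 8⟩] = true := checkAlt_cut chkG_17 chkG_18

theorem chkG_20 : checkAlt 2 (envAlts 7 eEnvG [9953, 33177]) (.cut 0 (.leaf 0) (.cut 1 (.cut 0 (.cut 1 (.cut 0 (.leaf 0) (.leaf 1)) (.cut 0 (.leaf 3) (.leaf 1))) (.leaf 1)) (.leaf 1)))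
    [⟨1, 2, 8⟩, ⟨2, 3, 8⟩] = true := checkAlt_cut chkG_12 chkG_19

theorem chkG_21 : checkAlt 2 (envAlts 7 eEnvG [9953, 33177]) (.cut 0 (.leaf 0) (.leaf 1))
    [⟨1, 2, 8⟩, ⟨3, 4, 8⟩] = true := chkG_leaves1.1

theorem chkG_22 : checkAlt 2 (envAlts 7 eEnvG [9953, 33177]) (.cut 1 (.cut 0 (.leaf 0) (.cut 1 (.cut 0 (.cut 1 (.cut 0 (.leaf 0) (.leaf 1)) (.cut 0 (.leaf 3) (.leaf 1))) (.leaf 1)) (.leaf 1))) (.cut 0 (.leaf 0) (.leaf 1)))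
    [⟨1, 2, 8⟩, ⟨1, 2, 4⟩] = true := checkAlt_cut chkG_20 chkG_21

theorem chkG_23 : checkAlt 2 (envAlts 7 eEnvG [9953, 33177]) (.cut 0 (.leaf 0) (.cut 1 (.cut 0 (.leaf 0) (.cut 1 (.cut 0 (.cut 1 (.cut 0 (.leaf 0) (.leaf 1)) (.cut 0 (.leaf 3) (.leaf 1))) (.leaf 1)) (.leaf 1))) (.cut 0 (.leaf 0) (.leaf 1))))
    [⟨0, 1, 4⟩, ⟨1, 2, 4⟩] = true := checkAlt_cut chkG_11 chkG_22

theorem chkG_24 : checkAlt 2 (envAlts 7 eEnvG [9953, 33177]) (.cut 1 (.cut 0 (.leaf 0) (.cut 1 (.leaf 0) (.cut 0 (.leaf 0) (.cut 1 (.leaf 0) (.cut 0 (.leaf 2) (.cut 1 (.leaf 3) (.leaf 1))))))) (.cut 0 (.leaf 0) (.cut 1 (.cut 0 (.leaf 0) (.cut 1 (.cut 0 (.cut 1 (.cut 0 (.leaf 0) (.leaf 1)) (.cut 0 (.leaf 3) (.leaf 1))) (.leaf 1)) (.leaf 1))) (.cut 0 (.leaf 0) (.leaf 1)))))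
    [⟨0, 1, 4⟩, ⟨0, 1, 2⟩] = true := checkAlt_cut chkG_10 chkG_23

theorem chkG_25 : checkAlt 2 (envAlts 7 eEnvG [9953, 33177]) (.leaf 0)
    [⟨2, 3, 8⟩, ⟨0, 1, 8⟩] = true := chkG_leaves1.2.1

theorem chkG_26 : checkAlt 2 (envAlts 7 eEnvG [9953, 33177]) (.cut 0 (.leaf 0) (.leaf 1))
    [⟨4, 5, 16⟩, ⟨2, 3, 16⟩] = true := chkG_leaves1.2.2.1

theorem chkG_27 : checkAlt 2 (envAlts 7 eEnvG [9953, 33177]) (.leaf 1)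
    [⟨4, 5, 16⟩, ⟨3, 4, 16⟩] = true := chkG_leaves1.2.2.2.1

theorem chkG_28 : checkAlt 2 (envAlts 7 eEnvG [9953, 33177]) (.cut 1 (.cut 0 (.leaf 0) (.leaf 1)) (.leaf 1))
    [⟨4, 5, 16⟩, ⟨1, 2, 8⟩] = true := checkAlt_cut chkG_26 chkG_27

theorem chkG_29 : checkAlt 2 (envAlts 7 eEnvG [9953, 33177]) (.leaf 1)
    [⟨5, 6, 16⟩, ⟨1, 2, 8⟩] = true := chkG_leaves1.2.2.2.2.1

theorem chkG_30 : checkAlt 2 (envAlts 7 eEnvG [9953, 33177]) (.cut 0 (.cut 1 (.cut 0 (.leaf 0) (.leaf 1)) (.leaf 1)) (.leaf 1))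
    [⟨2, 3, 8⟩, ⟨1, 2, 8⟩] = true := checkAlt_cut chkG_28 chkG_29

theorem chkG_31 : checkAlt 2 (envAlts 7 eEnvG [9953, 33177]) (.cut 1 (.leaf 0) (.cut 0 (.cut 1 (.cut 0 (.leaf 0) (.leaf 1)) (.leaf 1)) (.leaf 1)))
    [⟨2, 3, 8⟩, ⟨0, 1, 4⟩] = true := checkAlt_cut chkG_25 chkG_30

theorem chkG_32 : checkAlt 2 (envAlts 7 eEnvG [9953, 33177]) (.leaf 0)
    [⟨6, 7, 16⟩, ⟨0, 1, 8⟩] = true := chkG_leaves1.2.2.2.2.2.1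

theorem chkG_33 : checkAlt 2 (envAlts 7 eEnvG [9953, 33177]) (.cut 1 (.leaf 0) (.leaf 1))
    [⟨7, 8, 16⟩, ⟨0, 1, 8⟩] = true := chkG_leaves1.2.2.2.2.2.2.1

theorem chkG_34 : checkAlt 2 (envAlts 7 eEnvG [9953, 33177]) (.cut 0 (.leaf 0) (.cut 1 (.leaf 0) (.leaf 1)))
    [⟨3, 4, 8⟩, ⟨0, 1, 8⟩] = true := checkAlt_cut chkG_32 chkG_33

theorem chkG_35 : checkAlt 2 (envAlts 7 eEnvG [9953, 33177]) (.leaf 1)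
    [⟨3, 4, 8⟩, ⟨1, 2, 8⟩] = true := chkG_leaves1.2.2.2.2.2.2.2.1

theorem chkG_36 : checkAlt 2 (envAlts 7 eEnvG [9953, 33177]) (.cut 1 (.cut 0 (.leaf 0) (.cut 1 (.leaf 0) (.leaf 1))) (.leaf 1))
    [⟨3, 4, 8⟩, ⟨0, 1, 4⟩] = true := checkAlt_cut chkG_34 chkG_35

theorem chkG_37 : checkAlt 2 (envAlts 7 eEnvG [9953, 33177]) (.cut 0 (.cut 1 (.leaf 0) (.cut 0 (.cut 1 (.cut 0 (.leaf 0) (.leaf 1)) (.leaf 1)) (.leaf 1))) (.cut 1 (.cut 0 (.leaf 0) (.cut 1 (.leaf 0) (.leaf 1))) (.leaf 1)))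
    [⟨1, 2, 4⟩, ⟨0, 1, 4⟩] = true := checkAlt_cut chkG_31 chkG_36

theorem chkG_38 : checkAlt 2 (envAlts 7 eEnvG [9953, 33177]) (.leaf 1)
    [⟨1, 2, 4⟩, ⟨1, 2, 4⟩] = true := chkG_leaves1.2.2.2.2.2.2.2.2.1

theorem chkG_39 : checkAlt 2 (envAlts 7 eEnvG [9953, 33177]) (.cut 1 (.cut 0 (.cut 1 (.leaf 0) (.cut 0 (.cut 1 (.cut 0 (.leaf 0) (.leaf 1)) (.leaf 1)) (.leaf 1))) (.cut 1 (.cut 0 (.leaf 0) (.cut 1 (.leaf 0) (.leaf 1))) (.leaf 1))) (.leaf 1))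
    [⟨1, 2, 4⟩, ⟨0, 1, 2⟩] = true := checkAlt_cut chkG_37 chkG_38

theorem chkG_40 : checkAlt 2 (envAlts 7 eEnvG [9953, 33177]) (.cut 0 (.cut 1 (.cut 0 (.leaf 0) (.cut 1 (.leaf 0) (.cut 0 (.leaf 0) (.cut 1 (.leaf 0) (.cut 0 (.leaf 2) (.cut 1 (.leaf 3) (.leaf 1))))))) (.cut 0 (.leaf 0) (.cut 1 (.cut 0 (.leaf 0) (.cut 1 (.cut 0 (.cut 1 (.cut 0 (.leaf 0) (.leaf 1)) (.cut 0 (.leaf 3) (.leaf 1))) (.leaf 1)) (.leaf 1))) (.cut 0 (.leaf 0) (.leaf 1))))) (.cut 1 (.cut 0 (.cut 1 (.leaf 0) (.cut 0 (.cut 1 (.cut 0 (.leaf 0) (.leaf 1)) (.leaf 1)) (.leaf 1))) (.cut 1 (.cut 0 (.leaf 0) (.cut 1 (.leaf 0) (.leaf 1))) (.leaf 1))) (.leaf 1)))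
    [⟨0, 1, 2⟩, ⟨0, 1, 2⟩] = true := checkAlt_cut chkG_24 chkG_39

theorem chkG_41 : checkAlt 2 (envAlts 7 eEnvG [9953, 33177]) (.cut 0 (.leaf 0) (.leaf 0))
    [⟨0, 1, 2⟩, ⟨1, 2, 2⟩] = true := chkG_leaves1.2.2.2.2.2.2.2.2.2.1

theorem chkG_42 : checkAlt 2 (envAlts 7 eEnvG [9953, 33177]) (.cut 1 (.cut 0 (.cut 1 (.cut 0 (.leaf 0) (.cut 1 (.leaf 0) (.cut 0 (.leaf 0) (.cut 1 (.leaf 0) (.cut 0 (.leaf 2) (.cut 1 (.leaf 3) (.leaf 1))))))) (.cut 0 (.leaf 0) (.cut 1 (.cut 0 (.leaf 0) (.cut 1 (.cut 0 (.cut 1 (.cut 0 (.leaf 0) (.leaf 1)) (.cut 0 (.leaf 3) (.leaf 1))) (.leaf 1)) (.leaf 1))) (.cut 0 (.leaf 0) (.leaf 1))))) (.cut 1 (.cut 0 (.cut 1 (.leaf 0) (.cut 0 (.cut 1 (.cut 0 (.leaf 0) (.leaf 1)) (.leaf 1)) (.leaf 1))) (.cut 1 (.cut 0 (.leaf 0) (.cut 1 (.leaf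 0) (.leaf 1))) (.leaf 1))) (.leaf 1))) (.cut 0 (.leaf 0) (.leaf 0)))
    [⟨0, 1, 2⟩, ⟨0, 1, 1⟩] = true := checkAlt_cut chkG_40 chkG_41

theorem chkG_43 : checkAlt 2 (envAlts 7 eEnvG [9953, 33177]) (.cut 1 (.leaf 0) (.leaf 1))
    [⟨8, 9, 16⟩, ⟨0, 1, 8⟩] = true := chkG_leaves1.2.2.2.2.2.2.2.2.2.2.1

theorem chkG_44 : checkAlt 2 (envAlts 7 eEnvG [9953, 33177]) (.cut 1 (.leaf 0) (.leaf 1))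
    [⟨18, 19, 32⟩, ⟨0, 1, 16⟩] = true := chkG_leaves1.2.2.2.2.2.2.2.2.2.2.2

theorem chkG_45 : checkAlt 2 (envAlts 7 eEnvG [9953, 33177]) (.cut 0 (.leaf 0) (.leaf 1))
    [⟨38, 39, 64⟩, ⟨0, 1, 64⟩] = true := chkG_leaves2.1

theorem chkG_46 : checkAlt 2 (envAlts 7 eEnvG [9953, 33177]) (.leaf 1)
    [⟨38, 39, 64⟩, ⟨1, 2, 64⟩] = true := chkG_leaves2.2.1

theorem chkG_47 : checkAlt 2 (envAlts 7 eEnvG [9953, 33177]) (.cut 1 (.cut 0 (.leaf 0) (.leaf 1)) (.leaf 1))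
    [⟨38, 39, 64⟩, ⟨0, 1, 32⟩] = true := checkAlt_cut chkG_45 chkG_46

theorem chkG_48 : checkAlt 2 (envAlts 7 eEnvG [9953, 33177]) (.leaf 1)
    [⟨39, 40, 64⟩, ⟨0, 1, 32⟩] = true := chkG_leaves2.2.2.1

theorem chkG_49 : checkAlt 2 (envAlts 7 eEnvG [9953, 33177]) (.cut 0 (.cut 1 (.cut 0 (.leaf 0) (.leaf 1)) (.leaf 1)) (.leaf 1))
    [⟨19, 20, 32⟩, ⟨0, 1, 32⟩] = true := checkAlt_cut chkG_47 chkG_48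

theorem chkG_50 : checkAlt 2 (envAlts 7 eEnvG [9953, 33177]) (.leaf 1)
    [⟨19, 20, 32⟩, ⟨1, 2, 32⟩] = true := chkG_leaves2.2.2.2.1

theorem chkG_51 : checkAlt 2 (envAlts 7 eEnvG [9953, 33177]) (.cut 1 (.cut 0 (.cut 1 (.cut 0 (.leaf 0) (.leaf 1)) (.leaf 1)) (.leaf 1)) (.leaf 1))
    [⟨19, 20, 32⟩, ⟨0, 1, 16⟩] = true := checkAlt_cut chkG_49 chkG_50

theorem chkG_52 : checkAlt 2 (envAlts 7 eEnvG [9953, 33177]) (.cut 0 (.cut 1 (.leaf 0) (.leaf 1)) (.cut 1 (.cut 0 (.cut 1 (.cut 0 (.leaf 0) (.leaf 1)) (.leaf 1)) (.leaf 1)) (.leaf 1)))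
    [⟨9, 10, 16⟩, ⟨0, 1, 16⟩] = true := checkAlt_cut chkG_44 chkG_51

theorem chkG_53 : checkAlt 2 (envAlts 7 eEnvG [9953, 33177]) (.leaf 1)
    [⟨9, 10, 16⟩, ⟨1, 2, 16⟩] = true := chkG_leaves2.2.2.2.2.1

theorem chkG_54 : checkAlt 2 (envAlts 7 eEnvG [9953, 33177]) (.cut 1 (.cut 0 (.cut 1 (.leaf 0) (.leaf 1)) (.cut 1 (.cut 0 (.cut 1 (.cut 0 (.leaf 0) (.leaf 1)) (.leaf 1)) (.leaf 1)) (.leaf 1))) (.leaf 1))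
    [⟨9, 10, 16⟩, ⟨0, 1, 8⟩] = true := checkAlt_cut chkG_52 chkG_53

theorem chkG_55 : checkAlt 2 (envAlts 7 eEnvG [9953, 33177]) (.cut 0 (.cut 1 (.leaf 0) (.leaf 1)) (.cut 1 (.cut 0 (.cut 1 (.leaf 0) (.leaf 1)) (.cut 1 (.cut 0 (.cut 1 (.cut 0 (.leaf 0) (.leaf 1)) (.leaf 1)) (.leaf 1)) (.leaf 1))) (.leaf 1)))
    [⟨4, 5, 8⟩, ⟨0, 1, 8⟩] = true := checkAlt_cut chkG_43 chkG_54

theorem chkG_56 : checkAlt 2 (envAlts 7 eEnvG [9953, 33177]) (.leaf 1)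
    [⟨4, 5, 8⟩, ⟨1, 2, 8⟩] = true := chkG_leaves2.2.2.2.2.2.1

theorem chkG_57 : checkAlt 2 (envAlts 7 eEnvG [9953, 33177]) (.cut 1 (.cut 0 (.cut 1 (.leaf 0) (.leaf 1)) (.cut 1 (.cut 0 (.cut 1 (.leaf 0) (.leaf 1)) (.cut 1 (.cut 0 (.cut 1 (.cut 0 (.leaf 0) (.leaf 1)) (.leaf 1)) (.leaf 1)) (.leaf 1))) (.leaf 1))) (.leaf 1))
    [⟨4, 5, 8⟩, ⟨0, 1, 4⟩] = true := checkAlt_cut chkG_55 chkG_56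

theorem chkG_58 : checkAlt 2 (envAlts 7 eEnvG [9953, 33177]) (.leaf 1)
    [⟨5, 6, 8⟩, ⟨0, 1, 4⟩] = true := chkG_leaves2.2.2.2.2.2.2.1

theorem chkG_59 : checkAlt 2 (envAlts 7 eEnvG [9953, 33177]) (.cut 0 (.cut 1 (.cut 0 (.cut 1 (.leaf 0) (.leaf 1)) (.cut 1 (.cut 0 (.cut 1 (.leaf 0) (.leaf 1)) (.cut 1 (.cut 0 (.cut 1 (.cut 0 (.leaf 0) (.leaf 1)) (.leaf 1)) (.leaf 1)) (.leaf 1))) (.leaf 1))) (.leaf 1)) (.leaf 1))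
    [⟨2, 3, 4⟩, ⟨0, 1, 4⟩] = true := checkAlt_cut chkG_57 chkG_58

theorem chkG_60 : checkAlt 2 (envAlts 7 eEnvG [9953, 33177]) (.leaf 1)
    [⟨2, 3, 4⟩, ⟨1, 2, 4⟩] = true := chkG_leaves2.2.2.2.2.2.2.2.1

theorem chkG_61 : checkAlt 2 (envAlts 7 eEnvG [9953, 33177]) (.cut 1 (.cut 0 (.cut 1 (.cut 0 (.cut 1 (.leaf 0) (.leaf 1)) (.cut 1 (.cut 0 (.cut 1 (.leaf 0) (.leaf 1)) (.cut 1 (.cut 0 (.cut 1 (.cut 0 (.leaf 0) (.leaf 1)) (.leaf 1)) (.leaf 1)) (.leaf 1))) (.leaf 1))) (.leaf 1)) (.leaf 1)) (.leaf 1))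
    [⟨2, 3, 4⟩, ⟨0, 1, 2⟩] = true := checkAlt_cut chkG_59 chkG_60

theorem chkG_62 : checkAlt 2 (envAlts 7 eEnvG [9953, 33177]) (.leaf 1)
    [⟨3, 4, 4⟩, ⟨0, 1, 2⟩] = true := chkG_leaves2.2.2.2.2.2.2.2.2.1

theorem chkG_63 : checkAlt 2 (envAlts 7 eEnvG [9953, 33177]) (.cut 0 (.cut 1 (.cut 0 (.cut 1 (.cut 0 (.cut 1 (.leaf 0) (.leaf 1)) (.cut 1 (.cut 0 (.cut 1 (.leaf 0) (.leaf 1)) (.cut 1 (.cut 0 (.cut 1 (.cut 0 (.leaf 0) (.leaf 1)) (.leaf 1)) (.leaf 1)) (.leaf 1))) (.leaf 1))) (.leaf 1)) (.leaf 1)) (.leaf 1)) (.leaf 1))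
    [⟨1, 2, 2⟩, ⟨0, 1, 2⟩] = true := checkAlt_cut chkG_61 chkG_62

theorem chkG_64 : checkAlt 2 (envAlts 7 eEnvG [9953, 33177]) (.leaf 0)
    [⟨1, 2, 2⟩, ⟨1, 2, 2⟩] = true := chkG_leaves2.2.2.2.2.2.2.2.2.2

theorem chkG_65 : checkAlt 2 (envAlts 7 eEnvG [9953, 33177]) (.cut 1 (.cut 0 (.cut 1 (.cut 0 (.cut 1 (.cut 0 (.cut 1 (.leaf 0) (.leaf 1)) (.cut 1 (.cut 0 (.cut 1 (.leaf 0) (.leaf 1)) (.cut 1 (.cut 0 (.cut 1 (.cut 0 (.leaf 0) (.leaf 1)) (.leaf 1)) (.leaf 1)) (.leaf 1))) (.leaf 1))) (.leaf 1)) (.leaf 1)) (.leaf 1)) (.leaf 1)) (.leaf 0))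
    [⟨1, 2, 2⟩, ⟨0, 1, 1⟩] = true := checkAlt_cut chkG_63 chkG_64

theorem chkG_66 : checkAlt 2 (envAlts 7 eEnvG [9953, 33177]) (.cut 0 (.cut 1 (.cut 0 (.cut 1 (.cut 0 (.leaf 0) (.cut 1 (.leaf 0) (.cut 0 (.leaf 0) (.cut 1 (.leaf 0) (.cut 0 (.leaf 2) (.cut 1 (.leaf 3) (.leaf 1))))))) (.cut 0 (.leaf 0) (.cut 1 (.cut 0 (.leaf 0) (.cut 1 (.cut 0 (.cut 1 (.cut 0 (.leaf 0) (.leaf 1)) (.cut 0 (.leaf 3) (.leaf 1))) (.leaf 1)) (.leaf 1))) (.cut 0 (.leaf 0) (.leaf 1))))) (.cut 1 (.cut 0 (.cut 1 (.leaf 0) (.cut 0 (.cut 1 (.cut 0 (.leaf 0) (.leaf 1)) (.leaf 1)) (.leaf 1))) (.cut 1 (.cut 0 (.leaf 0) (.cut 1 (.leaf 0) (.leaf 1))) (.leaf 1))) (.leaf 1))) (.cut 0 (.leaf 0) (.leaf 0))) (.cut 1 (.cut 0 (.cut 1 (.cut 0 (.cut 1 (.cut 0 (.cut 1 (.leaf 0) (.leaf 1)) (.cut 1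 (.cut 0 (.cut 1 (.leaf 0) (.leaf 1)) (.cut 1 (.cut 0 (.cut 1 (.cut 0 (.leaf 0) (.leaf 1)) (.leaf 1)) (.leaf 1)) (.leaf 1))) (.leaf 1))) (.leaf 1)) (.leaf 1)) (.leaf 1)) (.leaf 1)) (.leaf 0)))
    [⟨0, 1, 1⟩, ⟨0, 1, 1⟩] = true := checkAlt_cut chkG_42 chkG_65

theorem envG_nonneg {p z : ℝ} (hp : 0 ≤ p) (hp1 : p ≤ 1) (hz : 0 ≤ z) (hz1 : z ≤ 1)
    (hY : 0 ≤ ysum (chart p z)) (hr : 3000 ≤ 1497 * ysum (chart p z)) :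
    0 ≤ eEnvG.eval (pt [p, z]) :=
  env_nonneg (by decide) chkG_66 hp hp1 hz hz1 hY hr

end Vale.Agent.P154.NegEnd2
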