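import Vale.Agent.P154.NegEnd2.EnvDefs

/-!
P154 NegEnd2: certificate of envelope Q (generated).
-/

namespace Vale.Agent.P154.NegEnd2

open PolyCheck NegEnd


theorem chkQ_leaves0 :
    (checkAlt 2 (envAlts 9 eEnvQ [10616832, 106168320, 1061683200]) (.leaf 0) [⟨0, 1, 4⟩, ⟨0, 1, 4⟩] = true) ∧
    (checkAlt 2 (envAlts 9 eEnvQ [10616832, 106168320, 1061683200]) (.leaf 0) [⟨0, 1, 8⟩, ⟨1, 2, 4⟩] = true) ∧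
    (checkAlt 2 (envAlts 9 eEnvQ [10616832, 106168320, 1061683200]) (.leaf 0) [⟨1, 2, 8⟩, ⟨2, 3, 8⟩] = true) ∧
    (checkAlt 2 (envAlts 9 eEnvQ [10616832, 106168320, 1061683200]) (.cut 0 (.leaf 0) (.leaf 1)) [⟨1, 2, 8⟩, ⟨3, 4, 8⟩] = true) ∧
    (checkAlt 2 (envAlts 9 eEnvQ [10616832, 106168320, 1061683200]) (.leaf 0) [⟨2, 3, 8⟩, ⟨0, 1, 4⟩] = true) ∧
    (checkAlt 2 (envAlts 9 eEnvQ [10616832, 106168320, 1061683200]) (.cut 1 (.leaf 0) (.leaf 1)) [⟨3, 4, 8⟩, ⟨0, 1, 4⟩] = true) ∧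
    (checkAlt 2 (envAlts 9 eEnvQ [10616832, 106168320, 1061683200]) (.leaf 1) [⟨1, 2, 4⟩, ⟨1, 2, 4⟩] = true) ∧
    (checkAlt 2 (envAlts 9 eEnvQ [10616832, 106168320, 1061683200]) (.leaf 0) [⟨0, 1, 8⟩, ⟨2, 3, 4⟩] = true) ∧
    (checkAlt 2 (envAlts 9 eEnvQ [10616832, 106168320, 1061683200]) (.leaf 2) [⟨2, 3, 16⟩, ⟨8, 9, 16⟩] = true) ∧
    (checkAlt 2 (envAlts 9 eEnvQ [10616832, 106168320, 1061683200]) (.cut 0 (.leaf 0) (.leaf 1)) [⟨2, 3, 16⟩, ⟨9, 10, 16⟩] = true) := by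
  refine ⟨?_, ?_, ?_, ?_, ?_, ?_, ?_, ?_, ?_, ?_⟩ <;> decide +kernel

theorem chkQ_leaves1 :
    (checkAlt 2 (envAlts 9 eEnvQ [10616832, 106168320, 1061683200]) (.leaf 1) [⟨3, 4, 16⟩, ⟨4, 5, 8⟩] = true) ∧
    (checkAlt 2 (envAlts 9 eEnvQ [10616832, 106168320, 1061683200]) (.cut 0 (.leaf 0) (.leaf 1)) [⟨2, 3, 16⟩, ⟨10, 11, 16⟩] = true) ∧
    (checkAlt 2 (envAlts 9 eEnvQ [10616832, 106168320, 1061683200]) (.cut 0 (.leaf 2) (.leaf 1)) [⟨2, 3, 16⟩, ⟨11, 12, 16⟩] = true) ∧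
    (checkAlt 2 (envAlts 9 eEnvQ [10616832, 106168320, 1061683200]) (.leaf 1) [⟨3, 4, 16⟩, ⟨5, 6, 8⟩] = true) ∧
    (checkAlt 2 (envAlts 9 eEnvQ [10616832, 106168320, 1061683200]) (.cut 0 (.leaf 0) (.leaf 1)) [⟨0, 1, 4⟩, ⟨3, 4, 4⟩] = true) ∧
    (checkAlt 2 (envAlts 9 eEnvQ [10616832, 106168320, 1061683200]) (.leaf 1) [⟨1, 2, 4⟩, ⟨1, 2, 2⟩] = true) ∧
    (checkAlt 2 (envAlts 9 eEnvQ [10616832, 106168320, 1061683200]) (.leaf 0) [⟨8, 9, 16⟩, ⟨0, 1, 8⟩] = true) ∧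
    (checkAlt 2 (envAlts 9 eEnvQ [10616832, 106168320, 1061683200]) (.leaf 0) [⟨18, 19, 32⟩, ⟨0, 1, 16⟩] = true) ∧
    (checkAlt 2 (envAlts 9 eEnvQ [10616832, 106168320, 1061683200]) (.cut 0 (.leaf 0) (.leaf 1)) [⟨38, 39, 64⟩, ⟨0, 1, 64⟩] = true) ∧
    (checkAlt 2 (envAlts 9 eEnvQ [10616832, 106168320, 1061683200]) (.leaf 0) [⟨38, 39, 64⟩, ⟨1, 2, 64⟩] = true) := by
  refine ⟨?_, ?_, ?_, ?_, ?_, ?_, ?_, ?_, ?_, ?_⟩ <;> decide +kernel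

theorem chkQ_leaves2 :
    (checkAlt 2 (envAlts 9 eEnvQ [10616832, 106168320, 1061683200]) (.leaf 1) [⟨39, 40, 64⟩, ⟨0, 1, 32⟩] = true) ∧
    (checkAlt 2 (envAlts 9 eEnvQ [10616832, 106168320, 1061683200]) (.leaf 0) [⟨19, 20, 32⟩, ⟨1, 2, 32⟩] = true) ∧
    (checkAlt 2 (envAlts 9 eEnvQ [10616832, 106168320, 1061683200]) (.leaf 0) [⟨9, 10, 16⟩, ⟨1, 2, 16⟩] = true) ∧
    (checkAlt 2 (envAlts 9 eEnvQ [10616832, 106168320, 1061683200]) (.leaf 1) [⟨4, 5, 8⟩, ⟨1, 2, 8⟩] = true) ∧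
    (checkAlt 2 (envAlts 9 eEnvQ [10616832, 106168320, 1061683200]) (.leaf 1) [⟨5, 6, 8⟩, ⟨0, 1, 4⟩] = true) ∧
    (checkAlt 2 (envAlts 9 eEnvQ [10616832, 106168320, 1061683200]) (.leaf 1) [⟨2, 3, 4⟩, ⟨1, 2, 4⟩] = true) ∧
    (checkAlt 2 (envAlts 9 eEnvQ [10616832, 106168320, 1061683200]) (.leaf 1) [⟨3, 4, 4⟩, ⟨0, 1, 2⟩] = true) ∧
    (checkAlt 2 (envAlts 9 eEnvQ [10616832, 106168320, 1061683200]) (.leaf 1) [⟨1, 2, 2⟩, ⟨1, 2, 2⟩] = true) := by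
  refine ⟨?_, ?_, ?_, ?_, ?_, ?_, ?_, ?_⟩ <;> decide +kernel

theorem chkQ_0 : checkAlt 2 (envAlts 9 eEnvQ [10616832, 106168320, 1061683200]) (.leaf 0)
    [⟨0, 1, 4⟩, ⟨0, 1, 4⟩] = true := chkQ_leaves0.1

theorem chkQ_1 : checkAlt 2 (envAlts 9 eEnvQ [10616832, 106168320, 1061683200]) (.leaf 0)
    [⟨0, 1, 8⟩, ⟨1, 2, 4⟩] = true := chkQ_leaves0.2.1

theorem chkQ_2 : checkAlt 2 (envAlts 9 eEnvQ [10616832, 106168320, 1061683200]) (.leaf 0)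
    [⟨1, 2, 8⟩, ⟨2, 3, 8⟩] = true := chkQ_leaves0.2.2.1

theorem chkQ_3 : checkAlt 2 (envAlts 9 eEnvQ [10616832, 106168320, 1061683200]) (.cut 0 (.leaf 0) (.leaf 1))
    [⟨1, 2, 8⟩, ⟨3, 4, 8⟩] = true := chkQ_leaves0.2.2.2.1

theorem chkQ_4 : checkAlt 2 (envAlts 9 eEnvQ [10616832, 106168320, 1061683200]) (.cut 1 (.leaf 0) (.cut 0 (.leaf 0) (.leaf 1)))
    [⟨1, 2, 8⟩, ⟨1, 2, 4⟩] = true := checkAlt_cut chkQ_2 chkQ_3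

theorem chkQ_5 : checkAlt 2 (envAlts 9 eEnvQ [10616832, 106168320, 1061683200]) (.cut 0 (.leaf 0) (.cut 1 (.leaf 0) (.cut 0 (.leaf 0) (.leaf 1))))
    [⟨0, 1, 4⟩, ⟨1, 2, 4⟩] = true := checkAlt_cut chkQ_1 chkQ_4

theorem chkQ_6 : checkAlt 2 (envAlts 9 eEnvQ [10616832, 106168320, 1061683200]) (.cut 1 (.leaf 0) (.cut 0 (.leaf 0) (.cut 1 (.leaf 0) (.cut 0 (.leaf 0) (.leaf 1)))))
    [⟨0, 1, 4⟩, ⟨0, 1, 2⟩] = true := checkAlt_cut chkQ_0 chkQ_5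

theorem chkQ_7 : checkAlt 2 (envAlts 9 eEnvQ [10616832, 106168320, 1061683200]) (.leaf 0)
    [⟨2, 3, 8⟩, ⟨0, 1, 4⟩] = true := chkQ_leaves0.2.2.2.2.1

theorem chkQ_8 : checkAlt 2 (envAlts 9 eEnvQ [10616832, 106168320, 1061683200]) (.cut 1 (.leaf 0) (.leaf 1))
    [⟨3, 4, 8⟩, ⟨0, 1, 4⟩] = true := chkQ_leaves0.2.2.2.2.2.1

theorem chkQ_9 : checkAlt 2 (envAlts 9 eEnvQ [10616832, 106168320, 1061683200]) (.cut 0 (.leaf 0) (.cut 1 (.leaf 0) (.leaf 1)))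
    [⟨1, 2, 4⟩, ⟨0, 1, 4⟩] = true := checkAlt_cut chkQ_7 chkQ_8

theorem chkQ_10 : checkAlt 2 (envAlts 9 eEnvQ [10616832, 106168320, 1061683200]) (.leaf 1)
    [⟨1, 2, 4⟩, ⟨1, 2, 4⟩] = true := chkQ_leaves0.2.2.2.2.2.2.1

theorem chkQ_11 : checkAlt 2 (envAlts 9 eEnvQ [10616832, 106168320, 1061683200]) (.cut 1 (.cut 0 (.leaf 0) (.cut 1 (.leaf 0) (.leaf 1))) (.leaf 1))
    [⟨1, 2, 4⟩, ⟨0, 1, 2⟩] = true := checkAlt_cut chkQ_9 chkQ_10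

theorem chkQ_12 : checkAlt 2 (envAlts 9 eEnvQ [10616832, 106168320, 1061683200]) (.cut 0 (.cut 1 (.leaf 0) (.cut 0 (.leaf 0) (.cut 1 (.leaf 0) (.cut 0 (.leaf 0) (.leaf 1))))) (.cut 1 (.cut 0 (.leaf 0) (.cut 1 (.leaf 0) (.leaf 1))) (.leaf 1)))
    [⟨0, 1, 2⟩, ⟨0, 1, 2⟩] = true := checkAlt_cut chkQ_6 chkQ_11

theorem chkQ_13 : checkAlt 2 (envAlts 9 eEnvQ [10616832, 106168320, 1061683200]) (.leaf 0)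
    [⟨0, 1, 8⟩, ⟨2, 3, 4⟩] = true := chkQ_leaves0.2.2.2.2.2.2.2.1

theorem chkQ_14 : checkAlt 2 (envAlts 9 eEnvQ [10616832, 106168320, 1061683200]) (.leaf 2)
    [⟨2, 3, 16⟩, ⟨8, 9, 16⟩] = true := chkQ_leaves0.2.2.2.2.2.2.2.2.1

theorem chkQ_15 : checkAlt 2 (envAlts 9 eEnvQ [10616832, 106168320, 1061683200]) (.cut 0 (.leaf 0) (.leaf 1))
    [⟨2, 3, 16⟩, ⟨9, 10, 16⟩] = true := chkQ_leaves0.2.2.2.2.2.2.2.2.2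

theorem chkQ_16 : checkAlt 2 (envAlts 9 eEnvQ [10616832, 106168320, 1061683200]) (.cut 1 (.leaf 2) (.cut 0 (.leaf 0) (.leaf 1)))
    [⟨2, 3, 16⟩, ⟨4, 5, 8⟩] = true := checkAlt_cut chkQ_14 chkQ_15

theorem chkQ_17 : checkAlt 2 (envAlts 9 eEnvQ [10616832, 106168320, 1061683200]) (.leaf 1)
    [⟨3, 4, 16⟩, ⟨4, 5, 8⟩] = true := chkQ_leaves1.1

theorem chkQ_18 : checkAlt 2 (envAlts 9 eEnvQ [10616832, 106168320, 1061683200]) (.cut 0 (.cut 1 (.leaf 2) (.cut 0 (.leaf 0) (.leaf 1))) (.leaf 1))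
    [⟨1, 2, 8⟩, ⟨4, 5, 8⟩] = true := checkAlt_cut chkQ_16 chkQ_17

theorem chkQ_19 : checkAlt 2 (envAlts 9 eEnvQ [10616832, 106168320, 1061683200]) (.cut 0 (.leaf 0) (.leaf 1))
    [⟨2, 3, 16⟩, ⟨10, 11, 16⟩] = true := chkQ_leaves1.2.1

theorem chkQ_20 : checkAlt 2 (envAlts 9 eEnvQ [10616832, 106168320, 1061683200]) (.cut 0 (.leaf 2) (.leaf 1))
    [⟨2, 3, 16⟩, ⟨11, 12, 16⟩] = true := chkQ_leaves1.2.2.1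

theorem chkQ_21 : checkAlt 2 (envAlts 9 eEnvQ [10616832, 106168320, 1061683200]) (.cut 1 (.cut 0 (.leaf 0) (.leaf 1)) (.cut 0 (.leaf 2) (.leaf 1)))
    [⟨2, 3, 16⟩, ⟨5, 6, 8⟩] = true := checkAlt_cut chkQ_19 chkQ_20

theorem chkQ_22 : checkAlt 2 (envAlts 9 eEnvQ [10616832, 106168320, 1061683200]) (.leaf 1)
    [⟨3, 4, 16⟩, ⟨5, 6, 8⟩] = true := chkQ_leaves1.2.2.2.1

theorem chkQ_23 : checkAlt 2 (envAlts 9 eEnvQ [10616832, 106168320, 1061683200]) (.cut 0 (.cut 1 (.cut 0 (.leaf 0) (.leaf 1)) (.cut 0 (.leaf 2) (.leaf 1))) (.leaf 1))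
    [⟨1, 2, 8⟩, ⟨5, 6, 8⟩] = true := checkAlt_cut chkQ_21 chkQ_22

theorem chkQ_24 : checkAlt 2 (envAlts 9 eEnvQ [10616832, 106168320, 1061683200]) (.cut 1 (.cut 0 (.cut 1 (.leaf 2) (.cut 0 (.leaf 0) (.leaf 1))) (.leaf 1)) (.cut 0 (.cut 1 (.cut 0 (.leaf 0) (.leaf 1)) (.cut 0 (.leaf 2) (.leaf 1))) (.leaf 1)))
    [⟨1, 2, 8⟩, ⟨2, 3, 4⟩] = true := checkAlt_cut chkQ_18 chkQ_23

theorem chkQ_25 : checkAlt 2 (envAlts 9 eEnvQ [10616832, 106168320, 1061683200]) (.cut 0 (.leaf 0) (.cut 1 (.cut 0 (.cut 1 (.leaf 2) (.cut 0 (.leaf 0) (.leaf 1))) (.leaf 1)) (.cut 0 (.cut 1 (.cut 0 (.leaf 0) (.leaf 1)) (.cut 0 (.leaf 2) (.leaf 1))) (.leaf 1))))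
    [⟨0, 1, 4⟩, ⟨2, 3, 4⟩] = true := checkAlt_cut chkQ_13 chkQ_24

theorem chkQ_26 : checkAlt 2 (envAlts 9 eEnvQ [10616832, 106168320, 1061683200]) (.cut 0 (.leaf 0) (.leaf 1))
    [⟨0, 1, 4⟩, ⟨3, 4, 4⟩] = true := chkQ_leaves1.2.2.2.2.1

theorem chkQ_27 : checkAlt 2 (envAlts 9 eEnvQ [10616832, 106168320, 1061683200]) (.cut 1 (.cut 0 (.leaf 0) (.cut 1 (.cut 0 (.cut 1 (.leaf 2) (.cut 0 (.leaf 0) (.leaf 1))) (.leaf 1)) (.cut 0 (.cut 1 (.cut 0 (.leaf 0) (.leaf 1)) (.cut 0 (.leaf 2) (.leaf 1))) (.leaf 1)))) (.cut 0 (.leaf 0) (.leaf 1)))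
    [⟨0, 1, 4⟩, ⟨1, 2, 2⟩] = true := checkAlt_cut chkQ_25 chkQ_26

theorem chkQ_28 : checkAlt 2 (envAlts 9 eEnvQ [10616832, 106168320, 1061683200]) (.leaf 1)
    [⟨1, 2, 4⟩, ⟨1, 2, 2⟩] = true := chkQ_leaves1.2.2.2.2.2.1

theorem chkQ_29 : checkAlt 2 (envAlts 9 eEnvQ [10616832, 106168320, 1061683200]) (.cut 0 (.cut 1 (.cut 0 (.leaf 0) (.cut 1 (.cut 0 (.cut 1 (.leaf 2) (.cut 0 (.leaf 0) (.leaf 1))) (.leaf 1)) (.cut 0 (.cut 1 (.cut 0 (.leaf 0) (.leaf 1)) (.cut 0 (.leaf 2) (.leaf 1))) (.leaf 1)))) (.cut 0 (.leaf 0) (.leaf 1))) (.leaf 1))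
    [⟨0, 1, 2⟩, ⟨1, 2, 2⟩] = true := checkAlt_cut chkQ_27 chkQ_28

theorem chkQ_30 : checkAlt 2 (envAlts 9 eEnvQ [10616832, 106168320, 1061683200]) (.cut 1 (.cut 0 (.cut 1 (.leaf 0) (.cut 0 (.leaf 0) (.cut 1 (.leaf 0) (.cut 0 (.leaf 0) (.leaf 1))))) (.cut 1 (.cut 0 (.leaf 0) (.cut 1 (.leaf 0) (.leaf 1))) (.leaf 1))) (.cut 0 (.cut 1 (.cut 0 (.leaf 0) (.cut 1 (.cut 0 (.cut 1 (.leaf 2) (.cut 0 (.leaf 0) (.leaf 1))) (.leaf 1)) (.cut 0 (.cut 1 (.cut 0 (.leaf 0) (.leaf 1)) (.cut 0 (.leaf 2) (.leaf 1))) (.leaf 1)))) (.cut 0 (.leaf 0) (.leaf 1))) (.leaf 1)))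
    [⟨0, 1, 2⟩, ⟨0, 1, 1⟩] = true := checkAlt_cut chkQ_12 chkQ_29

theorem chkQ_31 : checkAlt 2 (envAlts 9 eEnvQ [10616832, 106168320, 1061683200]) (.leaf 0)
    [⟨8, 9, 16⟩, ⟨0, 1, 8⟩] = true := chkQ_leaves1.2.2.2.2.2.2.1

theorem chkQ_32 : checkAlt 2 (envAlts 9 eEnvQ [10616832, 106168320, 1061683200]) (.leaf 0)
    [⟨18, 19, 32⟩, ⟨0, 1, 16⟩] = true := chkQ_leaves1.2.2.2.2.2.2.2.1

theorem chkQ_33 : checkAlt 2 (envAlts 9 eEnvQ [10616832, 106168320, 1061683200]) (.cut 0 (.leaf 0) (.leaf 1))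
    [⟨38, 39, 64⟩, ⟨0, 1, 64⟩] = true := chkQ_leaves1.2.2.2.2.2.2.2.2.1

theorem chkQ_34 : checkAlt 2 (envAlts 9 eEnvQ [10616832, 106168320, 1061683200]) (.leaf 0)
    [⟨38, 39, 64⟩, ⟨1, 2, 64⟩] = true := chkQ_leaves1.2.2.2.2.2.2.2.2.2

theorem chkQ_35 : checkAlt 2 (envAlts 9 eEnvQ [10616832, 106168320, 1061683200]) (.cut 1 (.cut 0 (.leaf 0) (.leaf 1)) (.leaf 0))
    [⟨38, 39, 64⟩, ⟨0, 1, 32⟩] = true := checkAlt_cut chkQ_33 chkQ_34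

theorem chkQ_36 : checkAlt 2 (envAlts 9 eEnvQ [10616832, 106168320, 1061683200]) (.leaf 1)
    [⟨39, 40, 64⟩, ⟨0, 1, 32⟩] = true := chkQ_leaves2.1

theorem chkQ_37 : checkAlt 2 (envAlts 9 eEnvQ [10616832, 106168320, 1061683200]) (.cut 0 (.cut 1 (.cut 0 (.leaf 0) (.leaf 1)) (.leaf 0)) (.leaf 1))
    [⟨19, 20, 32⟩, ⟨0, 1, 32⟩] = true := checkAlt_cut chkQ_35 chkQ_36

theorem chkQ_38 : checkAlt 2 (envAlts 9 eEnvQ [10616832, 106168320, 1061683200]) (.leaf 0)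
    [⟨19, 20, 32⟩, ⟨1, 2, 32⟩] = true := chkQ_leaves2.2.1

theorem chkQ_39 : checkAlt 2 (envAlts 9 eEnvQ [10616832, 106168320, 1061683200]) (.cut 1 (.cut 0 (.cut 1 (.cut 0 (.leaf 0) (.leaf 1)) (.leaf 0)) (.leaf 1)) (.leaf 0))
    [⟨19, 20, 32⟩, ⟨0, 1, 16⟩] = true := checkAlt_cut chkQ_37 chkQ_38

theorem chkQ_40 : checkAlt 2 (envAlts 9 eEnvQ [10616832, 106168320, 1061683200]) (.cut 0 (.leaf 0) (.cut 1 (.cut 0 (.cut 1 (.cut 0 (.leaf 0) (.leaf 1)) (.leaf 0)) (.leaf 1)) (.leaf 0)))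
    [⟨9, 10, 16⟩, ⟨0, 1, 16⟩] = true := checkAlt_cut chkQ_32 chkQ_39

theorem chkQ_41 : checkAlt 2 (envAlts 9 eEnvQ [10616832, 106168320, 1061683200]) (.leaf 0)
    [⟨9, 10, 16⟩, ⟨1, 2, 16⟩] = true := chkQ_leaves2.2.2.1

theorem chkQ_42 : checkAlt 2 (envAlts 9 eEnvQ [10616832, 106168320, 1061683200]) (.cut 1 (.cut 0 (.leaf 0) (.cut 1 (.cut 0 (.cut 1 (.cut 0 (.leaf 0) (.leaf 1)) (.leaf 0)) (.leaf 1)) (.leaf 0))) (.leaf 0))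
    [⟨9, 10, 16⟩, ⟨0, 1, 8⟩] = true := checkAlt_cut chkQ_40 chkQ_41

theorem chkQ_43 : checkAlt 2 (envAlts 9 eEnvQ [10616832, 106168320, 1061683200]) (.cut 0 (.leaf 0) (.cut 1 (.cut 0 (.leaf 0) (.cut 1 (.cut 0 (.cut 1 (.cut 0 (.leaf 0) (.leaf 1)) (.leaf 0)) (.leaf 1)) (.leaf 0))) (.leaf 0)))
    [⟨4, 5, 8⟩, ⟨0, 1, 8⟩] = true := checkAlt_cut chkQ_31 chkQ_42

theorem chkQ_44 : checkAlt 2 (envAlts 9 eEnvQ [10616832, 106168320, 1061683200]) (.leaf 1)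
    [⟨4, 5, 8⟩, ⟨1, 2, 8⟩] = true := chkQ_leaves2.2.2.2.1

theorem chkQ_45 : checkAlt 2 (envAlts 9 eEnvQ [10616832, 106168320, 1061683200]) (.cut 1 (.cut 0 (.leaf 0) (.cut 1 (.cut 0 (.leaf 0) (.cut 1 (.cut 0 (.cut 1 (.cut 0 (.leaf 0) (.leaf 1)) (.leaf 0)) (.leaf 1)) (.leaf 0))) (.leaf 0))) (.leaf 1))
    [⟨4, 5, 8⟩, ⟨0, 1, 4⟩] = true := checkAlt_cut chkQ_43 chkQ_44

theorem chkQ_46 : checkAlt 2 (envAlts 9 eEnvQ [10616832, 106168320, 1061683200]) (.leaf 1)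
    [⟨5, 6, 8⟩, ⟨0, 1, 4⟩] = true := chkQ_leaves2.2.2.2.2.1

theorem chkQ_47 : checkAlt 2 (envAlts 9 eEnvQ [10616832, 106168320, 1061683200]) (.cut 0 (.cut 1 (.cut 0 (.leaf 0) (.cut 1 (.cut 0 (.leaf 0) (.cut 1 (.cut 0 (.cut 1 (.cut 0 (.leaf 0) (.leaf 1)) (.leaf 0)) (.leaf 1)) (.leaf 0))) (.leaf 0))) (.leaf 1)) (.leaf 1))
    [⟨2, 3, 4⟩, ⟨0, 1, 4⟩] = true := checkAlt_cut chkQ_45 chkQ_46

theorem chkQ_48 : checkAlt 2 (envAlts 9 eEnvQ [10616832, 106168320, 1061683200]) (.leaf 1)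
    [⟨2, 3, 4⟩, ⟨1, 2, 4⟩] = true := chkQ_leaves2.2.2.2.2.2.1

theorem chkQ_49 : checkAlt 2 (envAlts 9 eEnvQ [10616832, 106168320, 1061683200]) (.cut 1 (.cut 0 (.cut 1 (.cut 0 (.leaf 0) (.cut 1 (.cut 0 (.leaf 0) (.cut 1 (.cut 0 (.cut 1 (.cut 0 (.leaf 0) (.leaf 1)) (.leaf 0)) (.leaf 1)) (.leaf 0))) (.leaf 0))) (.leaf 1)) (.leaf 1)) (.leaf 1))
    [⟨2, 3, 4⟩, ⟨0, 1, 2⟩] = true := checkAlt_cut chkQ_47 chkQ_48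

theorem chkQ_50 : checkAlt 2 (envAlts 9 eEnvQ [10616832, 106168320, 1061683200]) (.leaf 1)
    [⟨3, 4, 4⟩, ⟨0, 1, 2⟩] = true := chkQ_leaves2.2.2.2.2.2.2.1

theorem chkQ_51 : checkAlt 2 (envAlts 9 eEnvQ [10616832, 106168320, 1061683200]) (.cut 0 (.cut 1 (.cut 0 (.cut 1 (.cut 0 (.leaf 0) (.cut 1 (.cut 0 (.leaf 0) (.cut 1 (.cut 0 (.cut 1 (.cut 0 (.leaf 0) (.leaf 1)) (.leaf 0)) (.leaf 1)) (.leaf 0))) (.leaf 0))) (.leaf 1)) (.leaf 1)) (.leaf 1)) (.leaf 1))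
    [⟨1, 2, 2⟩, ⟨0, 1, 2⟩] = true := checkAlt_cut chkQ_49 chkQ_50

theorem chkQ_52 : checkAlt 2 (envAlts 9 eEnvQ [10616832, 106168320, 1061683200]) (.leaf 1)
    [⟨1, 2, 2⟩, ⟨1, 2, 2⟩] = true := chkQ_leaves2.2.2.2.2.2.2.2

theorem chkQ_53 : checkAlt 2 (envAlts 9 eEnvQ [10616832, 106168320, 1061683200]) (.cut 1 (.cut 0 (.cut 1 (.cut 0 (.cut 1 (.cut 0 (.leaf 0) (.cut 1 (.cut 0 (.leaf 0) (.cut 1 (.cut 0 (.cut 1 (.cut 0 (.leaf 0) (.leaf 1)) (.leaf 0)) (.leaf 1)) (.leaf 0))) (.leaf 0))) (.leaf 1)) (.leaf 1)) (.leaf 1)) (.leaf 1)) (.leaf 1))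
    [⟨1, 2, 2⟩, ⟨0, 1, 1⟩] = true := checkAlt_cut chkQ_51 chkQ_52

theorem chkQ_54 : checkAlt 2 (envAlts 9 eEnvQ [10616832, 106168320, 1061683200]) (.cut 0 (.cut 1 (.cut 0 (.cut 1 (.leaf 0) (.cut 0 (.leaf 0) (.cut 1 (.leaf 0) (.cut 0 (.leaf 0) (.leaf 1))))) (.cut 1 (.cut 0 (.leaf 0) (.cut 1 (.leaf 0) (.leaf 1))) (.leaf 1))) (.cut 0 (.cut 1 (.cut 0 (.leaf 0) (.cut 1 (.cut 0 (.cut 1 (.leaf 2) (.cut 0 (.leaf 0) (.leaf 1))) (.leaf 1)) (.cut 0 (.cut 1 (.cut 0 (.leaf 0) (.leaf 1)) (.cut 0 (.leaf 2) (.leaf 1))) (.leaf 1)))) (.cut 0 (.leaf 0) (.leaf 1))) (.leaf 1))) (.cut 1 (.cut 0 (.cut 1 (.cut 0 (.cut 1 (.cut 0 (.leaf 0) (.cut 1 (.cut 0 (.leaf 0) (.cut 1 (.cut 0 (.cut 1 (.cut 0 (.leaf 0) (.leaf 1)) (.leaf 0)) (.leaf 1)) (.leaf 0))) (.leaf 0))) (.leaf 1)) (.leaf 1)) (.leaf 1)) (.leaf 1))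 (.leaf 1)))
    [⟨0, 1, 1⟩, ⟨0, 1, 1⟩] = true := checkAlt_cut chkQ_30 chkQ_53

theorem envQ_nonneg {p z : ℝ} (hp : 0 ≤ p) (hp1 : p ≤ 1) (hz : 0 ≤ z) (hz1 : z ≤ 1)
    (hY : 0 ≤ ysum (chart p z)) (hr : 3000 ≤ 1497 * ysum (chart p z)) :
    0 ≤ eEnvQ.eval (pt [p, z]) :=
  env_nonneg (by decide) chkQ_54 hp hp1 hz hz1 hY hr

end Vale.Agent.P154.NegEnd2
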