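import Vale.Agent.P154.NegEnd2.EnvDefs

/-!
P154 NegEnd2: certificate of envelope V, on all deviations (generated).
-/

namespace Vale.Agent.P154.NegEnd2

open PolyCheck NegEnd


theorem chkV_leaves0 :
    (checkAlt 2 [[eEnvV]] (.leaf 0) [⟨0, 1, 4⟩, ⟨0, 1, 2⟩] = true) ∧
    (checkAlt 2 [[eEnvV]] (.cut 0 (.leaf 0) (.leaf 0)) [⟨1, 2, 4⟩, ⟨0, 1, 4⟩] = true) := by
  refine ⟨?_, ?_⟩ <;> decide +kernel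

theorem chkV_leaves1 :
    (checkAlt 2 [[eEnvV]] (.leaf 0) [⟨1, 2, 4⟩, ⟨1, 2, 4⟩] = true) ∧
    (checkAlt 2 [[eEnvV]] (.leaf 0) [⟨0, 1, 2⟩, ⟨1, 2, 2⟩] = true) := by
  refine ⟨?_, ?_⟩ <;> decide +kernel

theorem chkV_leaves2 : (checkAlt 2 [[eEnvV]] (.cut 1 (.leaf 0) (.leaf 0)) [⟨1, 2, 2⟩, ⟨0, 1, 1⟩] = true) := by
  decide +kernel

theorem chkV_0 : checkAlt 2 [[eEnvV]] (.leaf 0)
    [⟨0, 1, 4⟩, ⟨0, 1, 2⟩] = true := chkV_leaves0.1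

theorem chkV_1 : checkAlt 2 [[eEnvV]] (.cut 0 (.leaf 0) (.leaf 0))
    [⟨1, 2, 4⟩, ⟨0, 1, 4⟩] = true := chkV_leaves0.2

theorem chkV_2 : checkAlt 2 [[eEnvV]] (.leaf 0)
    [⟨1, 2, 4⟩, ⟨1, 2, 4⟩] = true := chkV_leaves1.1

theorem chkV_3 : checkAlt 2 [[eEnvV]] (.cut 1 (.cut 0 (.leaf 0) (.leaf 0)) (.leaf 0))
    [⟨1, 2, 4⟩, ⟨0, 1, 2⟩] = true := checkAlt_cut chkV_1 chkV_2

theorem chkV_4 : checkAlt 2 [[eEnvV]] (.cut 0 (.leaf 0) (.cut 1 (.cut 0 (.leaf 0) (.leaf 0)) (.leaf 0)))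
    [⟨0, 1, 2⟩, ⟨0, 1, 2⟩] = true := checkAlt_cut chkV_0 chkV_3

theorem chkV_5 : checkAlt 2 [[eEnvV]] (.leaf 0)
    [⟨0, 1, 2⟩, ⟨1, 2, 2⟩] = true := chkV_leaves1.2

theorem chkV_6 : checkAlt 2 [[eEnvV]] (.cut 1 (.cut 0 (.leaf 0) (.cut 1 (.cut 0 (.leaf 0) (.leaf 0)) (.leaf 0))) (.leaf 0))
    [⟨0, 1, 2⟩, ⟨0, 1, 1⟩] = true := checkAlt_cut chkV_4 chkV_5

theorem chkV_7 : checkAlt 2 [[eEnvV]] (.cut 1 (.leaf 0) (.leaf 0))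
    [⟨1, 2, 2⟩, ⟨0, 1, 1⟩] = true := chkV_leaves2

theorem chkV_8 : checkAlt 2 [[eEnvV]] (.cut 0 (.cut 1 (.cut 0 (.leaf 0) (.cut 1 (.cut 0 (.leaf 0) (.leaf 0)) (.leaf 0))) (.leaf 0)) (.cut 1 (.leaf 0) (.leaf 0)))
    [⟨0, 1, 1⟩, ⟨0, 1, 1⟩] = true := checkAlt_cut chkV_6 chkV_7

theorem envV_nonneg {p z : ℝ} (hp : 0 ≤ p) (hp1 : p ≤ 1) (hz : 0 ≤ z) (hz1 : z ≤ 1) :
    0 ≤ eEnvV.eval (pt [p, z]) :=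
  single_nonneg chkV_8 hp hp1 hz hz1

end Vale.Agent.P154.NegEnd2
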