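import Vale.Agent.P154.NegEnd2.Envelopes
import Vale.Agent.P154.NegEnd2.EdgeChk
import Vale.Agent.P154.NegEnd2.Closing
import Vale.Agent.P154.NegEnd2.Bounds
import Vale.Agent.P154.Neg3.Assembly
import Vale.Agent.P154.NegLocal.SmallAssembly

/-!
P154 NegEnd2: the pointwise tangent certificate on `[-497/1000, -473/1000]`, tangent point at most `113/1000`.
-/

namespace Vale.Agent.P154.NegEnd2

open PolyCheck NegEnd

/-- The multiplier at `lam`. -/
noncomputable def mult (lam m : ℝ) : ℝ := m * muFac (-lam) m / 2400000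

/-- The negated multiplier endpoints are nonnegative. -/
lemma muA_nonneg {m : ℝ} (hm : 0 ≤ m) (hm1 : m ≤ 113 / 1000) :
    hor muA m ≤ 0 ∧ hor muA m + 24 * hor muB m ≤ 0 := by
  have hI : (⟨0, 113, 1000⟩ : Iv).Mem m :=
    mem_iv (by norm_num) (by norm_num; linarith) (by norm_num; linarith)
  have h1 := nonneg₁ (Ex.c 0 - horEx muA (Ex.v 0)) ⟨0, 113, 1000⟩
    (.cut 0 (.cut 0 .leaf .leaf) (.cut 0 .leaf .leaf)) (by decide +kernel) hI
  have h2 := nonneg₁ (Ex.c 0 - (horEx muA (Ex.v 0) + Ex.c 24 * horEx muB (Ex.v 0))) ⟨0, 113, 1000⟩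
    (.cut 0 (.cut 0 .leaf .leaf) (.cut 0 .leaf .leaf)) (by decide +kernel) hI
  simp only [eval_sub, eval_add, eval_mul, eval_c, horEx_eval, eval_v, pt_zero] at h1 h2
  push_cast at h1 h2
  exact ⟨by linarith, by linarith⟩

lemma mult_nonpos {lam m : ℝ} (h0 : -(497 / 1000) ≤ lam) (h1 : lam ≤ -(473 / 1000)) (hm : 0 ≤ m)
    (hm1 : m ≤ 113 / 1000) : mult lam m ≤ 0 := by
  obtain ⟨hA, hB⟩ := muA_nonneg hm hm1
  have : muFac (-lam) m ≤ 0 := by
    rw [muFac]
    have ht0 : 0 ≤ 1000 * -lam - 473 := by linarith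
    have ht1 : 1000 * -lam - 473 ≤ 24 := by linarith
    rcases le_or_gt (hor muB m) 0 with h | h
    · linarith [mul_nonpos_of_nonneg_of_nonpos ht0 h]
    · linarith [mul_le_mul_of_nonneg_right ht1 h.le]
  rw [mult]
  exact div_nonpos_of_nonpos_of_nonneg (mul_nonpos_of_nonneg_of_nonpos hm this) (by norm_num)

lemma tLo'_nonneg {x : ℝ} (h0 : 0 ≤ x) (h2 : x ≤ 31 / 10) : 0 ≤ tLo' x := by
  rw [Ser.tLo'_eq]
  have := Ser.T_eleven_le ⟨h0, h2⟩
  linarith

lemma tHi'_nonneg {x : ℝ} (h0 : 0 ≤ x) : 0 ≤ tHi' x := by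
  have := NegMid.TanBd.T_sign 12 x h0
  norm_num at this
  rw [Ser.tHi'_eq]
  have : Real.exp (-x) ≤ 1 := Real.exp_le_one_iff.2 (by linarith)
  linarith

lemma edge_le {v : Fin 3 → ℝ} (hv : Dev v) {l : ℝ} (hl : 473 / 1000 ≤ l) (hl1 : l ≤ 497 / 1000)
    (hM : ∀ i, v i ≤ l) (j : Fin 5) : vert (atom j) v ≤ 31 / 10 * l ^ 2 := by
  obtain ⟨p, z, hp, hp1, hz, hz1, hY, hr, -, -, hT⟩ := exists_chart hv hM
  obtain ⟨-, -, eTau⟩ := chart_facts p z hY
  show vert (fun i => (atomI j i : ℝ) / 6) v ≤ _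
  rw [hT _ (atomI_sum j)]
  have hchk : ∃ T, checkAlt 3 (edgeAlts j) T [⟨0, 1, 1⟩, ⟨0, 1, 1⟩, ⟨473, 497, 1000⟩] = true := by
    fin_cases j <;> first
      | exact ⟨_, chkEdge0⟩ | exact ⟨_, chkEdge1⟩ | exact ⟨_, chkEdge2⟩ | exact ⟨_, chkEdge3⟩
      | exact ⟨_, chkEdge4⟩
  obtain ⟨T, hchk⟩ := hchk
  obtain ⟨es, hes, hall⟩ := checkAlt_sound 3 _ T _ (pt [p, z, l]) hchk
    (show BoxMem [⟨0, 1, 1⟩, ⟨0, 1, 1⟩, ⟨473, 497, 1000⟩] (pt [p, z, l]) from
      ⟨mem_iv (by norm_num) (by norm_num; exact hp) (by norm_num; exact hp1),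
      mem_iv (by norm_num) (by norm_num; exact hz) (by norm_num; exact hz1),
      mem_iv (by norm_num) (by norm_num; exact hl) (by norm_num; exact hl1), trivial⟩)
  have hy : eYs.eval (pt [p, z, l]) = ysum (chart p z) := by
    simp [eYs, eY, pt, ysum, chart]
  have ht : (eT (atomI j)).eval (pt [p, z, l]) = 2 * ysum (chart p z) * tau (atomI j) (chart p z) := by
    rw [← eTau]; simp [eT, ePm, eYs, eY, pt]
  simp only [edgeAlts, List.mem_cons, List.not_mem_nil, or_false] at hes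
  rcases hes with rfl | rfl
  · have h := hall _ (List.mem_cons_self ..)
    simp only [eval_sub, eval_mul, eval_pow, eval_c, hy, ht] at h
    simp [pt] at h
    exact le_of_mul_le_mul_left (by linarith) (show (0 : ℝ) < 20 * ysum (chart p z) by positivity)
  · have h := hall _ (List.mem_cons_self ..)
    simp only [eval_sub, eval_mul, eval_add, eval_c, hy] at h
    simp [pt] at h
    linarith

/-- The closing expression is a multiple of the certified bound. -/
lemma Kclo_eq (a η l m : ℝ) :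
    Kclo a η l m = 9580032000000000000000000000000000000000000000000000 *
      (mon 0 0 L_Vp a (-η) 1 / 100000 - mon 2 0 L_G a η l / 100000 -
        mon 4 0 L_Qf a η l / 57600000000 / 2 - 1 / 500 * a ^ 4 +
        (-34441 / 100 * tHi m + 50383 / 100 * tLo (913 / 1000 * m) +
          -12812 / 100 * tHi (761 / 1000 * m) + -1938 / 100 * tHi (607 / 1000 * m) +
          426 / 100 * tLo (402 / 1000 * m)) +
        50383 / 100 * tLo' (913 / 1000 * m) * (mon 2 0 L_D1f a η l / 4800000000) +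
        -12812 / 100 * tHi' (761 / 1000 * m) * (mon 2 0 L_D2f a η l / 4800000000) +
        -1938 / 100 * tHi' (607 / 1000 * m) * (mon 2 0 L_D3f a η l / 4800000000) +
        426 / 100 * tLo' (402 / 1000 * m) * (mon 2 0 L_D4f a η l / 4800000000) +
        m * muFac l m / 2400000 * (mon 2 0 L_Af a η l / 300000 - m)) := by
  simp only [Kclo, hor, h0, h1, h2, h3, h4, tLo, tLo', tHi, tHi', sLo, sLo']
  push_cast
  ring

/-- The pointwise certificate. -/
theorem tanCert {lam : ℝ} (h0 : -(497 / 1000) ≤ lam) (h1 : lam ≤ -(473 / 1000)) :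
    NegLocal.TanCertBelow lam (1 / lam ^ 2) 1 (31 / 10) (113 / 1000) (1 / 500) coef rat atom tLo tLo' tHi tHi'
      (mult lam) := by
  refine ⟨by norm_num, fun j i => by unfold atom; positivity, fun j => ?_,
    fun j => by fin_cases j <;> norm_num [rat], fun u hu => ?_⟩
  · have h := atomI_sum j
    have : ((atomI j 0 : ℝ) + atomI j 1 + atomI j 2) = 6 := by exact_mod_cast h
    simp only [atom, Fin.sum_univ_three]
    linarith
  obtain ⟨l, hl⟩ : ∃ l, l = -lam := ⟨_, rfl⟩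
  have hlam : lam = -l := by linarith
  subst hlam
  have hl0 : 473 / 1000 ≤ l := by linarith
  have hl1 : l ≤ 497 / 1000 := by linarith
  obtain ⟨d, hd⟩ : ∃ d, d = 1 / (-l) ^ 2 := ⟨_, rfl⟩
  rw [← hd]
  have hdl : d * l ^ 2 = 1 := by
    rw [hd, neg_sq, div_mul_cancel₀]
    have : 0 < l := by linarith
    positivity
  have hd0 : 0 ≤ d := hd ▸ by positivity
  obtain ⟨v, hv⟩ : ∃ v : Fin 3 → ℝ, v = fun i => -l * u i := ⟨_, rfl⟩
  have hvd : Dev v := hv ▸ hu.scale (q := 3) (by norm_num) (by norm_num; linarith) (by linarith)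
  have hvl : ∀ i, v i ≤ l := fun i => by
    rw [hv]; nlinarith [hu.2 i]
  have he : ∀ j, edge (-l) d (atom j) u = d * vert (atom j) v := fun j => by rw [edge_eq, hv]
  refine ⟨fun j => ?_, fun m hm hm1 _ => ?_⟩
  · rw [he]
    refine (mul_le_mul_of_nonneg_left (edge_le hvd hl0 hl1 hvl j) hd0).trans (le_of_eq ?_)
    linear_combination (31 / 10 : ℝ) * hdl
  have hS : Neg3.S u = ss u := Neg3.S_eq_ss u
  obtain ⟨hC2, hC1⟩ := Neg3.C_sq_le hu
  have hS0 : 0 ≤ Neg3.S u := by rw [Neg3.S]; positivity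
  have hS1 : Neg3.S u ≤ 1 := hS ▸ ss_le_one (by norm_num) hu
  obtain ⟨a, ha⟩ : ∃ a, a = √(Neg3.S u) := ⟨_, rfl⟩
  have ha0 : 0 ≤ a := ha ▸ Real.sqrt_nonneg _
  have ha2 : a ^ 2 = Neg3.S u := by rw [ha, Real.sq_sqrt hS0]
  have ha1 : a ≤ 1 := ha ▸ Real.sqrt_le_one.2 hS1
  obtain ⟨η, hη, hη1, hCη⟩ : ∃ η, -1 ≤ η ∧ η ≤ 1 ∧ Neg3.C u = η * a ^ 3 := by
    have hsq : Neg3.C u ^ 2 ≤ (a ^ 3) ^ 2 := by
      rw [← pow_mul, mul_comm, pow_mul, ha2]; exact hC2
    obtain ⟨hlo, hhi⟩ := abs_le_of_sq_le_sq' hsq (by positivity)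
    rcases ha0.eq_or_lt with h | h
    · refine ⟨0, by norm_num, by norm_num, ?_⟩
      rw [← h] at hlo hhi
      norm_num at hlo hhi ⊢
      linarith
    · have h3 : 0 < a ^ 3 := by positivity
      exact ⟨Neg3.C u / a ^ 3, (le_div_iff₀ h3).2 (by linarith), (div_le_one h3).2 hhi,
        (div_mul_cancel₀ _ h3.ne').symm⟩
  have hK := closing_nonneg ha0 ha1 hη hη1 (by rw [ha2]; nlinarith [hC1, hCη]) hl0 hl1 hm hm1
  rw [Kclo_eq] at hK
  have hK' := nonneg_of_mul_nonneg_right hK (by norm_num)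
  have eS : Neg3.S v = l ^ 2 * a ^ 2 := by rw [ha2, Neg3.S, Neg3.S, hv]; ring
  have eC : Neg3.C v = -(l ^ 3 * (η * a ^ 3)) := by rw [← hCη, Neg3.C, Neg3.C, hv]; ring
  have hu' := envelope_vertex hu
  rw [← ha2, hCη, sval_vertex] at hu'
  obtain ⟨hG, hD1, hD2, hD3, hD4, hA, hQ⟩ := envelope_edge hvd (fun i => (hvl i).trans hl1)
  rw [eS, eC] at hG hD1 hD2 hD3 hD4 hA hQ
  simp only [sval_edge 2 a η l L_G (by decide), sval_edge 2 a η l L_D1f (by decide),
    sval_edge 2 a η l L_D2f (by decide), sval_edge 2 a η l L_D3f (by decide),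
    sval_edge 2 a η l L_D4f (by decide), sval_edge 2 a η l L_Af (by decide),
    sval_edge 4 a η l L_Qf (by decide)] at hG hD1 hD2 hD3 hD4 hA hQ
  obtain ⟨e, hej⟩ : ∃ e : Fin 5 → ℝ, e = fun j => d * vert (atom j) v := ⟨_, rfl⟩
  have e' : ∀ j, edge (-l) d (atom j) u = e j := fun j => by rw [he, hej]
  have cancel : ∀ x : ℝ, d * (l ^ 2 * x) = x := fun x => by rw [← mul_assoc, hdl, one_mul]
  have fG : ∑ j, coef j * e j ≤ 12239 / 1200 * a ^ 2 + mon 2 0 L_G a η l / 100000 := by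
    refine le_of_eq_of_le ?_ ((mul_le_mul_of_nonneg_left hG hd0).trans_eq ?_)
    · rw [hej, Finset.mul_sum]; congr 1; funext j; ring
    · linear_combination (12239 / 1200 * a ^ 2 + mon 2 0 L_G a η l / 100000) * hdl
  have f1 : mon 2 0 L_D1f a η l / 4800000000 ≤ e 1 - 913 / 1000 * e 0 := by
    have := mul_le_mul_of_nonneg_left hD1 hd0
    rw [mul_div_assoc, cancel] at this
    simp only [hej]; linarith
  have f2 : e 2 - 761 / 1000 * e 0 ≤ mon 2 0 L_D2f a η l / 4800000000 := by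
    have := mul_le_mul_of_nonneg_left hD2 hd0
    rw [mul_div_assoc, cancel] at this
    simp only [hej]; linarith
  have f3 : e 3 - 607 / 1000 * e 0 ≤ mon 2 0 L_D3f a η l / 4800000000 := by
    have := mul_le_mul_of_nonneg_left hD3 hd0
    rw [mul_div_assoc, cancel] at this
    simp only [hej]; linarith
  have f4 : mon 2 0 L_D4f a η l / 4800000000 ≤ e 4 - 402 / 1000 * e 0 := by
    have := mul_le_mul_of_nonneg_left hD4 hd0
    rw [mul_div_assoc, cancel] at this
    simp only [hej]; linarith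
  have fA : e 0 ≤ mon 2 0 L_Af a η l / 300000 := by
    have := mul_le_mul_of_nonneg_left hA hd0
    rw [mul_div_assoc, cancel] at this
    simp only [hej]; linarith
  have fQ : 12812 / 100 * (e 2 - 761 / 1000 * e 0) ^ 2 + 1938 / 100 * (e 3 - 607 / 1000 * e 0) ^ 2 ≤
      mon 4 0 L_Qf a η l / 57600000000 := by
    refine le_of_eq_of_le ?_ ((mul_le_mul_of_nonneg_left hQ (sq_nonneg d)).trans_eq ?_)
    · simp only [hej]; ring
    · linear_combination (mon 4 0 L_Qf a η l / 57600000000 * (d * l ^ 2 + 1)) * hdl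
  have p1 := mul_le_mul_of_nonneg_left f1
    (tLo'_nonneg (x := 913 / 1000 * m) (by positivity) (by linarith))
  have p2 := mul_le_mul_of_nonneg_left f2 (tHi'_nonneg (x := 761 / 1000 * m) (by positivity))
  have p3 := mul_le_mul_of_nonneg_left f3 (tHi'_nonneg (x := 607 / 1000 * m) (by positivity))
  have p4 := mul_le_mul_of_nonneg_left f4
    (tLo'_nonneg (x := 402 / 1000 * m) (by positivity) (by linarith))
  have pA := mul_le_mul_of_nonpos_left (sub_le_sub_right fA m) (mult_nonpos h0 h1 hm hm1)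
  have hSS : ss u ^ 2 = a ^ 4 := by rw [← hS, ← ha2]; ring
  simp only [e', hSS, Fin.sum_univ_five] at fG ⊢
  simp only [Fin.sum_univ_five] at hu'
  simp only [mult, neg_neg] at pA ⊢
  have c0 : coef 0 = -34441 / 100 := rfl
  have c1 : coef 1 = 50383 / 100 := rfl
  have c2 : coef 2 = -12812 / 100 := rfl
  have c3 : coef 3 = -1938 / 100 := rfl
  have c4 : coef 4 = 426 / 100 := rfl
  have r0 : rat 0 = 1 := rfl
  have r1 : rat 1 = 913 / 1000 := rfl
  have r2 : rat 2 = 761 / 1000 := rfl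
  have r3 : rat 3 = 607 / 1000 := rfl
  have r4 : rat 4 = 402 / 1000 := rfl
  norm_num [c0, c1, c2, c3, c4, r0, r1, r2, r3, r4, tanTerm] at fG hu' p1 p2 p3 p4 hK' fQ pA ⊢
  linarith

end Vale.Agent.P154.NegEnd2
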